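import Vale.Agent.P273.H732.Word

/-!
# P273, LIM: the Euler vector along the gaps of `B`

`eulB B p k = vec (y k) + ∑_{f ∈ B, nk f = k} (u_f / y_k) vec (u f)`: the radial vector of the neck
`k` which fixes the gaps outside `B`.  At the dilated points `dpt B N p` it does not depend on `N`.
-/

set_option linter.unusedSectionVars false
set_option linter.unusedSimpArgs false

noncomputable section

open scoped Topology ContDiff
open Filter

namespace Vale.Agent.P273.H732

namespace Reg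

variable {K G : Type} {C : Type} (R : Reg K G)
variable [DecidableEq K] [DecidableEq G] [Fintype G] [Fintype K] [Fintype C]

open Classical in
/-- the Euler vector of the neck `k` along the gaps of `B` (the other gaps are fixed) -/
def eulB (B : Set R.Fr) (p : R.Co C) (k : K) : R.Co C :=
  (fun f => if R.nk f.1 = k ∧ f ∈ B then p.1 f / p.2.2.1 k else 0, 0, Pi.single k 1, 0, 0)

open Classical in
/-- size of a gap in units of the dilation -/
def szB (B : Set R.Fr) (p : R.Co C) (g : G) : ℝ :=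
  if h : g ≠ R.last (R.nk g) then (if (⟨g, h⟩ : R.Fr) ∈ B then p.1 ⟨g, h⟩ else 0)
  else p.2.2.1 (R.nk g) - ∑ f : R.Fr, if R.nk f.1 = R.nk g ∧ f ∈ B then p.1 f else 0

open Classical in
/-- the part of the last gap which is dilated -/
def ulB (B : Set R.Fr) (p : R.Co C) (k : K) : ℝ :=
  p.2.2.1 k - ∑ f : R.Fr, if R.nk f.1 = k ∧ f ∈ B then p.1 f else 0

theorem szB_last (B : Set R.Fr) (p : R.Co C) (k : K) : R.szB B p (R.last k) = R.ulB B p k := by
  unfold szB
  rw [dif_neg (by rw [R.nk_last]; simp), R.nk_last, ulB]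

open Classical in
theorem szB_free (B : Set R.Fr) (p : R.Co C) (f : R.Fr) :
    R.szB B p f.1 = if f ∈ B then p.1 f else 0 := by
  unfold szB; rw [dif_pos f.2]

open Classical in
theorem ulB_pos {B : Set R.Fr} {p : R.Co C} (hp : R.Pos B p) (k : K) : 0 < R.ulB B p k := by
  have h := hp.2 k
  have e : (∑ f : R.Fr, if R.nk f.1 = k ∧ f ∈ B then p.1 f else 0)
      = ∑ f : R.Fr, if f ∈ B ∧ R.nk f.1 = k then p.1 f else 0 := by
    refine Finset.sum_congr rfl fun f _ => ?_
    by_cases h1 : R.nk f.1 = k <;> by_cases h2 : f ∈ B <;> simp [h1, h2]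
  rw [ulB, e]; linarith

open Classical in
theorem ul_dpt' (B : Set R.Fr) (N : ℝ) (p : R.Co C) (k : K) :
    R.ul (R.dpt B N p) k =
      N * R.ulB B p k - ∑ f : R.Fr, if f ∉ B ∧ R.nk f.1 = k then p.1 f else 0 := by
  have e : (∑ f : R.Fr, if R.nk f.1 = k ∧ f ∈ B then p.1 f else 0)
      = ∑ f : R.Fr, if f ∈ B ∧ R.nk f.1 = k then p.1 f else 0 := by
    refine Finset.sum_congr rfl fun f _ => ?_
    by_cases h1 : R.nk f.1 = k <;> by_cases h2 : f ∈ B <;> simp [h1, h2]
  rw [ul_dpt, ulB, e]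

/-! ### homogeneity -/

/-- **at the dilated points the vector does not depend on `N`** -/
theorem eulB_dpt (B : Set R.Fr) {N : ℝ} (hN : N ≠ 0) (p : R.Co C) (k : K) :
    R.eulB B (R.dpt B N p) k = R.eulB B p k := by
  refine Prod.ext ?_ rfl
  funext f
  simp only [eulB, dpt]
  by_cases h : R.nk f.1 = k ∧ f ∈ B
  · rw [if_pos h, if_pos h, if_pos h.2, mul_div_mul_left _ _ hN]
  · rw [if_neg h, if_neg h]

theorem ulB_dpt (B : Set R.Fr) (N : ℝ) (p : R.Co C) (k : K) :
    R.ulB B (R.dpt B N p) k = N * R.ulB B p k := by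
  simp only [ulB, dpt, mul_sub, Finset.mul_sum]
  congr 1
  refine Finset.sum_congr rfl fun f _ => ?_
  by_cases h : R.nk f.1 = k ∧ f ∈ B
  · simp [h]
  · simp [h]

theorem szB_dpt (B : Set R.Fr) (N : ℝ) (p : R.Co C) (g : G) :
    R.szB B (R.dpt B N p) g = N * R.szB B p g := by
  by_cases h : g ≠ R.last (R.nk g)
  · have h1 := R.szB_free B (R.dpt B N p) ⟨g, h⟩
    have h2 := R.szB_free B p ⟨g, h⟩
    simp only at h1 h2
    rw [h1, h2]
    by_cases h3 : (⟨g, h⟩ : R.Fr) ∈ B
    · simp [dpt, h3]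
    · simp [h3]
  · rw [not_not.1 h, szB_last, szB_last, ulB_dpt]

/-! ### components -/

theorem ul_eulB (B : Set R.Fr) (p : R.Co C) {k : K} (hy : p.2.2.1 k ≠ 0) (l : K) :
    R.ul (R.eulB B p k) l = if l = k then R.ulB B p k / p.2.2.1 k else 0 := by
  by_cases h : l = k
  · subst h
    simp only [ul, eulB, Pi.single_eq_same, if_true, ulB]
    rw [sub_div, div_self hy, Finset.sum_div]
    congr 1
    refine Finset.sum_congr rfl fun f _ => ?_
    by_cases h1 : R.nk f.1 = l
    · by_cases h2 : f ∈ B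
      · simp [h1, h2]
      · simp [h1, h2]
    · simp [h1]
  · simp only [ul, eulB, Pi.single_eq_of_ne h, if_neg h, zero_sub, neg_eq_zero]
    refine Finset.sum_eq_zero fun f _ => ?_
    by_cases h1 : R.nk f.1 = l
    · have h2 : R.nk f.1 ≠ k := fun h3 => h (h1 ▸ h3)
      simp [h1, h]
    · simp [h1]

theorem ug_eulB (B : Set R.Fr) (p : R.Co C) {k : K} (hy : p.2.2.1 k ≠ 0) (g : G) :
    R.ug (R.eulB B p k) g = if R.nk g = k then R.szB B p g / p.2.2.1 k else 0 := by
  by_cases h : g ≠ R.last (R.nk g)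
  · have h2 := R.szB_free B p ⟨g, h⟩
    simp only at h2
    rw [h2]
    simp only [ug, dif_pos h, eulB]
    by_cases h1 : R.nk g = k
    · by_cases h3 : (⟨g, h⟩ : R.Fr) ∈ B
      · simp [h1, h3]
      · simp [h1, h3]
    · simp [h1]
  · have h' := not_not.1 h
    simp only [ug, dif_neg h]
    rw [R.ul_eulB B p hy]
    by_cases h1 : R.nk g = k
    · rw [if_pos h1, if_pos h1, h', R.szB_last, h1]
    · rw [if_neg h1, if_neg h1]

theorem fg_eulB (B : Set R.Fr) (p : R.Co C) (k : K) (g : G) : R.fg (R.eulB B p k) g = 0 := by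
  unfold fg; split_ifs <;> simp [eulB, al]

/-- the logarithmic derivatives -/
theorem Z_eulB (B : Set R.Fr) (p : R.Co C) {k : K} (hy : p.2.2.1 k ≠ 0) (g : G) :
    R.Z (R.eulB B p k) g
      = -((if R.nk g = k then R.szB B p g / p.2.2.1 k else 0 : ℝ) : ℂ) := by
  simp only [Z, R.ug_eulB B p hy, R.fg_eulB]
  simp

open Classical in
theorem eulB_eq [DecidableEq C] (B : Set R.Fr) (p : R.Co C) (k : K) :
    R.eulB B p k = R.vec (.y k) +
      ∑ f : R.Fr, (if R.nk f.1 = k ∧ f ∈ B then p.1 f / p.2.2.1 k else 0) •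
        R.vec (C := C) (.u f) := by
  have h1 : ∀ f : R.Fr,
      (if R.nk f.1 = k ∧ f ∈ B then p.1 f / p.2.2.1 k else 0) • R.vec (C := C) (.u f)
      = ((Pi.single f (if R.nk f.1 = k ∧ f ∈ B then p.1 f / p.2.2.1 k else 0), 0, 0, 0, 0)
        : R.Co C) := by
    intro f
    simp only [vec, Prod.smul_mk, smul_zero, ← Pi.single_smul, smul_eq_mul, mul_one]
  rw [Finset.sum_congr rfl fun f _ => h1 f]
  refine Prod.ext ?_ ?_
  · funext f'
    simp only [eulB, vec, Prod.fst_add, Prod.fst_sum, Pi.add_apply, Pi.zero_apply, zero_add,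
      Finset.sum_apply]
    rw [Finset.sum_eq_single f']
    · simp
    · intro b _ hb
      simp [Pi.single_eq_of_ne hb.symm]
    · simp
  · simp only [eulB, vec, Prod.snd_add, Prod.snd_sum]
    simp

open Classical in
/-- the full Euler vector is `eulB` plus the vectors of the gaps outside `B` -/
theorem eul_eq_eulB [DecidableEq C] (B : Set R.Fr) (p : R.Co C) (k : K) :
    R.eul p k = R.eulB B p k +
      ∑ f : R.Fr, (if R.nk f.1 = k ∧ f ∉ B then p.1 f / p.2.2.1 k else 0) •
        R.vec (C := C) (.u f) := by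
  rw [eul_eq, eulB_eq, add_assoc, ← Finset.sum_add_distrib]
  congr 1
  refine Finset.sum_congr rfl fun f _ => ?_
  rw [← add_smul]
  congr 1
  by_cases h1 : R.nk f.1 = k <;> by_cases h2 : f ∈ B <;> simp [h1, h2]

/-- the vector `y k` of a frame may be replaced by `eulB` if the frame contains the vectors of the
gaps of `B` of the neck -/
theorem map_eulB {ι W : Type} [Fintype ι] [DecidableEq ι] [DecidableEq C] [AddCommGroup W]
    [Module ℝ W] (A : (R.Co C) [⋀^ι]→ₗ[ℝ] W) (B : Set R.Fr) (p : R.Co C) (k : K)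
    (v : ι → R.Co C) (i : ι) (hi : v i = R.vec (.y k))
    (hv : ∀ f : R.Fr, f ∈ B → R.nk f.1 = k → ∃ i', i' ≠ i ∧ v i' = R.vec (.u f)) :
    A (Function.update v i (R.eulB B p k)) = A v := by
  classical
  rw [eulB_eq, ← hi]
  refine map_update_add_sum A v i _ _ fun f => ?_
  by_cases h : R.nk f.1 = k ∧ f ∈ B
  · obtain ⟨i', h1, h2⟩ := hv f h.2 h.1
    exact Or.inr ⟨i', h1, h2⟩
  · left
    simp [h]

/-- form with any value at `i`: `eulB` and `eul` give the same value -/
theorem map_eulB_eul {ι W : Type} [Fintype ι] [DecidableEq ι] [DecidableEq C] [AddCommGroup W]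
    [Module ℝ W] (A : (R.Co C) [⋀^ι]→ₗ[ℝ] W) (B : Set R.Fr) (p : R.Co C) (k : K)
    (v : ι → R.Co C) (i : ι)
    (hv : ∀ f : R.Fr, R.nk f.1 = k → ∃ i', i' ≠ i ∧ v i' = R.vec (.u f)) :
    A (Function.update v i (R.eulB B p k)) = A (Function.update v i (R.eul p k)) := by
  have h1 := R.map_eulB A B p k (Function.update v i (R.vec (.y k))) i (by simp)
    (fun f _ hk => by
      obtain ⟨i', h1, h2⟩ := hv f hk
      exact ⟨i', h1, by rw [Function.update_of_ne h1, h2]⟩)
  have h2 := R.map_eul A p k (Function.update v i (R.vec (.y k))) i (by simp)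
    (fun f hk => by
      obtain ⟨i', h1, h2⟩ := hv f hk
      exact ⟨i', h1, by rw [Function.update_of_ne h1, h2]⟩)
  rw [Function.update_idem] at h1 h2
  rw [h1, h2]

/-- two necks at the same time -/
theorem map_eulB2 {ι W : Type} [Fintype ι] [DecidableEq ι] [DecidableEq C] [AddCommGroup W]
    [Module ℝ W] (A : (R.Co C) [⋀^ι]→ₗ[ℝ] W) (B : Set R.Fr) (p : R.Co C) (k l : K)
    (v : ι → R.Co C) (i j : ι) (hij : i ≠ j) (hi : v i = R.vec (.y k)) (hj : v j = R.vec (.y l))
    (hv : ∀ f : R.Fr, f ∈ B → (R.nk f.1 = k ∨ R.nk f.1 = l) →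
      ∃ i', i' ≠ i ∧ i' ≠ j ∧ v i' = R.vec (.u f)) :
    A (Function.update (Function.update v i (R.eulB B p k)) j (R.eulB B p l)) = A v := by
  rw [R.map_eulB A B p l (Function.update v i (R.eulB B p k)) j
    (by rw [Function.update_of_ne hij.symm, hj]) ?_]
  · exact R.map_eulB A B p k v i hi fun f hf hk => by
      obtain ⟨i', h1, _, h3⟩ := hv f hf (Or.inl hk)
      exact ⟨i', h1, h3⟩
  · intro f hf hk
    obtain ⟨i', h1, h2, h3⟩ := hv f hf (Or.inr hk)
    exact ⟨i', h2, by rw [Function.update_of_ne h1, h3]⟩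

/-! ### sums of logarithms -/

theorem lS_eulB [DecidableEq C] (B : Set R.Fr) {S : Finset G} {k : K} (hS : S ⊆ R.neck k)
    (p : R.Co C) (hy : p.2.2.1 k ≠ 0) :
    R.lS S (R.eulB B p k) = -(((∑ g ∈ S, R.szB B p g) / p.2.2.1 k : ℝ) : ℂ) := by
  rw [lS_apply, Finset.sum_congr rfl fun g _ => R.Z_eulB B p hy g, Finset.sum_div,
    Finset.sum_neg_distrib, Complex.ofReal_sum]
  congr 1
  refine Finset.sum_congr rfl fun g hg => ?_
  rw [if_pos (R.mem_neck.1 (hS hg))]

theorem lS_eulB_of_disjoint [DecidableEq C] (B : Set R.Fr) {S : Finset G} {k : K}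
    (hS : Disjoint S (R.neck k)) (p : R.Co C) (hy : p.2.2.1 k ≠ 0) :
    R.lS S (R.eulB B p k) = 0 := by
  rw [lS_apply]
  refine Finset.sum_eq_zero fun g hg => ?_
  have h : R.nk g ≠ k := fun h => Finset.disjoint_left.1 hS hg (R.mem_neck.2 h)
  rw [R.Z_eulB B p hy, if_neg h]
  simp

/-- the dilated sizes of a neck add up to `y` -/
theorem sum_szB (B : Set R.Fr) (p : R.Co C) (k : K) :
    (∑ g : G, if R.nk g = k then R.szB B p g else 0) = p.2.2.1 k := by
  classical
  rw [R.sum_neck, szB_last, ulB]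
  have e : (∑ f : R.Fr, if R.nk f.1 = k then R.szB B p f.1 else 0)
      = ∑ f : R.Fr, if R.nk f.1 = k ∧ f ∈ B then p.1 f else 0 := by
    refine Finset.sum_congr rfl fun f _ => ?_
    rw [szB_free]
    by_cases h1 : R.nk f.1 = k <;> by_cases h2 : f ∈ B <;> simp [h1, h2]
  rw [e]; ring

/-! ### bounds -/

variable [DecidableEq C]

theorem ulB_le {B : Set R.Fr} {p : R.Co C} (hp : R.Inr p) (k : K) :
    R.ulB B p k ≤ p.2.2.1 k := by
  classical
  rw [ulB]
  have h : 0 ≤ ∑ f : R.Fr, if R.nk f.1 = k ∧ f ∈ B then p.1 f else 0 := by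
    refine Finset.sum_nonneg fun f _ => ?_
    split_ifs
    · exact hp.1 f
    · exact le_rfl
  linarith

theorem ul_le_ulB {B : Set R.Fr} {p : R.Co C} (hp : R.Inr p) (k : K) :
    R.ul p k ≤ R.ulB B p k := by
  classical
  rw [ulB, ul]
  have h : (∑ f : R.Fr, if R.nk f.1 = k ∧ f ∈ B then p.1 f else 0)
      ≤ ∑ f : R.Fr, if R.nk f.1 = k then p.1 f else 0 := by
    refine Finset.sum_le_sum fun f _ => ?_
    by_cases h1 : R.nk f.1 = k <;> by_cases h2 : f ∈ B <;> simp [h1, h2, hp.1 f]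
  linarith

theorem szB_nonneg {B : Set R.Fr} {p : R.Co C} (hp : R.Inr p) (hl : ∀ k, 0 ≤ R.ul p k) (g : G) :
    0 ≤ R.szB B p g := by
  by_cases h : g ≠ R.last (R.nk g)
  · have h2 := R.szB_free B p ⟨g, h⟩
    simp only at h2
    rw [h2]
    split_ifs
    · exact hp.1 _
    · exact le_rfl
  · rw [not_not.1 h, szB_last]
    exact (hl _).trans (R.ul_le_ulB hp _)

/-- `|τ g| · (dilated size)` is at most the number of gaps -/
theorem szB_exp_le {B : Set R.Fr} {p : R.Co C} (hp : R.Inr p) (hy : ∀ k, 0 ≤ p.2.2.1 k) (g : G) :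
    R.szB B p g * Real.exp (-R.ug p g) ≤ Fintype.card G := by
  have hc : (1 : ℝ) ≤ Fintype.card G := by
    have : 0 < Fintype.card G := Fintype.card_pos_iff.2 ⟨g⟩
    exact_mod_cast this
  by_cases h : g ≠ R.last (R.nk g)
  · have h2 := R.szB_free B p ⟨g, h⟩
    have h3 := R.ug_free p ⟨g, h⟩
    simp only at h2 h3
    rw [h2, h3]
    split_ifs
    · exact mul_exp_neg_le_one.trans hc
    · rw [zero_mul]; linarith
  · rw [not_not.1 h, szB_last, ug_last]
    have h4 : R.ulB B p (R.nk g) ≤ (Fintype.card G : ℝ) * R.ul p (R.nk g) :=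
      (R.ulB_le hp _).trans (R.y_le hp _ (hy _))
    calc R.ulB B p (R.nk g) * Real.exp (-R.ul p (R.nk g))
        ≤ ((Fintype.card G : ℝ) * R.ul p (R.nk g)) * Real.exp (-R.ul p (R.nk g)) :=
          mul_le_mul_of_nonneg_right h4 (Real.exp_pos _).le
      _ = (Fintype.card G : ℝ) * (R.ul p (R.nk g) * Real.exp (-R.ul p (R.nk g))) := by ring
      _ ≤ (Fintype.card G : ℝ) * 1 :=
          mul_le_mul_of_nonneg_left mul_exp_neg_le_one (Nat.cast_nonneg _)
      _ = _ := mul_one _

/-- the vector `eulB` costs `(number of gaps) / y` -/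
theorem norm_dpsi_eulB_le {B : Set R.Fr} {p : R.Co C} (hp : R.Inr p) (hy : ∀ k, 0 ≤ p.2.2.1 k)
    {k : K} (hk : 0 < p.2.2.1 k) :
    ‖R.dpsi p (R.eulB B p k)‖ ≤ (Fintype.card G : ℝ) * (p.2.2.1 k)⁻¹ := by
  have hB : 0 ≤ (Fintype.card G : ℝ) * (p.2.2.1 k)⁻¹ :=
    mul_nonneg (Nat.cast_nonneg _) (inv_nonneg.2 hk.le)
  have hl : ∀ k, 0 ≤ R.ul p k := fun k => R.ul_nonneg hp k (hy k)
  rw [dpsi_apply, Prod.norm_mk]
  refine max_le ((pi_norm_le_iff_of_nonneg hB).2 fun g => ?_) ?_
  · rw [norm_mul, norm_tau, R.Z_eulB B p hk.ne', norm_neg, Complex.norm_real, Real.norm_eq_abs]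
    split_ifs with h
    · rw [abs_of_nonneg (div_nonneg (R.szB_nonneg hp hl g) hk.le)]
      calc Real.exp (-R.ug p g) * (R.szB B p g / p.2.2.1 k)
          = (R.szB B p g * Real.exp (-R.ug p g)) * (p.2.2.1 k)⁻¹ := by ring
        _ ≤ _ := mul_le_mul_of_nonneg_right (R.szB_exp_le hp hy g) (inv_nonneg.2 hk.le)
    · simpa using hB
  · simpa [eulB] using hB

/-! ### the limit at the dilated points -/

theorem tendsto_pow_mul_exp_neg {ι : Type} {l : Filter ι} {N : ι → ℝ} (hN : Tendsto N l atTop)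
    {a : ℝ} (ha : 0 < a) (c : ℝ) (d : ℕ) :
    Tendsto (fun n => N n ^ d * Real.exp (-(N n * a - c))) l (𝓝 0) := by
  have h1 : Tendsto (fun x : ℝ => x ^ d * Real.exp (-x)) atTop (𝓝 0) :=
    Real.tendsto_pow_mul_exp_neg_atTop_nhds_zero d
  have h2 : Tendsto (fun n => N n * a) l atTop := hN.atTop_mul_const ha
  have h3 := (h1.comp h2).mul_const (Real.exp c / a ^ d)
  rw [zero_mul] at h3
  refine h3.congr fun n => ?_
  simp only [Function.comp]
  rw [mul_pow, neg_sub, sub_eq_add_neg, Real.exp_add]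
  field_simp

/-- the gaps in `B` and the last gaps decay exponentially at the dilated points -/
theorem tendsto_pow_tau_dpt {ι : Type} {l : Filter ι} {N : ι → ℝ} (hN : Tendsto N l atTop)
    (B : Set R.Fr) {p : R.Co C} (hp : R.Pos B p) (d : ℕ) (g : G)
    (hg : g = R.last (R.nk g) ∨ ∃ h : g ≠ R.last (R.nk g), (⟨g, h⟩ : R.Fr) ∈ B) :
    Tendsto (fun n => N n ^ d * ‖R.tau (R.dpt B (N n) p) g‖) l (𝓝 0) := by
  classical
  rcases hg with hg | ⟨h, hB⟩
  · have h1 := tendsto_pow_mul_exp_neg hN (R.ulB_pos hp (R.nk g))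
      (∑ f : R.Fr, if f ∉ B ∧ R.nk f.1 = R.nk g then p.1 f else 0) d
    refine h1.congr fun n => ?_
    rw [norm_tau]
    conv_rhs => rw [hg]
    rw [ug_last, ul_dpt']
  · have h1 := tendsto_pow_mul_exp_neg hN (hp.1 _ hB) 0 d
    refine h1.congr fun n => ?_
    have h3 := R.norm_tau_free (R.dpt B (N n) p) ⟨g, h⟩
    simp only at h3
    rw [h3]
    simp [dpt, hB]

/-- **`N ^ d • dψ (dpt) (eulB) → 0`** -/
theorem tendsto_dpsi_eulB {ι : Type} {l : Filter ι} {N : ι → ℝ} (hN : Tendsto N l atTop)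
    (B : Set R.Fr) {p : R.Co C} (hp : R.Pos B p) (k : K) (hk : p.2.2.1 k ≠ 0) (d : ℕ) :
    Tendsto (fun n => R.dpsi (R.dpt B (N n) p) ((N n) ^ d • R.eulB B (R.dpt B (N n) p) k)) l
      (𝓝 0) := by
  classical
  have h0 : ∀ᶠ n in l, N n ≠ 0 := hN.eventually_ne_atTop 0
  have e : ∀ᶠ n in l, ((fun g => ((N n) ^ d : ℝ) • (R.tau (R.dpt B (N n) p) g *
      R.Z (R.eulB B p k) g), 0) : R.Tg C)
      = R.dpsi (R.dpt B (N n) p) ((N n) ^ d • R.eulB B (R.dpt B (N n) p) k) := by
    filter_upwards [h0] with n hn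
    rw [map_smul, R.eulB_dpt B hn, dpsi_apply]
    refine Prod.ext ?_ ?_
    · funext g; rfl
    · simp [eulB]
  refine Tendsto.congr' e ?_
  refine Tendsto.prodMk_nhds (x := (0 : G → ℂ)) ?_ tendsto_const_nhds
  rw [tendsto_pi_nhds]
  intro g
  rw [Pi.zero_apply, tendsto_zero_iff_norm_tendsto_zero]
  by_cases hg : g = R.last (R.nk g) ∨ ∃ h : g ≠ R.last (R.nk g), (⟨g, h⟩ : R.Fr) ∈ B
  · have h1 := (R.tendsto_pow_tau_dpt hN B hp d g hg).mul_const ‖R.Z (R.eulB B p k) g‖
    rw [zero_mul] at h1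
    refine h1.congr' ?_
    filter_upwards [hN.eventually_ge_atTop 0] with n hn
    rw [norm_smul, norm_mul, Real.norm_eq_abs, abs_of_nonneg (pow_nonneg hn d), mul_assoc]
  · push Not at hg
    have h2 : R.szB B p g = 0 := by
      have := R.szB_free B p ⟨g, hg.1⟩
      simp only at this
      rw [this, if_neg (hg.2 hg.1)]
    have h3 : R.Z (R.eulB B p k) g = 0 := by
      rw [R.Z_eulB B p hk, h2]; simp
    simp only [h3, mul_zero, smul_zero, norm_zero]
    exact tendsto_const_nhds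

/-- the same for the direction `al k` and for the directions `u f`, `ph f`, `f ∈ B`, at every power -/
theorem tendsto_dpsi_vec_dead {ι : Type} {l : Filter ι} {N : ι → ℝ}
    (hN : Tendsto N l atTop) (B : Set R.Fr) {p : R.Co C} (hp : R.Pos B p) (e : R.Dir C)
    (he : R.Dead B e) (d : ℕ) :
    Tendsto (fun n => R.dpsi (R.dpt B (N n) p) ((N n) ^ d • R.vec e)) l (𝓝 0) := by
  have key : ∀ g, R.Z (R.vec e) g = 0 ∨
      (g = R.last (R.nk g) ∨ ∃ h : g ≠ R.last (R.nk g), (⟨g, h⟩ : R.Fr) ∈ B) := by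
    intro g
    have hlast : ∀ k, g = R.last k → g = R.last (R.nk g) := by
      intro k h; conv_rhs => rw [h, R.nk_last]
      exact h
    cases e with
    | u f =>
      rw [Z_vec_u]
      by_cases h1 : g = f.1
      · right; right
        subst h1
        exact ⟨f.2, he⟩
      · by_cases h2 : g = R.last (R.nk f.1)
        · right; left; exact hlast _ h2
        · left; rw [if_neg h1, if_neg h2]
    | ph f =>
      rw [Z_vec_ph]
      by_cases h1 : g = f.1
      · right; right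
        subst h1
        exact ⟨f.2, he⟩
      · by_cases h2 : g = R.last (R.nk f.1)
        · right; left; exact hlast _ h2
        · left; rw [if_neg h1, if_neg h2]
    | y k =>
      rw [Z_vec_y]
      by_cases h2 : g = R.last k
      · right; left; exact hlast _ h2
      · left; rw [if_neg h2]
    | al k =>
      rw [Z_vec_al]
      by_cases h2 : g = R.last k
      · right; left; exact hlast _ h2
      · left; rw [if_neg h2]
    | re c => exact absurd he (by simp [Dead])
    | im c => exact absurd he (by simp [Dead])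
  have h2 : (R.vec e).2.2.2.2 = 0 := by
    cases e with
    | re c => exact absurd he (by simp [Dead])
    | im c => exact absurd he (by simp [Dead])
    | _ => rfl
  simp only [map_smul, dpsi_apply, h2, Prod.smul_mk, smul_zero]
  refine Tendsto.prodMk_nhds (x := (0 : G → ℂ)) ?_ tendsto_const_nhds
  rw [tendsto_pi_nhds]
  intro g
  rw [Pi.zero_apply, tendsto_zero_iff_norm_tendsto_zero]
  rcases key g with h | hg
  · simp only [Pi.smul_apply, h, mul_zero, smul_zero, norm_zero]
    exact tendsto_const_nhds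
  · have h1 := (R.tendsto_pow_tau_dpt hN B hp d g hg).mul_const ‖R.Z (R.vec e) g‖
    rw [zero_mul] at h1
    refine h1.congr' ?_
    filter_upwards [hN.eventually_ge_atTop 0] with n hn
    rw [Pi.smul_apply, norm_smul, norm_mul, Real.norm_eq_abs, abs_of_nonneg (pow_nonneg hn d),
      mul_assoc]

end Reg

end Vale.Agent.P273.H732
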