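import Vale.Agent.P273.H732.Dil

/-!
# P273, LIM: positions of the marks in a region chart

* `Reg.lS S`: the sum of the logarithms of the gaps in `S`, a continuous linear map;
* `wreg n m`: the region chart of necks `k` with `n k` marks and `n k + 1` gaps, `m k` is the
  eliminated gap; `LX`, `LY`: the logarithms of the two neck coordinates of the mark of rank `i`.
-/

set_option linter.unusedSectionVars false
set_option linter.unusedSimpArgs false

noncomputable section

open scoped Topology ContDiff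
open Filter

namespace Vale.Agent.P273.H732

namespace Reg

variable {K G : Type} {C : Type} (R : Reg K G)
variable [DecidableEq K] [DecidableEq G] [Fintype G] [Fintype K] [Fintype C] [DecidableEq C]

/-! ### sums of logarithms -/

/-- the sum of the logarithms of the gaps in `S` -/
def lS (S : Finset G) : R.Co C →L[ℝ] ℂ :=
  ∑ g ∈ S, ((ContinuousLinearMap.proj g : (G → ℂ) →L[ℝ] ℂ).comp R.Zc)

theorem lS_apply (S : Finset G) (p : R.Co C) : R.lS S p = ∑ g ∈ S, R.Z p g := by
  simp [lS]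

theorem exp_lS (S : Finset G) (p : R.Co C) :
    Complex.exp (R.lS S p) = ∏ g ∈ S, R.tau p g := by
  rw [lS_apply, Complex.exp_sum]; rfl

theorem Z_re (p : R.Co C) (g : G) : (R.Z p g).re = -R.ug p g := by simp [Z]

theorem Z_im (p : R.Co C) (g : G) : (R.Z p g).im = R.fg p g := by simp [Z]

theorem lS_re (S : Finset G) (p : R.Co C) : (R.lS S p).re = -∑ g ∈ S, R.ug p g := by
  rw [lS_apply, Complex.re_sum, ← Finset.sum_neg_distrib]
  exact Finset.sum_congr rfl fun g _ => R.Z_re p g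

theorem lS_im (S : Finset G) (p : R.Co C) : (R.lS S p).im = ∑ g ∈ S, R.fg p g := by
  rw [lS_apply, Complex.im_sum]
  exact Finset.sum_congr rfl fun g _ => R.Z_im p g

/-- the gaps of a neck -/
def neck (k : K) : Finset G := Finset.univ.filter fun g => R.nk g = k

theorem mem_neck {k : K} {g : G} : g ∈ R.neck k ↔ R.nk g = k := by simp [neck]

theorem last_mem (k : K) : R.last k ∈ R.neck k := R.mem_neck.2 (R.nk_last k)

theorem lS_neck (p : R.Co C) (k : K) :
    R.lS (R.neck k) p = -(p.2.2.1 k : ℂ) + (p.2.2.2.1 k : ℂ) * Complex.I := by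
  rw [lS_apply, neck, Finset.sum_filter, R.sum_Z]

/-- the two neck coordinates: the logarithms add up to `log ε` -/
theorem lS_add_compl {S : Finset G} {k : K} (hS : S ⊆ R.neck k) (p : R.Co C) :
    R.lS S p + R.lS (R.neck k \ S) p = -(p.2.2.1 k : ℂ) + (p.2.2.2.1 k : ℂ) * Complex.I := by
  rw [← R.lS_neck, lS_apply, lS_apply, lS_apply, add_comm, Finset.sum_sdiff hS]

/-- in the region the real parts are between `-y` and `0` -/
theorem lS_re_nonpos {p : R.Co C} (hp : R.Inr p) (hl : ∀ k, 0 ≤ R.ul p k) (S : Finset G) :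
    (R.lS S p).re ≤ 0 := by
  rw [lS_re, neg_nonpos]
  exact Finset.sum_nonneg fun g _ => R.ug_nonneg hp hl g

theorem norm_exp_lS_le_one {p : R.Co C} (hp : R.Inr p) (hl : ∀ k, 0 ≤ R.ul p k) (S : Finset G) :
    ‖Complex.exp (R.lS S p)‖ ≤ 1 := by
  rw [Complex.norm_exp, Real.exp_le_one_iff]
  exact R.lS_re_nonpos hp hl S

/-! values on the coordinate vectors -/

theorem lS_vec_u (S : Finset G) (f : R.Fr) : R.lS S (R.vec (C := C) (.u f)) =
    (if R.last (R.nk f.1) ∈ S then 1 else 0) - (if f.1 ∈ S then 1 else 0) := by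
  have h : ∀ g : G, R.Z (R.vec (C := C) (.u f)) g =
      (if g = R.last (R.nk f.1) then 1 else 0) - (if g = f.1 then 1 else 0) := by
    intro g
    rw [Z_vec_u]
    by_cases h1 : g = f.1
    · have h2 : g ≠ R.last (R.nk f.1) := by rw [h1]; exact f.2
      simp [h1, f.2]
    · simp [h1]
  rw [lS_apply, Finset.sum_congr rfl fun g _ => h g, Finset.sum_sub_distrib,
    Finset.sum_ite_eq', Finset.sum_ite_eq']

theorem lS_vec_ph (S : Finset G) (f : R.Fr) : R.lS S (R.vec (C := C) (.ph f)) =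
    ((if f.1 ∈ S then 1 else 0) - (if R.last (R.nk f.1) ∈ S then 1 else 0)) * Complex.I := by
  have h : ∀ g : G, R.Z (R.vec (C := C) (.ph f)) g =
      (if g = f.1 then Complex.I else 0) - (if g = R.last (R.nk f.1) then Complex.I else 0) := by
    intro g
    rw [Z_vec_ph]
    by_cases h1 : g = f.1
    · simp [h1, f.2]
    · by_cases h2 : g = R.last (R.nk f.1)
      · have h3 : R.last (R.nk f.1) ≠ f.1 := fun h => f.2 h.symm
        simp [h2, h3]
      · simp [h1, h2]
  rw [lS_apply, Finset.sum_congr rfl fun g _ => h g, Finset.sum_sub_distrib,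
    Finset.sum_ite_eq', Finset.sum_ite_eq', sub_mul]
  split_ifs <;> simp

theorem lS_vec_y (S : Finset G) (k : K) : R.lS S (R.vec (C := C) (.y k)) =
    -(if R.last k ∈ S then 1 else 0) := by
  rw [lS_apply, Finset.sum_congr rfl fun g _ => R.Z_vec_y k g, Finset.sum_ite_eq']
  split_ifs <;> simp

theorem lS_vec_al (S : Finset G) (k : K) : R.lS S (R.vec (C := C) (.al k)) =
    (if R.last k ∈ S then 1 else 0) * Complex.I := by
  rw [lS_apply, Finset.sum_congr rfl fun g _ => R.Z_vec_al k g, Finset.sum_ite_eq']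
  split_ifs <;> simp

theorem lS_vec_re (S : Finset G) (c : C) : R.lS S (R.vec (.re c)) = 0 := by
  rw [lS_apply]
  exact Finset.sum_eq_zero fun g _ => R.Z_vec_re c g

theorem lS_vec_im (S : Finset G) (c : C) : R.lS S (R.vec (.im c)) = 0 := by
  rw [lS_apply]
  exact Finset.sum_eq_zero fun g _ => R.Z_vec_im c g

/-- sums of logarithms have derivatives of norm at most one in the coordinate directions -/
theorem norm_lS_vec_le (S : Finset G) (d : R.Dir C) : ‖R.lS S (R.vec d)‖ ≤ 1 := by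
  cases d with
  | u f => rw [lS_vec_u]; split_ifs <;> simp
  | ph f => rw [lS_vec_ph]; split_ifs <;> simp
  | y k => rw [lS_vec_y]; split_ifs <;> simp
  | al k => rw [lS_vec_al]; split_ifs <;> simp
  | re c => rw [lS_vec_re]; simp
  | im c => rw [lS_vec_im]; simp

/-- rigid directions: both gaps are in `S` or both are not -/
theorem lS_vec_rigid (S : Finset G) (f : R.Fr) (h : f.1 ∈ S ↔ R.last (R.nk f.1) ∈ S) :
    R.lS S (R.vec (C := C) (.u f)) = 0 ∧ R.lS S (R.vec (C := C) (.ph f)) = 0 := by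
  rw [lS_vec_u, lS_vec_ph]
  by_cases h1 : f.1 ∈ S
  · simp [h1, h.1 h1]
  · have h2 : R.last (R.nk f.1) ∉ S := fun h2 => h1 (h.2 h2)
    simp [h1, h2]

/-- the value on the Euler vector -/
theorem lS_eul {S : Finset G} {k : K} (hS : S ⊆ R.neck k) (p : R.Co C) (hy : p.2.2.1 k ≠ 0) :
    R.lS S (R.eul p k) = -(((∑ g ∈ S, R.ug p g) / p.2.2.1 k : ℝ) : ℂ) := by
  rw [lS_apply, Finset.sum_congr rfl fun g _ => R.Z_eul p hy g, Finset.sum_div,
    Finset.sum_neg_distrib, Complex.ofReal_sum]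
  congr 1
  refine Finset.sum_congr rfl fun g hg => ?_
  rw [if_pos (R.mem_neck.1 (hS hg))]

theorem lS_eul_of_disjoint {S : Finset G} {k : K} (hS : Disjoint S (R.neck k)) (p : R.Co C)
    (hy : p.2.2.1 k ≠ 0) : R.lS S (R.eul p k) = 0 := by
  rw [lS_apply]
  refine Finset.sum_eq_zero fun g hg => ?_
  have h : R.nk g ≠ k := fun h => Finset.disjoint_left.1 hS hg (R.mem_neck.2 h)
  rw [R.Z_eul p hy, if_neg h]
  simp

/-- partial sums of sizes are at most `y` -/
theorem sum_ug_le {p : R.Co C} (hp : R.Inr p) (hl : ∀ k, 0 ≤ R.ul p k) {S : Finset G} {k : K}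
    (hS : S ⊆ R.neck k) : ∑ g ∈ S, R.ug p g ≤ p.2.2.1 k := by
  rw [← R.sum_ug p k, ← Finset.sum_filter]
  exact Finset.sum_le_sum_of_subset_of_nonneg hS fun g _ _ => R.ug_nonneg hp hl g

theorem norm_lS_eul_le {p : R.Co C} (hp : R.Inr p) (hl : ∀ k, 0 ≤ R.ul p k) {S : Finset G} {k : K}
    (hS : S ⊆ R.neck k) (hy : 0 < p.2.2.1 k) : ‖R.lS S (R.eul p k)‖ ≤ 1 := by
  rw [R.lS_eul hS p hy.ne', norm_neg, Complex.norm_real, Real.norm_eq_abs, abs_of_nonneg
    (div_nonneg (Finset.sum_nonneg fun g _ => R.ug_nonneg hp hl g) hy.le), div_le_one hy]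
  exact R.sum_ug_le hp hl hS

end Reg

/-! ### the region chart of words -/

/-- necks `k` with `n k` marks and `n k + 1` gaps; `m k` is the eliminated gap -/
def wreg {K : Type} (n : K → ℕ) (m : ∀ k, Fin (n k + 1)) : Reg K (Σ k, Fin (n k + 1)) where
  nk := Sigma.fst
  last k := ⟨k, m k⟩
  nk_last _ := rfl

namespace wreg

variable {K : Type} [DecidableEq K] [Fintype K] (C : Type) [Fintype C] [DecidableEq C] (n : K → ℕ)
  (m : ∀ k, Fin (n k + 1))

/-- the gaps of the neck `k` before the mark of rank `i` -/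
def bef (k : K) (i : Fin (n k)) : Finset (Σ k, Fin (n k + 1)) :=
  (Finset.univ.filter fun j : Fin (n k + 1) => j ≤ i.castSucc).map
    ⟨fun j => ⟨k, j⟩, fun a b h => by simpa using h⟩

/-- the gaps of the neck `k` after the mark of rank `i` -/
def aft (k : K) (i : Fin (n k)) : Finset (Σ k, Fin (n k + 1)) :=
  (Finset.univ.filter fun j : Fin (n k + 1) => i.castSucc < j).map
    ⟨fun j => ⟨k, j⟩, fun a b h => by simpa using h⟩

variable {n}

theorem mem_bef {k : K} {i : Fin (n k)} {g : Σ k, Fin (n k + 1)} :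
    g ∈ bef n k i ↔ ∃ j, j ≤ i.castSucc ∧ (⟨k, j⟩ : Σ k, Fin (n k + 1)) = g := by
  simp only [bef, Finset.mem_map, Finset.mem_filter, Finset.mem_univ, true_and]
  rfl

theorem mem_aft {k : K} {i : Fin (n k)} {g : Σ k, Fin (n k + 1)} :
    g ∈ aft n k i ↔ ∃ j, i.castSucc < j ∧ (⟨k, j⟩ : Σ k, Fin (n k + 1)) = g := by
  simp only [aft, Finset.mem_map, Finset.mem_filter, Finset.mem_univ, true_and]
  rfl

theorem bef_subset (k : K) (i : Fin (n k)) : bef n k i ⊆ (wreg n m).neck k := by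
  intro g hg
  obtain ⟨j, -, rfl⟩ := mem_bef.1 hg
  exact (Reg.mem_neck _).2 rfl

theorem aft_subset (k : K) (i : Fin (n k)) : aft n k i ⊆ (wreg n m).neck k := by
  intro g hg
  obtain ⟨j, -, rfl⟩ := mem_aft.1 hg
  exact (Reg.mem_neck _).2 rfl

theorem sdiff_bef (k : K) (i : Fin (n k)) : (wreg n m).neck k \ bef n k i = aft n k i := by
  ext g
  rw [Finset.mem_sdiff, Reg.mem_neck, mem_bef, mem_aft]
  constructor
  · rintro ⟨h1, h2⟩
    obtain ⟨k', j⟩ := g
    have h1' : k' = k := h1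
    subst h1'
    refine ⟨j, not_le.1 fun h => h2 ⟨j, h, rfl⟩, rfl⟩
  · rintro ⟨j, h1, rfl⟩
    refine ⟨rfl, ?_⟩
    rintro ⟨j', h2, h3⟩
    have : j' = j := by simpa using h3
    subst this
    exact absurd h2 (not_le.2 h1)

variable (n)

/-- logarithm of the first neck coordinate of the mark of rank `i` -/
def LX (k : K) (i : Fin (n k)) : (wreg n m).Co C →L[ℝ] ℂ := (wreg n m).lS (bef n k i)

/-- logarithm of the second neck coordinate of the mark of rank `i` -/
def LY (k : K) (i : Fin (n k)) : (wreg n m).Co C →L[ℝ] ℂ := (wreg n m).lS (aft n k i)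

variable {C n}

theorem LX_add_LY (p : (wreg n m).Co C) (k : K) (i : Fin (n k)) :
    LX C n m k i p + LY C n m k i p = -(p.2.2.1 k : ℂ) + (p.2.2.2.1 k : ℂ) * Complex.I := by
  rw [LX, LY, ← sdiff_bef m, (wreg n m).lS_add_compl (bef_subset m k i)]

/-- `X Y = ε` -/
theorem exp_LX_mul_exp_LY (p : (wreg n m).Co C) (k : K) (i : Fin (n k)) :
    Complex.exp (LX C n m k i p) * Complex.exp (LY C n m k i p)
      = Complex.exp (-(p.2.2.1 k : ℂ) + (p.2.2.2.1 k : ℂ) * Complex.I) := by
  rw [← Complex.exp_add, LX_add_LY]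

/-- the depth of the mark of rank `i` -/
def dep (p : (wreg n m).Co C) (k : K) (i : Fin (n k)) : ℝ :=
  ∑ j : Fin (n k + 1), if j ≤ i.castSucc then (wreg n m).ug p ⟨k, j⟩ else 0

/-- the angle of the mark of rank `i` -/
def ang (p : (wreg n m).Co C) (k : K) (i : Fin (n k)) : ℝ :=
  ∑ j : Fin (n k + 1), if j ≤ i.castSucc then (wreg n m).fg p ⟨k, j⟩ else 0

theorem LX_eq (p : (wreg n m).Co C) (k : K) (i : Fin (n k)) :
    LX C n m k i p = -(dep m p k i : ℂ) + (ang m p k i : ℂ) * Complex.I := by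
  apply Complex.ext
  · rw [LX, Reg.lS_re, bef, Finset.sum_map, Finset.sum_filter]
    simp only [dep, Complex.add_re, Complex.neg_re, Complex.ofReal_re, Complex.mul_re,
      Complex.I_re, Complex.I_im, Complex.ofReal_im, mul_zero, mul_one, sub_zero, add_zero]
    rfl
  · rw [LX, Reg.lS_im, bef, Finset.sum_map, Finset.sum_filter]
    simp only [ang, Complex.add_im, Complex.neg_im, Complex.ofReal_re, Complex.mul_im,
      Complex.I_re, Complex.I_im, Complex.ofReal_im, mul_zero, mul_one, neg_zero, zero_add, add_zero]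
    rfl

theorem LY_eq (p : (wreg n m).Co C) (k : K) (i : Fin (n k)) :
    LY C n m k i p = -((p.2.2.1 k - dep m p k i : ℝ) : ℂ)
      + ((p.2.2.2.1 k - ang m p k i : ℝ) : ℂ) * Complex.I := by
  have h := LX_add_LY m p k i
  rw [LX_eq] at h
  push_cast
  linear_combination h

theorem dep_nonneg {p : (wreg n m).Co C} (hp : (wreg n m).Inr p) (hl : ∀ k, 0 ≤ (wreg n m).ul p k)
    (k : K) (i : Fin (n k)) : 0 ≤ dep m p k i :=
  Finset.sum_nonneg fun j _ => by
    split_ifs
    · exact (wreg n m).ug_nonneg hp hl _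
    · exact le_rfl

theorem dep_mono {p : (wreg n m).Co C} (hp : (wreg n m).Inr p) (hl : ∀ k, 0 ≤ (wreg n m).ul p k)
    (k : K) {i i' : Fin (n k)} (h : i ≤ i') : dep m p k i ≤ dep m p k i' :=
  Finset.sum_le_sum fun j _ => by
    have h0 := (wreg n m).ug_nonneg hp hl ⟨k, j⟩
    by_cases h1 : j ≤ i.castSucc
    · rw [if_pos h1, if_pos (h1.trans (Fin.castSucc_le_castSucc_iff.2 h))]
    · rw [if_neg h1]
      split_ifs
      · exact h0
      · exact le_rfl

theorem dep_le {p : (wreg n m).Co C} (hp : (wreg n m).Inr p) (hl : ∀ k, 0 ≤ (wreg n m).ul p k)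
    (k : K) (i : Fin (n k)) : dep m p k i ≤ p.2.2.1 k := by
  have h := (wreg n m).lS_re_nonpos hp hl (aft n k i)
  have h2 := LY_eq m p k i
  rw [LY] at h2
  rw [h2] at h
  simpa using h

/-- the depth of the next mark: one more gap -/
theorem dep_succ (p : (wreg n m).Co C) (k : K) (i : Fin (n k)) (h : i.1 + 1 < n k) :
    dep m p k ⟨i.1 + 1, h⟩ = dep m p k i + (wreg n m).ug p ⟨k, ⟨i.1 + 1, by omega⟩⟩ := by
  have h1 : ∀ j : Fin (n k + 1),
      (if j ≤ (⟨i.1 + 1, h⟩ : Fin (n k)).castSucc then (wreg n m).ug p ⟨k, j⟩ else 0)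
        = (if j ≤ i.castSucc then (wreg n m).ug p ⟨k, j⟩ else 0)
          + if j = ⟨i.1 + 1, by omega⟩ then (wreg n m).ug p ⟨k, j⟩ else 0 := by
    intro j
    simp only [Fin.le_def, Fin.ext_iff, Fin.val_castSucc]
    by_cases h2 : j.1 ≤ i.1
    · have h3 : j.1 ≤ i.1 + 1 := by omega
      have h4 : j.1 ≠ i.1 + 1 := by omega
      simp [h2, h3, h4]
    · by_cases h4 : j.1 = i.1 + 1
      · simp [h4]
      · have h3 : ¬ j.1 ≤ i.1 + 1 := by omega
        simp [h2, h3, h4]
  rw [dep, Finset.sum_congr rfl fun j _ => h1 j, Finset.sum_add_distrib, Finset.sum_ite_eq']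
  simp [dep]

end wreg

end Vale.Agent.P273.H732
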