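import Vale.Agent.P273.H95.Wall
import Vale.Agent.P273.H852.RegionDefs
import Vale.Agent.P273.H732.Word

/-!
# P273: converters between the region types

* `frE`: the free gaps of 852 and of the region chart;
* `scl`: the normalisation of the gaps in 95's regions (`|X|, |Y| ≤ 1/16`);
* `to95`, `of95`, `conv852`: 852's regions and 95's regions;
* `nd`: 852's necks data at the theta point; equality of the positions.
-/

set_option linter.unusedSectionVars false
set_option linter.unusedSimpArgs false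

noncomputable section

namespace Vale.Agent.P273.H732

open H95 H852
open scoped Topology

/-! ### free gaps -/

section Free

variable {K : Type} (n : K → ℕ) (m : ∀ k, Fin (n k + 1))

/-- the free gap number `i` of the neck `k` -/
def frF (x : Σ k, Fin (n k)) : (wreg n m).Fr :=
  ⟨⟨x.1, (m x.1).succAbove x.2⟩, fun h => by
    have h1 : (⟨x.1, (m x.1).succAbove x.2⟩ : Σ k, Fin (n k + 1)) = ⟨x.1, m x.1⟩ := h
    have h2 : (m x.1).succAbove x.2 = m x.1 := eq_of_heq (Sigma.mk.inj h1).2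
    exact Fin.succAbove_ne _ _ h2⟩

theorem frF_bijective : Function.Bijective (frF n m) := by
  constructor
  · rintro ⟨k, i⟩ ⟨k', i'⟩ h
    have h1 : (⟨k, (m k).succAbove i⟩ : Σ k, Fin (n k + 1)) = ⟨k', (m k').succAbove i'⟩ :=
      congrArg Subtype.val h
    have h2 : k = k' := congrArg Sigma.fst h1
    subst h2
    have h3 : (m k).succAbove i = (m k).succAbove i' := by simpa using h1
    rw [Fin.succAbove_right_injective h3]
  · rintro ⟨⟨k, g⟩, h⟩
    have h1 : g ≠ m k := by
      rintro rfl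
      exact h rfl
    obtain ⟨i, hi⟩ := Fin.exists_succAbove_eq h1
    refine ⟨⟨k, i⟩, ?_⟩
    apply Subtype.ext
    change (⟨k, (m k).succAbove i⟩ : Σ k, Fin (n k + 1)) = ⟨k, g⟩
    rw [hi]

/-- the free gaps -/
def frE : (Σ k, Fin (n k)) ≃ (wreg n m).Fr := Equiv.ofBijective _ (frF_bijective n m)

theorem frE_apply (x : Σ k, Fin (n k)) :
    ((frE n m x).1 : Σ k, Fin (n k + 1)) = ⟨x.1, (m x.1).succAbove x.2⟩ := rfl

variable [DecidableEq K] [Fintype K] {C : Type} [Fintype C] [DecidableEq C]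

theorem sum_free {M : Type} [AddCommMonoid M] (h : (wreg n m).Fr → M) (k : K) :
    (∑ f : (wreg n m).Fr, if (wreg n m).nk f.1 = k then h f else 0)
      = ∑ i : Fin (n k), h (frE n m ⟨k, i⟩) := by
  rw [← Equiv.sum_comp (frE n m), Fintype.sum_sigma]
  rw [Finset.sum_eq_single k]
  · refine Finset.sum_congr rfl fun i _ => ?_
    exact if_pos rfl
  · intro k' _ hk
    refine Finset.sum_eq_zero fun i _ => ?_
    exact if_neg hk
  · intro h; exact absurd (Finset.mem_univ _) h

/-- sizes of all the gaps in 852's form -/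
theorem ug_wreg (p : (wreg n m).Co C) (k : K) (g : Fin (n k + 1)) :
    (wreg n m).ug p ⟨k, g⟩ = fullGap (m k) (p.2.2.1 k) (fun i => p.1 (frE n m ⟨k, i⟩)) g := by
  rcases Fin.eq_self_or_eq_succAbove (m k) g with rfl | ⟨j, rfl⟩
  · rw [fullGap_same]
    have h : (wreg n m).ug p ((wreg n m).last k) = _ := (wreg n m).ug_last p k
    rw [Reg.ul, sum_free n m p.1 k] at h
    exact h
  · rw [fullGap_succAbove]
    exact (wreg n m).ug_free p (frE n m ⟨k, j⟩)

/-- angles of all the gaps in 852's form -/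
theorem fg_wreg (p : (wreg n m).Co C) (k : K) (g : Fin (n k + 1)) :
    (wreg n m).fg p ⟨k, g⟩ = fullGap (m k) (p.2.2.2.1 k) (fun i => p.2.1 (frE n m ⟨k, i⟩)) g := by
  rcases Fin.eq_self_or_eq_succAbove (m k) g with rfl | ⟨j, rfl⟩
  · rw [fullGap_same]
    have h : (wreg n m).fg p ((wreg n m).last k) = _ := (wreg n m).fg_last p k
    rw [Reg.al, sum_free n m p.2.1 k] at h
    exact h
  · rw [fullGap_succAbove]
    exact (wreg n m).fg_free p (frE n m ⟨k, j⟩)

/-- the gaps in 852's form -/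
theorem tau_wreg (p : (wreg n m).Co C) (k : K) (g : Fin (n k + 1)) :
    (wreg n m).tau p ⟨k, g⟩ = Complex.exp
      (-((fullGap (m k) (p.2.2.1 k) (fun i => p.1 (frE n m ⟨k, i⟩)) g : ℝ) : ℂ) +
        ((fullGap (m k) (p.2.2.2.1 k) (fun i => p.2.1 (frE n m ⟨k, i⟩)) g : ℝ) : ℂ) *
          Complex.I) := by
  rw [Reg.tau, Reg.Z, ug_wreg, fg_wreg]

end Free

/-! ### the normalisation of the gaps in 95's regions -/

section Scale

variable (R : Region)

/-- the factor of a gap -/
def cw (g : R.Gap) : ℂ :=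
  (if (g.2 : ℕ) = 0 then 1 / 16 else 1) * (if (g.2 : ℕ) = R.n g.1 then 1 / 16 else 1)

/-- the normalisation: unit gaps to gaps with `|X|, |Y| ≤ 1/16` -/
def scl : R.Sp →L[ℝ] R.Sp :=
  ContinuousLinearMap.prodMap
    (ContinuousLinearMap.pi fun g => cw R g • (ContinuousLinearMap.proj g : (R.Gap → ℂ) →L[ℝ] ℂ))
    (ContinuousLinearMap.id ℝ (R.Cm → ℂ))

theorem scl_apply (p : R.Sp) : scl R p = (fun g => cw R g * p.1 g, p.2) := by
  ext g
  · simp [scl]
  · simp [scl]

theorem cw_ne_zero (g : R.Gap) : cw R g ≠ 0 := by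
  unfold cw; split_ifs <;> norm_num

theorem norm_cw_le (g : R.Gap) : ‖cw R g‖ ≤ 1 := by
  unfold cw; split_ifs <;> norm_num

theorem norm_scl_le (p : R.Sp) : ‖scl R p‖ ≤ ‖p‖ := by
  rw [scl_apply, Prod.norm_mk]
  refine max_le ?_ (norm_snd_le p)
  refine (pi_norm_le_iff_of_nonneg (norm_nonneg _)).2 fun g => ?_
  rw [norm_mul]
  calc ‖cw R g‖ * ‖p.1 g‖ ≤ 1 * ‖p.1 g‖ :=
        mul_le_mul_of_nonneg_right (norm_cw_le R g) (norm_nonneg _)
    _ ≤ ‖p‖ := by rw [one_mul]; exact (norm_le_pi_norm _ _).trans (norm_fst_le p)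

theorem prod_first (k : Fin 3) (s : Finset (Fin (R.n k + 1))) (h : (0 : Fin (R.n k + 1)) ∈ s)
    (c : ℂ) : (∏ g ∈ s, if (g : ℕ) = 0 then c else 1) = c := by
  rw [Finset.prod_eq_single (0 : Fin (R.n k + 1))]
  · simp
  · intro b _ hb
    have : (b : ℕ) ≠ 0 := fun h => hb (Fin.ext h)
    simp [this]
  · exact fun h' => absurd h h'

theorem prod_last (k : Fin 3) (s : Finset (Fin (R.n k + 1))) (h : Fin.last (R.n k) ∈ s)
    (c : ℂ) : (∏ g ∈ s, if (g : ℕ) = R.n k then c else 1) = c := by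
  rw [Finset.prod_eq_single (Fin.last (R.n k))]
  · simp
  · intro b _ hb
    have : (b : ℕ) ≠ R.n k := fun h => hb (Fin.ext h)
    simp [this]
  · exact fun h' => absurd h h'

theorem prod_no_first (k : Fin 3) (s : Finset (Fin (R.n k + 1))) (h : (0 : Fin (R.n k + 1)) ∉ s)
    (c : ℂ) : (∏ g ∈ s, if (g : ℕ) = 0 then c else 1) = 1 := by
  refine Finset.prod_eq_one fun g hg => if_neg fun h' => h ?_
  have : g = 0 := Fin.ext h'
  rwa [this] at hg

theorem prod_no_last (k : Fin 3) (s : Finset (Fin (R.n k + 1))) (h : Fin.last (R.n k) ∉ s)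
    (c : ℂ) : (∏ g ∈ s, if (g : ℕ) = R.n k then c else 1) = 1 := by
  refine Finset.prod_eq_one fun g hg => if_neg fun h' => h ?_
  have : g = Fin.last (R.n k) := Fin.ext h'
  rwa [this] at hg

theorem eps_scl (p : R.Sp) (k : Fin 3) :
    R.eps (scl R p) k = (1 / 16) ^ 2 * ∏ g : Fin (R.n k + 1), p.1 ⟨k, g⟩ := by
  simp only [Region.eps, scl_apply, cw, Finset.prod_mul_distrib]
  rw [prod_first R k _ (Finset.mem_univ _), prod_last R k _ (Finset.mem_univ _)]
  ring

theorem XX_scl (p : R.Sp) (k : Fin 3) {i : ℕ} (hi : i < R.n k) :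
    R.XX (scl R p) k i
      = 1 / 16 * ∏ g : Fin (R.n k + 1), if (g : ℕ) ≤ i then p.1 ⟨k, g⟩ else 1 := by
  rw [Region.XX, ← Finset.prod_filter, ← Finset.prod_filter]
  simp only [scl_apply, cw, Finset.prod_mul_distrib]
  rw [prod_first R k _ (by simp), prod_no_last R k _ (by simp [hi])]
  ring

theorem YY_scl (p : R.Sp) (k : Fin 3) {i : ℕ} (hi : i < R.n k) :
    R.YY (scl R p) k i
      = 1 / 16 * ∏ g : Fin (R.n k + 1), if i < (g : ℕ) then p.1 ⟨k, g⟩ else 1 := by
  rw [Region.YY, ← Finset.prod_filter, ← Finset.prod_filter]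
  simp only [scl_apply, cw, Finset.prod_mul_distrib]
  rw [prod_no_first R k _ (by simp), prod_last R k _ (by simp [hi])]
  ring

variable (m : ∀ k, Fin (R.n k + 1))

/-- `ε` in the chart -/
theorem eps_scl_psi (q : (wreg R.n m).Co R.Cm) (k : Fin 3) :
    R.eps (scl R ((wreg R.n m).psi q)) k
      = (1 / 16) ^ 2 * Complex.exp (-(q.2.2.1 k : ℂ) + (q.2.2.2.1 k : ℂ) * Complex.I) := by
  rw [eps_scl, ← (wreg R.n m).lS_neck q k, Reg.exp_lS]
  congr 1
  have h : (wreg R.n m).neck k = (Finset.univ : Finset (Fin (R.n k + 1))).map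
      ⟨fun j => (⟨k, j⟩ : Σ k, Fin (R.n k + 1)), fun a b h => by simpa using h⟩ := by
    ext ⟨k', j⟩
    rw [Reg.mem_neck, Finset.mem_map]
    constructor
    · intro h
      have h' : k' = k := h
      subst h'
      exact ⟨j, Finset.mem_univ _, rfl⟩
    · rintro ⟨j', -, h⟩
      exact (congrArg Sigma.fst h).symm
  rw [h, Finset.prod_map]
  rfl

/-- `X` in the chart -/
theorem XX_scl_psi (q : (wreg R.n m).Co R.Cm) (k : Fin 3) (i : Fin (R.n k)) :
    R.XX (scl R ((wreg R.n m).psi q)) k i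
      = 1 / 16 * Complex.exp (wreg.LX R.Cm R.n m k i q) := by
  rw [XX_scl R _ k i.2, wreg.LX, Reg.exp_lS, wreg.bef, Finset.prod_map, Finset.prod_filter]
  rfl

/-- `Y` in the chart -/
theorem YY_scl_psi (q : (wreg R.n m).Co R.Cm) (k : Fin 3) (i : Fin (R.n k)) :
    R.YY (scl R ((wreg R.n m).psi q)) k i
      = 1 / 16 * Complex.exp (wreg.LY R.Cm R.n m k i q) := by
  rw [YY_scl R _ k i.2, wreg.LY, Reg.exp_lS, wreg.aft, Finset.prod_map, Finset.prod_filter]
  rfl

/-- the position of a neck mark in the chart -/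
theorem pos_neck (q : R.Sp) {j : L} {k : Fin 3} (h : R.pl j = Sum.inl k) :
    R.pos q j = ctr k + (R.XX q k (R.rk j) + R.YY q k (R.rk j)) / 2 := by
  unfold Region.pos
  split
  · rename_i k' h'
    rw [h] at h'
    cases h'
    rfl
  · rename_i s h'
    rw [h] at h'
    cases h'

theorem pos_core (q : R.Sp) {j : L} {s : Bool} (h : R.pl j = Sum.inr s) :
    R.pos q j = q.2 ⟨j, by simp [h]⟩ := by
  unfold Region.pos
  split
  · rename_i k' h'
    rw [h] at h'
    cases h'
  · rfl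

theorem sht_neck (S : L → Bool) (q : R.Sp) {j : L} {k : Fin 3} (h : R.pl j = Sum.inl k) :
    R.sht S q j = gk (R.eps q) k (R.pos q j) * (R.XX q k (R.rk j) - R.YY q k (R.rk j)) / 2 := by
  unfold Region.sht
  rw [h]

theorem sht_core (S : L → Bool) (q : R.Sp) {j : L} {s : Bool} (h : R.pl j = Sum.inr s) :
    R.sht S q j = (if s then -1 else 1) *
      (if S j then gcw (R.eps q) (R.pos q j) else gc (R.eps q) (R.pos q j)) := by
  unfold Region.sht
  rw [h]

end Scale

/-! ### 852's regions -/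

section C852

theorem n_eq (A : L → Fin 3 ⊕ Bool) (k : Fin 3) :
    Fintype.card {j // A j = Sum.inl k} = (Finset.univ.filter fun y => A y = Sum.inl k).card :=
  Fintype.card_subtype _

/-- the rank of a mark in a region of 852 -/
def rk852 (R : H852.Reg L (Fin 3)) (x : L) : ℕ :=
  match h : R.A x with
  | Sum.inl k => ((R.ord k).symm ⟨x, h⟩ : ℕ)
  | Sum.inr _ => 0

theorem rk852_neck (R : H852.Reg L (Fin 3)) {x : L} {k : Fin 3} (h : R.A x = Sum.inl k) :
    rk852 R x = ((R.ord k).symm ⟨x, h⟩ : ℕ) := by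
  unfold rk852
  split
  · rename_i k' h'
    have : k' = k := by rw [h] at h'; exact (Sum.inl.inj h').symm
    subst this
    rfl
  · rename_i s h'
    rw [h] at h'
    cases h'

theorem rk852_core (R : H852.Reg L (Fin 3)) {x : L} {s : Bool} (h : R.A x = Sum.inr s) :
    rk852 R x = 0 := by
  unfold rk852
  split
  · rename_i k' h'
    rw [h] at h'
    cases h'
  · rfl

/-- 95's region of a region of 852 -/
def to95 (R : H852.Reg L (Fin 3)) : Region where
  pl := R.A
  rk := rk852 R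
  rk_core x s h := rk852_core R h
  rk_inj x y k hx hy h := by
    rw [rk852_neck R hx, rk852_neck R hy] at h
    have h1 := (R.ord k).symm.injective (Fin.ext h)
    exact congrArg Subtype.val h1
  rk_lt x k hx := by
    rw [rk852_neck R hx, ← n_eq]
    exact ((R.ord k).symm ⟨x, hx⟩).2

theorem to95_n (R : H852.Reg L (Fin 3)) (k : Fin 3) : (to95 R).n k = R.n k :=
  (n_eq R.A k).symm

/-- the eliminated gaps -/
def m95 (R : H852.Reg L (Fin 3)) (k : Fin 3) : Fin ((to95 R).n k + 1) :=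
  Fin.cast (by rw [to95_n]) (R.m k)

/-- the region of 852 of a region of 95 and eliminated gaps -/
def of95 (R : Region) (m : ∀ k, Fin (R.n k + 1)) : H852.Reg L (Fin 3) where
  A := R.pl
  ord k := (Equiv.ofBijective
    (fun j : {j // R.pl j = Sum.inl k} =>
      (⟨R.rk j.1, by rw [n_eq]; exact R.rk_lt j.1 k j.2⟩ :
        Fin (Fintype.card {j // R.pl j = Sum.inl k})))
    ((Fintype.bijective_iff_injective_and_card _).2 ⟨fun a b h => by
      apply Subtype.ext
      exact R.rk_inj a.1 b.1 k a.2 b.2 (congrArg Fin.val h), by simp⟩)).symm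
  m k := Fin.cast (by rw [n_eq]; rfl) (m k)

theorem of95_ord_symm (R : Region) (m : ∀ k, Fin (R.n k + 1)) (k : Fin 3)
    (j : {j // R.pl j = Sum.inl k}) :
    ((((of95 R m).ord k).symm j : Fin _) : ℕ) = R.rk j.1 := rfl

theorem region_ext {R R' : Region} (h1 : R.pl = R'.pl) (h2 : R.rk = R'.rk) : R = R' := by
  cases R; cases R'
  simp only at h1 h2
  subst h1; subst h2
  rfl

theorem to95_of95 (R : Region) (m : ∀ k, Fin (R.n k + 1)) : to95 (of95 R m) = R := by
  refine region_ext rfl ?_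
  funext x
  change rk852 (of95 R m) x = R.rk x
  rcases h : R.pl x with k | s
  · exact rk852_neck (of95 R m) (k := k) h
  · rw [rk852_core (of95 R m) (s := s) h, R.rk_core x s h]

theorem m95_of95 (R : Region) (m : ∀ k, Fin (R.n k + 1)) (k : Fin 3) :
    (m95 (of95 R m) k : ℕ) = m k := rfl

theorem reg852_ext {R R' : H852.Reg L (Fin 3)} (h1 : R.A = R'.A)
    (h2 : ∀ k x (h : R.A x = Sum.inl k) (h' : R'.A x = Sum.inl k),
      ((R.ord k).symm ⟨x, h⟩ : ℕ) = ((R'.ord k).symm ⟨x, h'⟩ : ℕ))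
    (h3 : ∀ k, (R.m k : ℕ) = R'.m k) : R = R' := by
  obtain ⟨A, o, m⟩ := R
  obtain ⟨A', o', m'⟩ := R'
  simp only at h1
  subst h1
  have e1 : o = o' := by
    funext k
    have : (o k).symm = (o' k).symm := by
      apply Equiv.ext
      rintro ⟨x, hx⟩
      exact Fin.ext (h2 k x hx hx)
    rw [← Equiv.symm_symm (o k), this, Equiv.symm_symm]
  have e2 : m = m' := by
    funext k
    exact Fin.ext (h3 k)
  rw [e1, e2]

theorem of95_to95 (R : H852.Reg L (Fin 3)) : of95 (to95 R) (m95 R) = R := by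
  refine reg852_ext rfl ?_ ?_
  · intro k x h h'
    exact rk852_neck R h'
  · intro k
    rfl

/-- **852's regions = 95's regions with eliminated gaps** -/
def conv852 : H852.Reg L (Fin 3) ≃ (Σ R : Region, ∀ k, Fin (R.n k + 1)) where
  toFun R := ⟨to95 R, m95 R⟩
  invFun x := of95 x.1 x.2
  left_inv R := of95_to95 R
  right_inv x := by
    obtain ⟨R, m⟩ := x
    have h : ∀ (R' : Region) (m' : ∀ k, Fin (R'.n k + 1)), R' = R →
        (∀ k, (m' k : ℕ) = m k) → (⟨R', m'⟩ : Σ R : Region, ∀ k, Fin (R.n k + 1)) = ⟨R, m⟩ := by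
      intro R' m' e h
      subst e
      congr 1
      funext k
      exact Fin.ext (h k)
    exact h _ _ (to95_of95 R m) fun k => m95_of95 R m k

end C852

end Vale.Agent.P273.H732
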