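import Mathlib

/-!
# P273, LIM: region charts

`K` = necks, `G` = gaps, `C` = core marks.  In a region the marks of every neck are ordered, the gaps
`τ g` have modulus `≤ 1` and their product over a neck is `ε k = exp (-y k + α k I)`.  One gap `last k`
(the largest one) is eliminated.  Chart coordinates `p = (u, φ, y, α, s)`:
`τ g = exp (-u g + φ g I)` for the free gaps, and the last gap is determined by the product.
-/

set_option linter.unusedSectionVars false
set_option linter.unusedSimpArgs false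

noncomputable section

open scoped Topology ContDiff
open Filter

namespace Vale.Agent.P273.H732

/-- combinatorics of a region: the neck of a gap, and the eliminated gap of every neck -/
structure Reg (K G : Type) where
  nk : G → K
  last : K → G
  nk_last : ∀ k, nk (last k) = k

namespace Reg

variable {K G : Type} (C : Type) (R : Reg K G)

/-- the free gaps -/
abbrev Fr (R : Reg K G) : Type := {g : G // g ≠ R.last (R.nk g)}

/-- chart coordinates `(u, φ, y, α, s)` -/
abbrev Co : Type := (R.Fr → ℝ) × (R.Fr → ℝ) × (K → ℝ) × (K → ℝ) × (C → ℂ)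

/-- the coordinates of the family: gaps and core marks -/
abbrev Tg (_R : Reg K G) : Type := (G → ℂ) × (C → ℂ)

variable {C}
variable [DecidableEq K] [DecidableEq G] [Fintype G]

instance : Fintype R.Fr := inferInstance

/-- size of the last gap of the neck `k` -/
def ul (p : R.Co C) (k : K) : ℝ := p.2.2.1 k - ∑ f : R.Fr, if R.nk f.1 = k then p.1 f else 0

/-- angle of the last gap of the neck `k` -/
def al (p : R.Co C) (k : K) : ℝ := p.2.2.2.1 k - ∑ f : R.Fr, if R.nk f.1 = k then p.2.1 f else 0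

/-- size of a gap -/
def ug (p : R.Co C) (g : G) : ℝ := if h : g ≠ R.last (R.nk g) then p.1 ⟨g, h⟩ else R.ul p (R.nk g)

/-- angle of a gap -/
def fg (p : R.Co C) (g : G) : ℝ := if h : g ≠ R.last (R.nk g) then p.2.1 ⟨g, h⟩ else R.al p (R.nk g)

/-- the logarithms of the gaps -/
def Z (p : R.Co C) (g : G) : ℂ := -(R.ug p g : ℂ) + (R.fg p g : ℂ) * Complex.I

theorem ul_add (p q : R.Co C) (k : K) : R.ul (p + q) k = R.ul p k + R.ul q k := by
  simp only [ul, Prod.fst_add, Prod.snd_add, Pi.add_apply]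
  have : (∑ f : R.Fr, if R.nk f.1 = k then p.1 f + q.1 f else 0)
      = (∑ f : R.Fr, if R.nk f.1 = k then p.1 f else 0) + ∑ f : R.Fr, if R.nk f.1 = k then q.1 f else 0 := by
    rw [← Finset.sum_add_distrib]
    refine Finset.sum_congr rfl fun f _ => ?_
    split_ifs <;> simp
  rw [this]; ring

theorem ul_smul (c : ℝ) (p : R.Co C) (k : K) : R.ul (c • p) k = c * R.ul p k := by
  simp only [ul, Prod.smul_fst, Prod.smul_snd, Pi.smul_apply, smul_eq_mul, mul_sub, Finset.mul_sum]
  congr 1
  refine Finset.sum_congr rfl fun f _ => ?_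
  split_ifs <;> simp

theorem al_add (p q : R.Co C) (k : K) : R.al (p + q) k = R.al p k + R.al q k := by
  simp only [al, Prod.fst_add, Prod.snd_add, Pi.add_apply]
  have : (∑ f : R.Fr, if R.nk f.1 = k then p.2.1 f + q.2.1 f else 0)
      = (∑ f : R.Fr, if R.nk f.1 = k then p.2.1 f else 0)
        + ∑ f : R.Fr, if R.nk f.1 = k then q.2.1 f else 0 := by
    rw [← Finset.sum_add_distrib]
    refine Finset.sum_congr rfl fun f _ => ?_
    split_ifs <;> simp
  rw [this]; ring

theorem al_smul (c : ℝ) (p : R.Co C) (k : K) : R.al (c • p) k = c * R.al p k := by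
  simp only [al, Prod.smul_fst, Prod.smul_snd, Pi.smul_apply, smul_eq_mul, mul_sub, Finset.mul_sum]
  congr 1
  refine Finset.sum_congr rfl fun f _ => ?_
  split_ifs <;> simp

theorem ug_add (p q : R.Co C) (g : G) : R.ug (p + q) g = R.ug p g + R.ug q g := by
  unfold ug; split_ifs
  · simp
  · exact R.ul_add p q _

theorem ug_smul (c : ℝ) (p : R.Co C) (g : G) : R.ug (c • p) g = c * R.ug p g := by
  unfold ug; split_ifs
  · simp
  · exact R.ul_smul c p _

theorem fg_add (p q : R.Co C) (g : G) : R.fg (p + q) g = R.fg p g + R.fg q g := by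
  unfold fg; split_ifs
  · simp
  · exact R.al_add p q _

theorem fg_smul (c : ℝ) (p : R.Co C) (g : G) : R.fg (c • p) g = c * R.fg p g := by
  unfold fg; split_ifs
  · simp
  · exact R.al_smul c p _

/-- `Z` as a linear map -/
def Zl : R.Co C →ₗ[ℝ] (G → ℂ) where
  toFun p g := R.Z p g
  map_add' p q := by
    funext g
    simp only [Z, ug_add, fg_add, Pi.add_apply]; push_cast; ring
  map_smul' c p := by
    funext g
    simp only [Z, ug_smul, fg_smul, Pi.smul_apply, RingHom.id_apply, Complex.real_smul]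
    push_cast; ring

@[simp] theorem Zl_apply (p : R.Co C) (g : G) : R.Zl p g = R.Z p g := rfl

variable [Fintype K] [Fintype C]

/-- `Z` as a continuous linear map -/
def Zc : R.Co C →L[ℝ] (G → ℂ) := LinearMap.toContinuousLinearMap R.Zl

@[simp] theorem Zc_apply (p : R.Co C) (g : G) : R.Zc p g = R.Z p g := rfl

/-- the gap -/
def tau (p : R.Co C) (g : G) : ℂ := Complex.exp (R.Z p g)

/-- the chart -/
def psi (p : R.Co C) : R.Tg C := (fun g => R.tau p g, p.2.2.2.2)

/-- the last component as a continuous linear map -/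
def sc : R.Co C →L[ℝ] (C → ℂ) :=
  (ContinuousLinearMap.snd ℝ (K → ℝ) (C → ℂ)).comp
    ((ContinuousLinearMap.snd ℝ (K → ℝ) ((K → ℝ) × (C → ℂ))).comp
      ((ContinuousLinearMap.snd ℝ (R.Fr → ℝ) ((K → ℝ) × (K → ℝ) × (C → ℂ))).comp
        (ContinuousLinearMap.snd ℝ (R.Fr → ℝ) ((R.Fr → ℝ) × (K → ℝ) × (K → ℝ) × (C → ℂ)))))

@[simp] theorem sc_apply (p : R.Co C) : R.sc p = p.2.2.2.2 := rfl

/-- the derivative of the chart -/
def dpsi (p : R.Co C) : R.Co C →L[ℝ] R.Tg C :=
  ContinuousLinearMap.prod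
    (ContinuousLinearMap.pi fun g => (R.tau p g) • ((ContinuousLinearMap.proj g : (G → ℂ) →L[ℝ] ℂ).comp R.Zc))
    R.sc

@[simp] theorem dpsi_apply (p w : R.Co C) :
    R.dpsi p w = (fun g => R.tau p g * R.Z w g, w.2.2.2.2) := by
  ext g
  · simp [dpsi]
  · simp [dpsi]

theorem hasFDerivAt_psi (p : R.Co C) : HasFDerivAt (R.psi (C := C)) (R.dpsi p) p := by
  have h1 : HasFDerivAt (fun p : R.Co C => fun g => R.tau p g)
      (ContinuousLinearMap.pi fun g =>
        (R.tau p g) • ((ContinuousLinearMap.proj g : (G → ℂ) →L[ℝ] ℂ).comp R.Zc)) p := by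
    rw [hasFDerivAt_pi]
    intro g
    have h2 : HasFDerivAt (fun p : R.Co C => R.Z p g)
        ((ContinuousLinearMap.proj g : (G → ℂ) →L[ℝ] ℂ).comp R.Zc) p :=
      ((ContinuousLinearMap.proj g : (G → ℂ) →L[ℝ] ℂ).comp (R.Zc (C := C))).hasFDerivAt
    exact h2.cexp
  exact h1.prodMk (R.sc (C := C)).hasFDerivAt

theorem contDiff_psi : ContDiff ℝ ω (R.psi (C := C)) := by
  have h1 : ContDiff ℝ ω (fun p : R.Co C => fun g => R.tau p g) := by
    rw [contDiff_pi]
    intro g
    have h2 : ContDiff ℝ ω (fun p : R.Co C => R.Z p g) :=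
      ((ContinuousLinearMap.proj g : (G → ℂ) →L[ℝ] ℂ).comp (R.Zc (C := C))).contDiff
    exact h2.cexp
  exact h1.prodMk (R.sc (C := C)).contDiff

theorem continuous_psi : Continuous (R.psi (C := C)) := R.contDiff_psi.continuous

theorem norm_tau (p : R.Co C) (g : G) : ‖R.tau p g‖ = Real.exp (-R.ug p g) := by
  simp [tau, Z, Complex.norm_exp]

/-! ### coordinate directions -/

/-- the coordinate directions -/
inductive Dir (C : Type) (R : Reg K G) : Type
  | u (f : R.Fr)
  | ph (f : R.Fr)
  | y (k : K)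
  | al (k : K)
  | re (c : C)
  | im (c : C)

variable [DecidableEq C]

/-- the coordinate vectors -/
def vec : R.Dir C → R.Co C
  | .u f => (Pi.single f 1, 0, 0, 0, 0)
  | .ph f => (0, Pi.single f 1, 0, 0, 0)
  | .y k => (0, 0, Pi.single k 1, 0, 0)
  | .al k => (0, 0, 0, Pi.single k 1, 0)
  | .re c => (0, 0, 0, 0, Pi.single c 1)
  | .im c => (0, 0, 0, 0, Pi.single c Complex.I)

/-- the weight of a direction -/
def wt (p : R.Co C) : R.Dir C → ℝ
  | .u f => Real.exp (-p.1 f)
  | .ph f => Real.exp (-p.1 f)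
  | .y k => Real.exp (-R.ul p k)
  | .al k => Real.exp (-R.ul p k)
  | .re _ => 1
  | .im _ => 1

theorem ul_vec_u (f : R.Fr) (k : K) :
    R.ul (R.vec (C := C) (.u f)) k = -(if R.nk f.1 = k then (1 : ℝ) else 0) := by
  simp only [ul, vec, Pi.zero_apply, zero_sub, neg_inj]
  rw [Finset.sum_eq_single f]
  · simp
  · intro b _ hb
    simp [Pi.single_eq_of_ne hb]
  · simp

theorem al_vec_ph (f : R.Fr) (k : K) :
    R.al (R.vec (C := C) (.ph f)) k = -(if R.nk f.1 = k then (1 : ℝ) else 0) := by
  simp only [al, vec, Pi.zero_apply, zero_sub, neg_inj]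
  rw [Finset.sum_eq_single f]
  · simp
  · intro b _ hb
    simp [Pi.single_eq_of_ne hb]
  · simp

/-- the logarithmic derivatives in the coordinate directions -/
theorem Z_vec_u (f : R.Fr) (g : G) : R.Z (R.vec (C := C) (.u f)) g =
    if g = f.1 then -1 else if g = R.last (R.nk f.1) then 1 else 0 := by
  by_cases h : g ≠ R.last (R.nk g)
  · have h2 : g ≠ R.last (R.nk f.1) := by
      intro h3
      apply h
      conv_lhs => rw [h3]
      rw [h3, R.nk_last]
    by_cases h1 : g = f.1
    · subst h1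
      simp [Z, ug, fg, h, vec]
    · have h3 : (⟨g, h⟩ : R.Fr) ≠ f := fun h4 => h1 (congrArg Subtype.val h4)
      simp [Z, ug, fg, h, vec, h1, h2, Pi.single_eq_of_ne h3]
  · have h' : g = R.last (R.nk g) := not_not.1 h
    have h1 : g ≠ f.1 := by
      intro h3
      apply f.2
      rw [← h3]; exact h'
    have e1 : R.ug (R.vec (C := C) (.u f)) g = -(if R.nk f.1 = R.nk g then (1 : ℝ) else 0) := by
      unfold ug
      rw [dif_neg h, ul_vec_u]
    have e2 : R.fg (R.vec (C := C) (.u f)) g = 0 := by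
      unfold fg
      rw [dif_neg h]
      simp [al, vec]
    simp only [Z, e1, e2, if_neg h1]
    by_cases h4 : g = R.last (R.nk f.1)
    · have h5 : R.nk f.1 = R.nk g := by rw [h4, R.nk_last]
      simp [h5, ← h']
    · have h5 : R.nk f.1 ≠ R.nk g := by
        intro h6; apply h4; rw [h6]; exact h'
      simp [h5, h4]

theorem Z_vec_ph (f : R.Fr) (g : G) : R.Z (R.vec (C := C) (.ph f)) g =
    if g = f.1 then Complex.I else if g = R.last (R.nk f.1) then -Complex.I else 0 := by
  by_cases h : g ≠ R.last (R.nk g)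
  · have h2 : g ≠ R.last (R.nk f.1) := by
      intro h3
      apply h
      conv_lhs => rw [h3]
      rw [h3, R.nk_last]
    by_cases h1 : g = f.1
    · subst h1
      simp [Z, ug, fg, h, vec]
    · have h3 : (⟨g, h⟩ : R.Fr) ≠ f := fun h4 => h1 (congrArg Subtype.val h4)
      simp [Z, ug, fg, h, vec, h1, h2, Pi.single_eq_of_ne h3]
  · have h' : g = R.last (R.nk g) := not_not.1 h
    have h1 : g ≠ f.1 := by
      intro h3
      apply f.2
      rw [← h3]; exact h'
    have e1 : R.fg (R.vec (C := C) (.ph f)) g = -(if R.nk f.1 = R.nk g then (1 : ℝ) else 0) := by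
      unfold fg
      rw [dif_neg h, al_vec_ph]
    have e2 : R.ug (R.vec (C := C) (.ph f)) g = 0 := by
      unfold ug
      rw [dif_neg h]
      simp [ul, vec]
    simp only [Z, e1, e2, if_neg h1]
    by_cases h4 : g = R.last (R.nk f.1)
    · have h5 : R.nk f.1 = R.nk g := by rw [h4, R.nk_last]
      simp [h5, ← h']
    · have h5 : R.nk f.1 ≠ R.nk g := by
        intro h6; apply h4; rw [h6]; exact h'
      simp [h5, h4]

theorem Z_vec_y (k : K) (g : G) : R.Z (R.vec (C := C) (.y k)) g =
    if g = R.last k then -1 else 0 := by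
  by_cases h : g ≠ R.last (R.nk g)
  · have h2 : g ≠ R.last k := by
      intro h3
      apply h
      conv_lhs => rw [h3]
      rw [h3, R.nk_last]
    simp [Z, ug, fg, h, vec, h2]
  · have h' : g = R.last (R.nk g) := not_not.1 h
    have e1 : R.ug (R.vec (C := C) (.y k)) g = (Pi.single k (1 : ℝ) : K → ℝ) (R.nk g) := by
      unfold ug
      rw [dif_neg h]
      simp [ul, vec]
    have e2 : R.fg (R.vec (C := C) (.y k)) g = 0 := by
      unfold fg
      rw [dif_neg h]
      simp [al, vec]
    simp only [Z, e1, e2]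
    by_cases h4 : g = R.last k
    · have h5 : R.nk g = k := by rw [h4, R.nk_last]
      simp [h4, R.nk_last]
    · have h5 : R.nk g ≠ k := by
        intro h6; apply h4; rw [← h6]; exact h'
      simp [h4, Pi.single_eq_of_ne h5]

theorem Z_vec_al (k : K) (g : G) : R.Z (R.vec (C := C) (.al k)) g =
    if g = R.last k then Complex.I else 0 := by
  by_cases h : g ≠ R.last (R.nk g)
  · have h2 : g ≠ R.last k := by
      intro h3
      apply h
      conv_lhs => rw [h3]
      rw [h3, R.nk_last]
    simp [Z, ug, fg, h, vec, h2]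
  · have h' : g = R.last (R.nk g) := not_not.1 h
    have e1 : R.fg (R.vec (C := C) (.al k)) g = (Pi.single k (1 : ℝ) : K → ℝ) (R.nk g) := by
      unfold fg
      rw [dif_neg h]
      simp [al, vec]
    have e2 : R.ug (R.vec (C := C) (.al k)) g = 0 := by
      unfold ug
      rw [dif_neg h]
      simp [ul, vec]
    simp only [Z, e1, e2]
    by_cases h4 : g = R.last k
    · have h5 : R.nk g = k := by rw [h4, R.nk_last]
      simp [h4, R.nk_last]
    · have h5 : R.nk g ≠ k := by
        intro h6; apply h4; rw [← h6]; exact h'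
      simp [h4, Pi.single_eq_of_ne h5]

theorem Z_vec_re (c : C) (g : G) : R.Z (R.vec (.re c)) g = 0 := by
  have e1 : R.ug (R.vec (.re c)) g = 0 := by unfold ug; split_ifs <;> simp [ul, vec]
  have e2 : R.fg (R.vec (.re c)) g = 0 := by unfold fg; split_ifs <;> simp [al, vec]
  simp [Z, e1, e2]

theorem Z_vec_im (c : C) (g : G) : R.Z (R.vec (.im c)) g = 0 := by
  have e1 : R.ug (R.vec (.im c)) g = 0 := by unfold ug; split_ifs <;> simp [ul, vec]
  have e2 : R.fg (R.vec (.im c)) g = 0 := by unfold fg; split_ifs <;> simp [al, vec]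
  simp [Z, e1, e2]

theorem ug_free (p : R.Co C) (f : R.Fr) : R.ug p f.1 = p.1 f := by
  unfold ug; rw [dif_pos f.2]

theorem fg_free (p : R.Co C) (f : R.Fr) : R.fg p f.1 = p.2.1 f := by
  unfold fg; rw [dif_pos f.2]

theorem ug_last (p : R.Co C) (k : K) : R.ug p (R.last k) = R.ul p k := by
  unfold ug; rw [dif_neg (by rw [R.nk_last]; simp), R.nk_last]

theorem fg_last (p : R.Co C) (k : K) : R.fg p (R.last k) = R.al p k := by
  unfold fg; rw [dif_neg (by rw [R.nk_last]; simp), R.nk_last]

/-- the region: all gaps nonnegative, the eliminated one is the largest of its neck -/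
def Inr (p : R.Co C) : Prop := (∀ f : R.Fr, 0 ≤ p.1 f) ∧ ∀ f : R.Fr, p.1 f ≤ R.ul p (R.nk f.1)

theorem norm_tau_free (p : R.Co C) (f : R.Fr) : ‖R.tau p f.1‖ = Real.exp (-p.1 f) := by
  rw [norm_tau, ug_free]

theorem norm_tau_last (p : R.Co C) (k : K) : ‖R.tau p (R.last k)‖ = Real.exp (-R.ul p k) := by
  rw [norm_tau, ug_last]

/-- the derivative of the chart in a coordinate direction is bounded by the weight -/
theorem norm_dpsi_vec_le {p : R.Co C} (hp : R.Inr p) (d : R.Dir C) :
    ‖R.dpsi p (R.vec d)‖ ≤ R.wt p d := by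
  rw [dpsi_apply, Prod.norm_mk]
  cases d with
  | u f =>
    refine max_le ((pi_norm_le_iff_of_nonneg (Real.exp_pos _).le).2 fun g => ?_)
      (by simp [vec, wt, (Real.exp_pos _).le])
    rw [Z_vec_u, norm_mul]
    split_ifs with h1 h2
    · rw [h1, norm_tau_free]; simp [wt]
    · rw [h2, norm_tau_last]
      simpa [wt] using hp.2 f
    · simp [wt, (Real.exp_pos _).le]
  | ph f =>
    refine max_le ((pi_norm_le_iff_of_nonneg (Real.exp_pos _).le).2 fun g => ?_)
      (by simp [vec, wt, (Real.exp_pos _).le])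
    rw [Z_vec_ph, norm_mul]
    split_ifs with h1 h2
    · rw [h1, norm_tau_free]; simp [wt]
    · rw [h2, norm_tau_last]
      simpa [wt] using hp.2 f
    · simp [wt, (Real.exp_pos _).le]
  | y k =>
    refine max_le ((pi_norm_le_iff_of_nonneg (Real.exp_pos _).le).2 fun g => ?_)
      (by simp [vec, wt, (Real.exp_pos _).le])
    rw [Z_vec_y, norm_mul]
    split_ifs with h1
    · rw [h1, norm_tau_last]; simp [wt]
    · simp [wt, (Real.exp_pos _).le]
  | al k =>
    refine max_le ((pi_norm_le_iff_of_nonneg (Real.exp_pos _).le).2 fun g => ?_)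
      (by simp [vec, wt, (Real.exp_pos _).le])
    rw [Z_vec_al, norm_mul]
    split_ifs with h1
    · rw [h1, norm_tau_last]; simp [wt]
    · simp [wt, (Real.exp_pos _).le]
  | re c =>
    refine max_le ((pi_norm_le_iff_of_nonneg zero_le_one).2 fun g => ?_) ?_
    · rw [Z_vec_re]; simp
    · refine (pi_norm_le_iff_of_nonneg zero_le_one).2 fun c' => ?_
      by_cases h : c' = c
      · subst h; simp [vec]
      · simp [vec, Pi.single_eq_of_ne h]
  | im c =>
    refine max_le ((pi_norm_le_iff_of_nonneg zero_le_one).2 fun g => ?_) ?_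
    · rw [Z_vec_im]; simp
    · refine (pi_norm_le_iff_of_nonneg zero_le_one).2 fun c' => ?_
      by_cases h : c' = c
      · subst h; simp [vec]
      · simp [vec, Pi.single_eq_of_ne h]

theorem wt_nonneg (p : R.Co C) (d : R.Dir C) : 0 ≤ R.wt p d := by
  cases d <;> simp [wt, (Real.exp_pos _).le]

theorem wt_le_one {p : R.Co C} (hp : R.Inr p) (hl : ∀ k, 0 ≤ R.ul p k) (d : R.Dir C) :
    R.wt p d ≤ 1 := by
  cases d with
  | u f => simpa [wt] using hp.1 f
  | ph f => simpa [wt] using hp.1 f
  | y k => simpa [wt] using hl k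
  | al k => simpa [wt] using hl k
  | re c => simp [wt]
  | im c => simp [wt]

/-- **F-side bound** -/
theorem F_bound {n : ℕ} {p : R.Co C} (hp : R.Inr p)
    (F : R.Tg C [⋀^Fin n]→L[ℝ] ℝ) {c : ℝ} (hF : ‖F‖ ≤ c) (w : Fin n → R.Dir C) :
    |F (fun i => R.dpsi p (R.vec (w i)))| ≤ c * ∏ i, R.wt p (w i) := by
  rw [← Real.norm_eq_abs]
  refine (F.le_opNorm _).trans ?_
  exact mul_le_mul hF (Finset.prod_le_prod (fun i _ => norm_nonneg _)
    fun i _ => R.norm_dpsi_vec_le hp (w i)) (Finset.prod_nonneg fun i _ => norm_nonneg _)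
    ((norm_nonneg _).trans hF)

/-! ### the product relation -/

theorem Z_free (p : R.Co C) (f : R.Fr) : R.Z p f.1 = -(p.1 f : ℂ) + (p.2.1 f : ℂ) * Complex.I := by
  simp only [Z, ug_free, fg_free]

theorem Z_last (p : R.Co C) (k : K) :
    R.Z p (R.last k) = -(R.ul p k : ℂ) + (R.al p k : ℂ) * Complex.I := by
  simp only [Z, ug_last, fg_last]

/-- the sum over the gaps of a neck: the last one and the free ones -/
theorem sum_neck {M : Type} [AddCommMonoid M] (k : K) (h : G → M) :
    (∑ g : G, if R.nk g = k then h g else 0)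
      = h (R.last k) + ∑ f : R.Fr, if R.nk f.1 = k then h f.1 else 0 := by
  have h1 : (∑ g : G, if R.nk g = k then h g else 0)
      = (∑ g : {g : G // g ≠ R.last (R.nk g)}, if R.nk g.1 = k then h g.1 else 0)
        + ∑ g : {g : G // ¬ g ≠ R.last (R.nk g)}, if R.nk g.1 = k then h g.1 else 0 :=
    (Fintype.sum_subtype_add_sum_subtype (fun g : G => g ≠ R.last (R.nk g))
      (fun g => if R.nk g = k then h g else 0)).symm
  rw [h1, add_comm]
  congr 1
  have hk : ¬ R.last k ≠ R.last (R.nk (R.last k)) := by rw [R.nk_last]; simp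
  rw [Finset.sum_eq_single (⟨R.last k, hk⟩ : {g : G // ¬ g ≠ R.last (R.nk g)})]
  · simp [R.nk_last]
  · rintro ⟨g, hg⟩ _ hne
    have hg' : g = R.last (R.nk g) := not_not.1 hg
    have : R.nk g ≠ k := by
      intro h2
      apply hne
      apply Subtype.ext
      change g = R.last k
      rw [← h2]; exact hg'
    simp [this]
  · intro h2; exact absurd (Finset.mem_univ _) h2

/-- the sizes of the gaps of a neck add up to `y k` -/
theorem sum_ug (p : R.Co C) (k : K) :
    (∑ g : G, if R.nk g = k then R.ug p g else 0) = p.2.2.1 k := by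
  rw [R.sum_neck, ug_last]
  simp only [ug_free]
  simp [ul]

theorem sum_fg (p : R.Co C) (k : K) :
    (∑ g : G, if R.nk g = k then R.fg p g else 0) = p.2.2.2.1 k := by
  rw [R.sum_neck, fg_last]
  simp only [fg_free]
  simp [al]

theorem sum_Z (p : R.Co C) (k : K) :
    (∑ g : G, if R.nk g = k then R.Z p g else 0)
      = -(p.2.2.1 k : ℂ) + (p.2.2.2.1 k : ℂ) * Complex.I := by
  rw [← R.sum_ug p k, ← R.sum_fg p k]
  push_cast
  rw [← Finset.sum_neg_distrib, Finset.sum_mul, ← Finset.sum_add_distrib]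
  refine Finset.sum_congr rfl fun g _ => ?_
  split_ifs <;> simp [Z]

/-- **the product relation**: the product of the gaps of the neck `k` is `exp (-y k + α k I)` -/
theorem prod_tau (p : R.Co C) (k : K) :
    (∏ g : G, if R.nk g = k then R.tau p g else 1)
      = Complex.exp (-(p.2.2.1 k : ℂ) + (p.2.2.2.1 k : ℂ) * Complex.I) := by
  rw [← R.sum_Z p k, Complex.exp_sum]
  refine Finset.prod_congr rfl fun g _ => ?_
  split_ifs <;> simp [tau]

/-- in the region the last gap of a neck is at least `y / (number of gaps)` -/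
theorem ul_ge {p : R.Co C} (hp : R.Inr p) (k : K) :
    p.2.2.1 k ≤ (Fintype.card G : ℝ) * R.ul p k ∨ R.ul p k < 0 := by
  by_cases h0 : R.ul p k < 0
  · exact Or.inr h0
  · left
    rw [← R.sum_ug p k]
    have h1 : ∀ g : G, (if R.nk g = k then R.ug p g else 0) ≤ R.ul p k := by
      intro g
      split_ifs with h
      · by_cases h2 : g ≠ R.last (R.nk g)
        · have := hp.2 ⟨g, h2⟩
          rw [← R.ug_free] at this
          simpa [h] using this
        · rw [not_not.1 h2, h, ug_last]
      · exact not_lt.1 h0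
    calc (∑ g : G, if R.nk g = k then R.ug p g else 0) ≤ ∑ _g : G, R.ul p k :=
          Finset.sum_le_sum fun g _ => h1 g
      _ = _ := by simp

/-- in the region with `0 ≤ y k` the last gap is nonnegative -/
theorem ul_nonneg {p : R.Co C} (hp : R.Inr p) (k : K) (hy : 0 ≤ p.2.2.1 k) : 0 ≤ R.ul p k := by
  by_contra h
  push Not at h
  have h1 : ∀ g : G, (if R.nk g = k then R.ug p g else 0) ≤ 0 := by
    intro g
    split_ifs with h3
    · by_cases h2 : g ≠ R.last (R.nk g)
      · have := hp.2 ⟨g, h2⟩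
        rw [← R.ug_free] at this
        simp only [h3] at this
        linarith
      · rw [not_not.1 h2, h3, ug_last]; exact h.le
    · exact le_rfl
  have h2 : (∑ g : G, if R.nk g = k then R.ug p g else 0) < 0 := by
    refine Finset.sum_neg' (fun g _ => h1 g) ⟨R.last k, Finset.mem_univ _, ?_⟩
    rw [if_pos (R.nk_last k), ug_last]
    exact h
  rw [R.sum_ug] at h2
  linarith

theorem y_le {p : R.Co C} (hp : R.Inr p) (k : K) (hy : 0 ≤ p.2.2.1 k) :
    p.2.2.1 k ≤ (Fintype.card G : ℝ) * R.ul p k := by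
  rcases R.ul_ge hp k with h | h
  · exact h
  · exact absurd h (not_lt.2 (R.ul_nonneg hp k hy))

/-! ### the limit -/

open Classical in
/-- the limit point of the chart: the gaps in `B` and the last gaps are `0` -/
def qlim (B : Set R.Fr) (p : R.Co C) : R.Tg C :=
  (fun g => if h : g ≠ R.last (R.nk g) then (if (⟨g, h⟩ : R.Fr) ∈ B then 0 else R.tau p g) else 0,
    p.2.2.2.2)

open Classical in
/-- the limits of the coordinate vectors -/
def vlim (B : Set R.Fr) (p : R.Co C) : R.Dir C → R.Tg C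
  | .u f => if f ∈ B then 0 else (Pi.single f.1 (-R.tau p f.1), 0)
  | .ph f => if f ∈ B then 0 else (Pi.single f.1 (R.tau p f.1 * Complex.I), 0)
  | .y _ => 0
  | .al _ => 0
  | .re c => (0, Pi.single c 1)
  | .im c => (0, Pi.single c Complex.I)

/-- convergence in the chart: the gaps in `B` and the last gaps tend to `∞` in size, everything else
converges (the angles of the gaps in `B` and the coordinates `y, α` are free) -/
structure Lim {ι : Type} (l : Filter ι) (B : Set R.Fr) (P : ι → R.Co C) (p : R.Co C) : Prop where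
  hB : ∀ f ∈ B, Tendsto (fun n => (P n).1 f) l atTop
  hl : ∀ k, Tendsto (fun n => R.ul (P n) k) l atTop
  hu : ∀ f ∉ B, Tendsto (fun n => (P n).1 f) l (𝓝 (p.1 f))
  hph : ∀ f ∉ B, Tendsto (fun n => (P n).2.1 f) l (𝓝 (p.2.1 f))
  hs : Tendsto (fun n => (P n).2.2.2.2) l (𝓝 p.2.2.2.2)

section Limit

variable {R} {ι : Type} {l : Filter ι} {B : Set R.Fr} {P : ι → R.Co C} {p : R.Co C}

theorem Lim.tau_last (h : R.Lim l B P p) (k : K) :
    Tendsto (fun n => R.tau (P n) (R.last k)) l (𝓝 0) := by
  rw [tendsto_zero_iff_norm_tendsto_zero]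
  simp only [norm_tau_last]
  exact Real.tendsto_exp_neg_atTop_nhds_zero.comp (h.hl k)

theorem Lim.tau_B (h : R.Lim l B P p) (f : R.Fr) (hf : f ∈ B) :
    Tendsto (fun n => R.tau (P n) f.1) l (𝓝 0) := by
  rw [tendsto_zero_iff_norm_tendsto_zero]
  simp only [norm_tau_free]
  exact Real.tendsto_exp_neg_atTop_nhds_zero.comp (h.hB f hf)

theorem Lim.tau_free (h : R.Lim l B P p) (f : R.Fr) (hf : f ∉ B) :
    Tendsto (fun n => R.tau (P n) f.1) l (𝓝 (R.tau p f.1)) := by
  simp only [tau, Z_free]
  refine (Complex.continuous_exp.tendsto _).comp ?_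
  refine Tendsto.add ?_ ?_
  · exact ((Complex.continuous_ofReal.tendsto _).comp (h.hu f hf)).neg
  · exact ((Complex.continuous_ofReal.tendsto _).comp (h.hph f hf)).mul_const _

theorem Lim.tau (h : R.Lim l B P p) (g : G) :
    Tendsto (fun n => R.tau (P n) g) l (𝓝 ((R.qlim B p).1 g)) := by
  simp only [qlim]
  split_ifs with h1 h2
  · exact h.tau_B ⟨g, h1⟩ h2
  · exact h.tau_free ⟨g, h1⟩ h2
  · have := h.tau_last (R.nk g)
    rwa [← not_not.1 h1] at this

/-- **limit of the chart** -/
theorem Lim.psi (h : R.Lim l B P p) : Tendsto (fun n => R.psi (P n)) l (𝓝 (R.qlim B p)) := by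
  have h1 : Tendsto (fun n => fun g => R.tau (P n) g) l (𝓝 (R.qlim B p).1) := by
    rw [tendsto_pi_nhds]
    exact fun g => h.tau g
  exact h1.prodMk_nhds h.hs

theorem single_ne_zero_iff {x : ℂ} (g g' : G) :
    (Pi.single g x : G → ℂ) g' = if g' = g then x else 0 := by
  by_cases h : g' = g
  · subst h; simp
  · simp [h]

/-- **limits of the coordinate vectors** -/
theorem Lim.dpsi (h : R.Lim l B P p) (d : R.Dir C) :
    Tendsto (fun n => R.dpsi (P n) (R.vec d)) l (𝓝 (R.vlim B p d)) := by
  have key : ∀ (f : R.Fr) (z w : ℂ) (s : C → ℂ) (X : G → ℂ), (∀ g, X g = if g = f.1 then z else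
      if g = R.last (R.nk f.1) then w else 0) →
      Tendsto (fun n => ((fun g => R.tau (P n) g * X g, s) : R.Tg C)) l
        (𝓝 (Pi.single f.1 ((R.qlim B p).1 f.1 * z), s)) := by
    intro f z w s X hX
    refine Tendsto.prodMk_nhds ?_ tendsto_const_nhds
    rw [tendsto_pi_nhds]
    intro g
    rw [single_ne_zero_iff, hX]
    split_ifs with h1 h2
    · rw [h1]; exact (h.tau f.1).mul_const _
    · rw [h2]
      simpa using (h.tau_last (R.nk f.1)).mul_const w
    · simp only [mul_zero]; exact tendsto_const_nhds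
  have key2 : ∀ (k : K) (w : ℂ) (X : G → ℂ), (∀ g, X g = if g = R.last k then w else 0) →
      Tendsto (fun n => ((fun g => R.tau (P n) g * X g, 0) : R.Tg C)) l (𝓝 0) := by
    intro k w X hX
    refine Tendsto.prodMk_nhds ?_ tendsto_const_nhds
    rw [tendsto_pi_nhds]
    intro g
    rw [hX]
    split_ifs with h2
    · rw [h2]
      simpa using (h.tau_last k).mul_const w
    · simp only [mul_zero]; exact tendsto_const_nhds
  simp only [dpsi_apply]
  cases d with
  | u f =>
    have := key f (-1) 1 0 _ (R.Z_vec_u (C := C) f)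
    have e : ((Pi.single f.1 ((R.qlim B p).1 f.1 * -1), 0) : R.Tg C) = R.vlim B p (.u f) := by
      simp only [vlim, qlim, dif_pos f.2]
      split_ifs with h1
      · simp
      · simp
    rw [← e]; exact this
  | ph f =>
    have := key f Complex.I (-Complex.I) 0 _ (R.Z_vec_ph (C := C) f)
    have e : ((Pi.single f.1 ((R.qlim B p).1 f.1 * Complex.I), 0) : R.Tg C)
        = R.vlim B p (.ph f) := by
      simp only [vlim, qlim, dif_pos f.2]
      split_ifs with h1
      · simp
      · simp
    rw [← e]; exact this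
  | y k => exact key2 k _ _ (R.Z_vec_y (C := C) k)
  | al k => exact key2 k _ _ (R.Z_vec_al (C := C) k)
  | re c =>
    simp only [Z_vec_re, mul_zero]
    exact tendsto_const_nhds
  | im c =>
    simp only [Z_vec_im, mul_zero]
    exact tendsto_const_nhds

end Limit

/-- joint continuity of the evaluation of an alternating map -/
theorem tendsto_eval {ι V : Type} [NormedAddCommGroup V] [NormedSpace ℝ V] {n : ℕ}
    {l : Filter ι} {f : ι → V [⋀^Fin n]→L[ℝ] ℝ} {f0 : V [⋀^Fin n]→L[ℝ] ℝ}
    {v : ι → Fin n → V} {v0 : Fin n → V} (hf : Tendsto f l (𝓝 f0)) (hv : Tendsto v l (𝓝 v0)) :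
    Tendsto (fun i => f i (v i)) l (𝓝 (f0 (v0))) := by
  have h1 : Tendsto (fun i => f0 (v i)) l (𝓝 (f0 v0)) :=
    (f0.cont.tendsto v0).comp hv
  have h2 : Tendsto (fun i => (f i - f0) (v i)) l (𝓝 0) := by
    have h3 : Tendsto (fun i => ‖f i - f0‖ * ∏ j, ‖v i j‖) l (𝓝 (0 * ∏ j, ‖v0 j‖)) := by
      refine Tendsto.mul ?_ ?_
      · have := (tendsto_iff_norm_sub_tendsto_zero.1 hf)
        exact this
      · refine tendsto_finsetProd _ fun j _ => ?_
        exact ((tendsto_pi_nhds.1 hv) j).norm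
    rw [zero_mul] at h3
    exact squeeze_zero_norm (fun i => (f i - f0).le_opNorm (v i)) h3
  have h4 := h2.add h1
  rw [zero_add] at h4
  refine h4.congr fun i => ?_
  simp

/-- **F-side limit** -/
theorem Lim.F_tendsto {R : Reg K G} {ι : Type} {l : Filter ι} {B : Set R.Fr} {P : ι → R.Co C}
    {p : R.Co C} (h : R.Lim l B P p) {n : ℕ} {S : Set (R.Tg C)}
    {F : R.Tg C → R.Tg C [⋀^Fin n]→L[ℝ] ℝ} (hF : ContinuousWithinAt F S (R.qlim B p))
    (hS : ∀ᶠ n in l, R.psi (P n) ∈ S) (w : Fin n → R.Dir C) :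
    Tendsto (fun n => F (R.psi (P n)) (fun i => R.dpsi (P n) (R.vec (w i)))) l
      (𝓝 (F (R.qlim B p) (fun i => R.vlim B p (w i)))) := by
  refine tendsto_eval ?_ ?_
  · exact hF.tendsto.comp (tendsto_nhdsWithin_iff.2 ⟨h.psi, hS⟩)
  · rw [tendsto_pi_nhds]
    exact fun i => h.dpsi (w i)

/-- a direction which dies in the limit -/
def Dead (B : Set R.Fr) : R.Dir C → Prop
  | .u f => f ∈ B
  | .ph f => f ∈ B
  | .y _ => True
  | .al _ => True
  | .re _ => False
  | .im _ => False

theorem vlim_dead {B : Set R.Fr} {p : R.Co C} {d : R.Dir C} (h : R.Dead B d) :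
    R.vlim B p d = 0 := by
  cases d with
  | u f => exact if_pos h
  | ph f => exact if_pos h
  | y k => rfl
  | al k => rfl
  | re c => exact absurd h (by simp [Dead])
  | im c => exact absurd h (by simp [Dead])

/-- **F-side limit with a leg at a dead direction** -/
theorem Lim.F_tendsto_zero {R : Reg K G} {ι : Type} {l : Filter ι} {B : Set R.Fr}
    {P : ι → R.Co C} {p : R.Co C} (h : R.Lim l B P p) {n : ℕ} {S : Set (R.Tg C)}
    {F : R.Tg C → R.Tg C [⋀^Fin n]→L[ℝ] ℝ} (hF : ContinuousWithinAt F S (R.qlim B p))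
    (hS : ∀ᶠ n in l, R.psi (P n) ∈ S) (w : Fin n → R.Dir C) (i : Fin n) (hi : R.Dead B (w i)) :
    Tendsto (fun n => F (R.psi (P n)) (fun i => R.dpsi (P n) (R.vec (w i)))) l (𝓝 0) := by
  have h1 := h.F_tendsto hF hS w
  rwa [(F (R.qlim B p)).map_coord_zero i (R.vlim_dead hi)] at h1

end Reg

end Vale.Agent.P273.H732
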