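import Vale.Agent.P273.H93.Reg
import Vale.Agent.P273.H95.Wall

/-! 93's regions and 95's regions are the same data. -/

namespace Vale.Agent.P273.H732

/-- 93's regions and 95's regions -/
def conv93 : H95.Region ≃ H93.Reg where
  toFun R := ⟨R.pl, R.rk, R.rk_core, R.rk_inj, R.rk_lt⟩
  invFun R := ⟨R.pl, R.rk, R.core, R.inj, R.lt⟩
  left_inv _ := rfl
  right_inv _ := rfl

theorem conv93_pl (R : H95.Region) : (conv93 R).pl = R.pl := rfl

theorem conv93_rk (R : H95.Region) : (conv93 R).rk = R.rk := rfl

theorem conv93_n (R : H95.Region) (k : Fin 3) : (conv93 R).n k = R.n k := rfl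

end Vale.Agent.P273.H732
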