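import Vale.Agent.P273.H732.Conv2
import Vale.Agent.P273.H883.Far

/-!
# P273: far core marks

In 883's zones a far core mark has the coordinate `w = 1/x`; the point of 95's region with the chart
`S` (`S j = true` for the far marks) is the point of 852, up to the change of charts.
-/

set_option linter.unusedSectionVars false
set_option linter.unusedSimpArgs false

noncomputable section

namespace Vale.Agent.P273.H732

open H95 H852 H883
open scoped Topology ContDiff

/-- `y` on the core in the chart at infinity -/
theorem gcw_eq (ε : Fin 3 → ℂ) {w : ℂ} (hw : w ≠ 0) : gcw ε w = gc ε w⁻¹ * w ^ 3 := by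
  have h : ∀ l : Fin 3, (1 - ctr l * w) * csq (1 - ε l * w ^ 2 / (1 - ctr l * w) ^ 2)
      = ((w⁻¹ - ctr l) * csq (1 - ε l / (w⁻¹ - ctr l) ^ 2)) * w := by
    intro l
    have e1 : w⁻¹ - ctr l = (1 - ctr l * w) / w := by
      rw [sub_div, mul_div_assoc, div_self hw, mul_one, one_div]
    have e2 : ε l / (w⁻¹ - ctr l) ^ 2 = ε l * w ^ 2 / (1 - ctr l * w) ^ 2 := by
      rw [e1, div_pow, div_div_eq_mul_div]
    rw [e2, e1]
    field_simp
  simp only [gcw, gc]
  rw [Finset.prod_congr rfl fun l _ => h l, Finset.prod_mul_distrib, Finset.prod_const]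
  simp

section

variable (R : H852.Reg L (Fin 3)) (far : R.Kc → Bool)

/-- the far marks as a chart of 95 -/
def Sfar (j : L) : Bool := if h : ∀ k, R.A j ≠ Sum.inl k then far ⟨j, h⟩ else false

theorem Sfar_neck {j : L} {k : Fin 3} (h : R.A j = Sum.inl k) : Sfar R far j = false := by
  unfold Sfar
  rw [dif_neg]
  intro h'
  exact h' k h

theorem Sfar_core {j : L} {b : Bool} (h : R.A j = Sum.inr b) :
    Sfar R far j = far ⟨j, fun k hk => by rw [h] at hk; cases hk⟩ := by
  unfold Sfar
  rw [dif_pos]

theorem farOk_Sfar : FarOk (to95 R) (Sfar R far) := by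
  intro j hj
  rcases h : R.A j with k | b
  · rw [Sfar_neck R far h] at hj
    cases hj
  · change (R.A j).isRight = true
    rw [h]; rfl

/-- **the positions agree, far zones included** -/
theorem pos852_far (y a : Fin 3 → ℝ) (x : ((R.Gf → ℝ) × (R.Gf → ℝ)) × (R.Kc → ℂ))
    (hz : ∀ c, far c = true → x.2 c ≠ 0) (j : L) :
    R.pos (nd y a) (R.tau (nd y a) x.1.1 x.1.2) (fun c => xof (far c) (x.2 c)) j
      = (if Sfar R far j then ((to95 R).pos (spE R y a x) j)⁻¹ else (to95 R).pos (spE R y a x) j,
        if Sfar R far j then (to95 R).sht (Sfar R far) (spE R y a x) j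
            * (((to95 R).pos (spE R y a x) j)⁻¹) ^ 3
          else (to95 R).sht (Sfar R far) (spE R y a x) j) := by
  rcases h : R.A j with k | b
  · have h1 := pos852 R y a x j
    rw [pos852_neck R _ _ _ h] at h1 ⊢
    rw [h1, Sfar_neck R far h]
    simp only [Bool.false_eq_true, if_false]
    rw [sht_neck (to95 R) (fun _ => false) (spE R y a x) (j := j) (k := k) h,
      sht_neck (to95 R) (Sfar R far) (spE R y a x) (j := j) (k := k) h]
  · rw [pos852_core R _ _ _ h]
    have hp := pos_core (to95 R) (spE R y a x) (j := j) (s := b) h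
    have hp' : (spE R y a x).2 ⟨j, by simp [show (to95 R).pl j = Sum.inr b from h]⟩
        = x.2 ⟨j, fun k hk => by simp [hk] at h⟩ := rfl
    rw [sht_core (to95 R) (Sfar R far) (spE R y a x) (j := j) (s := b) h, hp, eps_spE,
      Sfar_core R far h, hp']
    cases hf : far ⟨j, fun k hk => by rw [h] at hk; cases hk⟩
    · simp only [Bool.false_eq_true, if_false, xof]
      refine Prod.ext rfl ?_
      cases b
      · simp only [Bool.false_eq_true, if_false, one_mul]
        change - (- gc (nd y a).ε _) = gc (nd y a).ε _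
        rw [neg_neg]
      · simp only [if_true, Bool.false_eq_true, if_false, neg_mul, one_mul]
        rfl
    · simp only [if_true, xof]
      refine Prod.ext rfl ?_
      have hne : x.2 ⟨j, fun k hk => by simp [hk] at h⟩ ≠ 0 := hz _ hf
      rw [gcw_eq _ hne]
      cases b
      · simp only [Bool.false_eq_true, if_false, one_mul]
        change - (- gc (nd y a).ε _) = gc (nd y a).ε _ * _ * _
        rw [neg_neg]
        field_simp
      · simp only [if_true, neg_mul, one_mul]
        change - gc (nd y a).ε _ = - (gc (nd y a).ε _ * _ * _)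
        field_simp

/-- the same with 95's change of charts -/
theorem pos852_flip (y a : Fin 3 → ℝ) (x : ((R.Gf → ℝ) × (R.Gf → ℝ)) × (R.Kc → ℂ))
    (hz : ∀ c, far c = true → x.2 c ≠ 0) (e : H681.C6) :
    (e, fun j => (R.pos (nd y a) (R.tau (nd y a) x.1.1 x.1.2)
        (fun c => xof (far c) (x.2 c)) j).1)
      = flip (Sfar R far) (fun _ => false) (e, (to95 R).pos (spE R y a x)) ∧
    (fun j => (R.pos (nd y a) (R.tau (nd y a) x.1.1 x.1.2)
        (fun c => xof (far c) (x.2 c)) j).2)
      = flipv (Sfar R far) (fun _ => false) ((to95 R).pos (spE R y a x))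
        ((to95 R).sht (Sfar R far) (spE R y a x)) := by
  constructor
  · refine Prod.ext rfl ?_
    funext j
    change (R.pos (nd y a) (R.tau (nd y a) x.1.1 x.1.2) (fun c => xof (far c) (x.2 c)) j).1 = _
    rw [pos852_far R far y a x hz j]
    cases h : Sfar R far j <;> simp [H95.flip, h]
  · funext j
    rw [pos852_far R far y a x hz j]
    cases h : Sfar R far j <;> simp [H95.flipv, h]

end

end Vale.Agent.P273.H732
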