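import Vale.Agent.P273.H732.Vert1
import Vale.Agent.P273.H730.Asm0

/-!
# P273, row ASY1: `DelO` of helper730 from `NeckO`, `CoreO`, `FarO`
-/

noncomputable section

namespace Vale.Agent.P273.H732.V1

open Set Filter H681 H95 H973 H730
open H578 (Pt Nr del)

/-- **the differences of near marks** -/
theorem delO_of {O : One} (hN : NeckO O) (hC : CoreO O) (hF : FarO O) : DelO O := by
  intro k q₀ hq₀
  obtain ⟨U, hU, c₀, hc₀, h⟩ := vert1 hN hC hF k q₀ hq₀
  refine ⟨U, hU, c₀, hc₀, fun c hc hcc => ?_⟩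
  obtain ⟨M₀, B, hM, hB, h⟩ := h c hc hcc
  refine ⟨M₀, B, hM, hB, fun q d hA P Q ρ hP hρ0 hρ hPQ ξ hξ => ?_⟩
  have hV := h q d hA
  have ht : 0 ≤ (yl c d)⁻¹ := (inv_pos.2 (hM.trans_le hA.len)).le
  have hρ' : ρ ≤ 1 / 16 := hρ.trans (by norm_num)
  refine ⟨?_, fun h1 => ?_, ?_⟩
  · exact hV.del0 hρ0 hρ' hP hPQ hξ
  · refine (hV.del1 ht hρ0 hρ' hP hPQ hξ h1).trans ?_
    have h2 : ‖P.1 - q k.castSucc‖ + ‖d‖ ≤
        ‖P.1 - q k.castSucc - d‖ + ‖P.1 - q k.castSucc + d‖ := by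
      have h3 : 2 * ‖P.1 - q k.castSucc‖ ≤
          ‖P.1 - q k.castSucc - d‖ + ‖P.1 - q k.castSucc + d‖ := by
        have e : (2 : ℂ) * (P.1 - q k.castSucc) =
            (P.1 - q k.castSucc - d) + (P.1 - q k.castSucc + d) := by ring
        have := norm_add_le (P.1 - q k.castSucc - d) (P.1 - q k.castSucc + d)
        rw [← e, norm_mul, Complex.norm_ofNat] at this
        exact this
      have h4 : 2 * ‖d‖ ≤ ‖P.1 - q k.castSucc - d‖ + ‖P.1 - q k.castSucc + d‖ := by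
        have e : (2 : ℂ) * d =
            (P.1 - q k.castSucc + d) - (P.1 - q k.castSucc - d) := by ring
        have := norm_sub_le (P.1 - q k.castSucc + d) (P.1 - q k.castSucc - d)
        rw [← e, norm_mul, Complex.norm_ofNat] at this
        linarith
      linarith
    have h5 : 0 ≤ B * ‖ξ‖ := by positivity
    refine mul_le_mul_of_nonneg_left ?_ h5
    unfold wt1
    linarith
  · exact hV.del2 ht hρ0 hρ' hP hPQ

end Vale.Agent.P273.H732.V1

end
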