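import Vale.Agent.P273.H732.Conv

/-!
# P273: the forms and the positions of a region in the chart coordinates

* `FW X R S`: the form of a region of 95 in unit gaps (smooth, closed, continuous);
* `nd y a`: 852's necks data of the curve `∏ ((x - e_k)^2 - ε_k)`, `ε_k = 16^{-2} exp (-y_k + i a_k)`;
* `coE`: 852's coordinates as a point of the chart, `pos852`: equality of the positions.
-/

set_option linter.unusedSectionVars false
set_option linter.unusedSimpArgs false

noncomputable section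

namespace Vale.Agent.P273.H732

open H95 H852
open scoped Topology ContDiff

/-! ### the form in unit gaps -/

/-- the form of a region in unit gaps -/
def FW (X : Ext) (R : Region) (S : L → Bool) (q : R.Sp) : Alt 16 R.Sp :=
  (X.H R S (scl R q)).compContinuousLinearMap (scl R)

/-- far marks are core marks -/
def FarOk (R : Region) (S : L → Bool) : Prop := ∀ j, S j = true → (R.pl j).isRight = true

theorem FW_apply (X : Ext) (R : Region) (S : L → Bool) (q : R.Sp) (v : Fin 16 → R.Sp) :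
    FW X R S q v = X.H R S (scl R q) (fun i => scl R (v i)) := rfl

theorem contDiffOn_FW (X : Ext) (R : Region) (S : L → Bool) (hS : FarOk R S) :
    ContDiffOn ℝ ∞ (FW X R S) (scl R ⁻¹' R.dom S) := by
  have h1 : ContDiffOn ℝ ∞ (fun q => X.H R S (scl R q)) (scl R ⁻¹' R.dom S) :=
    (X.hreg R S hS).1.comp (scl R).contDiff.contDiffOn (fun q hq => hq)
  exact (ContinuousAlternatingMap.compContinuousLinearMapCLM (𝕜 := ℝ) (ι := Fin 16) (F := ℝ)
    (scl R)).contDiff.comp_contDiffOn h1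

theorem continuousOn_FW (X : Ext) (R : Region) (S : L → Bool) (hS : FarOk R S) :
    ContinuousOn (FW X R S) (scl R ⁻¹' R.dom S) :=
  (contDiffOn_FW X R S hS).continuousOn

theorem extDeriv_FW (X : Ext) (R : Region) (S : L → Bool) (hS : FarOk R S)
    (hO : IsOpen (R.dom S)) {q : R.Sp} (hq : scl R q ∈ R.dom S) :
    extDeriv (FW X R S) q = 0 := by
  have hd : DifferentiableAt ℝ (X.H R S) (scl R q) :=
    ((X.hreg R S hS).1.differentiableOn (by simp)).differentiableAt (hO.mem_nhds hq)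
  have h := extDeriv_pullback (𝕜 := ℝ) (x := q) hd ((scl R).contDiff (n := ω)).contDiffAt
    (by simp [minSmoothness])
  have e : (fun x => (X.H R S (scl R x)).compContinuousLinearMap (fderiv ℝ (scl R) x))
      = FW X R S := by
    funext x
    rw [ContinuousLinearMap.fderiv]
    rfl
  rw [e, (X.hreg R S hS).2 _ hq] at h
  rw [h]
  ext v
  simp

/-! ### necks data -/

/-- 852's necks data at the theta point -/
def nd (y a : Fin 3 → ℝ) : Necks (Fin 3) where
  e := ctr
  c _ := 1 / 16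
  ε k := ((1 / 16 : ℝ) : ℂ) ^ 2 * Complex.exp (-(y k : ℂ) + (a k : ℂ) * Complex.I)
  Y := y
  a := a
  G := gk fun k => ((1 / 16 : ℝ) : ℂ) ^ 2 * Complex.exp (-(y k : ℂ) + (a k : ℂ) * Complex.I)
  s x := -gc (fun k => ((1 / 16 : ℝ) : ℂ) ^ 2 *
    Complex.exp (-(y k : ℂ) + (a k : ℂ) * Complex.I)) x

/-! ### casts -/

theorem fullGap_cast {A : Type} [AddCommGroup A] {n n' : ℕ} (h : n = n') (m : Fin (n + 1)) (Y : A)
    (u : Fin n' → A) (g : Fin (n + 1)) :
    fullGap m Y (fun i => u (Fin.cast h i)) g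
      = fullGap (Fin.cast (by rw [h]) m) Y u (Fin.cast (by rw [h]) g) := by
  subst h; rfl

theorem prod_Iic_cast {n n' : ℕ} (h : n = n') (i : Fin n) (f : Fin (n' + 1) → ℂ) :
    ∏ i' ∈ Finset.Iic i.castSucc, f (Fin.cast (by rw [h]) i')
      = ∏ g : Fin (n' + 1), if (g : ℕ) ≤ i then f g else 1 := by
  subst h
  rw [← Finset.prod_filter]
  refine Finset.prod_congr ?_ fun g _ => rfl
  ext g
  simp [Fin.le_def]

theorem prod_Ioi_cast {n n' : ℕ} (h : n = n') (i : Fin n) (f : Fin (n' + 1) → ℂ) :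
    ∏ i' ∈ Finset.Ioi i.castSucc, f (Fin.cast (by rw [h]) i')
      = ∏ g : Fin (n' + 1), if (i : ℕ) < (g : ℕ) then f g else 1 := by
  subst h
  rw [← Finset.prod_filter]
  refine Finset.prod_congr ?_ fun g _ => rfl
  ext g
  simp [Fin.lt_def]

/-! ### coordinates -/

section Co852

variable (R : H852.Reg L (Fin 3))

/-- free gaps -/
def gfE : R.Gf ≃ (wreg (to95 R).n (m95 R)).Fr :=
  (Equiv.sigmaCongrRight fun k => finCongr (to95_n R k).symm).trans (frE _ _)

/-- core marks -/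
def kcE : R.Kc ≃ (to95 R).Cm where
  toFun j := ⟨j.1, by
    rcases h : R.A j.1 with k | s
    · exact absurd h (j.2 k)
    · change (R.A j.1).isRight = true
      rw [h]; rfl⟩
  invFun j := ⟨j.1, fun k hk => by
    have h := j.2
    change (R.A j.1).isRight = true at h
    rw [hk] at h
    cases h⟩
  left_inv _ := rfl
  right_inv _ := rfl

/-- 852's coordinates as a point of the chart -/
def coE (y a : Fin 3 → ℝ) (x : ((R.Gf → ℝ) × (R.Gf → ℝ)) × (R.Kc → ℂ)) :
    (wreg (to95 R).n (m95 R)).Co (to95 R).Cm :=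
  (fun f => x.1.1 ((gfE R).symm f), fun f => x.1.2 ((gfE R).symm f), y, a,
    fun c => x.2 ((kcE R).symm c))

theorem coE_u (y a : Fin 3 → ℝ) (x : ((R.Gf → ℝ) × (R.Gf → ℝ)) × (R.Kc → ℂ)) (g : R.Gf) :
    (coE R y a x).1 (gfE R g) = x.1.1 g := by
  simp [coE]

theorem coE_th (y a : Fin 3 → ℝ) (x : ((R.Gf → ℝ) × (R.Gf → ℝ)) × (R.Kc → ℂ)) (g : R.Gf) :
    (coE R y a x).2.1 (gfE R g) = x.1.2 g := by
  simp [coE]

/-- the gaps agree -/
theorem tau_coE (y a : Fin 3 → ℝ) (x : ((R.Gf → ℝ) × (R.Gf → ℝ)) × (R.Kc → ℂ)) (k : Fin 3)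
    (g : Fin (R.n k + 1)) :
    R.tau (nd y a) x.1.1 x.1.2 ⟨k, g⟩
      = (wreg (to95 R).n (m95 R)).tau (coE R y a x) ⟨k, Fin.cast (by rw [to95_n]) g⟩ := by
  rw [tau_wreg, H852.Reg.tau]
  have h1 : ∀ i : Fin (R.n k), x.1.1 ⟨k, i⟩
      = (coE R y a x).1 (frE _ _ ⟨k, Fin.cast (to95_n R k).symm i⟩) := fun i =>
    (coE_u R y a x ⟨k, i⟩).symm
  have h2 : ∀ i : Fin (R.n k), x.1.2 ⟨k, i⟩
      = (coE R y a x).2.1 (frE _ _ ⟨k, Fin.cast (to95_n R k).symm i⟩) := fun i =>
    (coE_th R y a x ⟨k, i⟩).symm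
  have e1 : fullGap (R.m k) ((nd y a).Y k) (fun i => x.1.1 ⟨k, i⟩) g
      = fullGap (m95 R k) ((coE R y a x).2.2.1 k)
        (fun i => (coE R y a x).1 (frE _ _ ⟨k, i⟩)) (Fin.cast (by rw [to95_n]) g) := by
    rw [funext h1]
    exact fullGap_cast (to95_n R k).symm (R.m k) (y k)
      (fun i => (coE R y a x).1 (frE _ _ ⟨k, i⟩)) g
  have e2 : fullGap (R.m k) ((nd y a).a k) (fun i => x.1.2 ⟨k, i⟩) g
      = fullGap (m95 R k) ((coE R y a x).2.2.2.1 k)
        (fun i => (coE R y a x).2.1 (frE _ _ ⟨k, i⟩)) (Fin.cast (by rw [to95_n]) g) := by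
    rw [funext h2]
    exact fullGap_cast (to95_n R k).symm (R.m k) (a k)
      (fun i => (coE R y a x).2.1 (frE _ _ ⟨k, i⟩)) g
  rw [e1, e2]

/-- the normalised point of 95's region -/
def spE (y a : Fin 3 → ℝ) (x : ((R.Gf → ℝ) × (R.Gf → ℝ)) × (R.Kc → ℂ)) : (to95 R).Sp :=
  scl (to95 R) ((wreg (to95 R).n (m95 R)).psi (coE R y a x))

theorem eps_spE (y a : Fin 3 → ℝ) (x : ((R.Gf → ℝ) × (R.Gf → ℝ)) × (R.Kc → ℂ)) :
    (to95 R).eps (spE R y a x) = (nd y a).ε := by
  funext k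
  rw [spE, eps_scl_psi]
  simp only [nd, coE]
  push_cast
  rfl

theorem U_spE (y a : Fin 3 → ℝ) (x : ((R.Gf → ℝ) × (R.Gf → ℝ)) × (R.Kc → ℂ)) (k : Fin 3)
    (i : Fin (R.n k)) :
    R.U (nd y a) (R.tau (nd y a) x.1.1 x.1.2) k i = (to95 R).XX (spE R y a x) k i := by
  have hi : (i : ℕ) < (to95 R).n k := by rw [to95_n]; exact i.2
  rw [spE, XX_scl _ _ k hi, H852.Reg.U]
  rw [Finset.prod_congr rfl fun g _ => tau_coE R y a x k g]
  rw [prod_Iic_cast (to95_n R k).symm i
    (fun g => (wreg (to95 R).n (m95 R)).tau (coE R y a x) ⟨k, g⟩)]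
  simp only [nd]
  push_cast
  rfl

theorem V_spE (y a : Fin 3 → ℝ) (x : ((R.Gf → ℝ) × (R.Gf → ℝ)) × (R.Kc → ℂ)) (k : Fin 3)
    (i : Fin (R.n k)) :
    R.V (nd y a) (R.tau (nd y a) x.1.1 x.1.2) k i = (to95 R).YY (spE R y a x) k i := by
  have hi : (i : ℕ) < (to95 R).n k := by rw [to95_n]; exact i.2
  rw [spE, YY_scl _ _ k hi, H852.Reg.V]
  rw [Finset.prod_congr rfl fun g _ => tau_coE R y a x k g]
  rw [prod_Ioi_cast (to95_n R k).symm i
    (fun g => (wreg (to95 R).n (m95 R)).tau (coE R y a x) ⟨k, g⟩)]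
  simp only [nd]
  push_cast
  rfl

theorem pos852_neck (D : Necks (Fin 3)) (τ : R.Gap → ℂ) (z : R.Kc → ℂ) {j : L} {k : Fin 3}
    (h : R.A j = Sum.inl k) : R.pos D τ z j =
      D.pt k (R.U D τ k ((R.ord k).symm ⟨j, h⟩)) (R.V D τ k ((R.ord k).symm ⟨j, h⟩)) := by
  unfold H852.Reg.pos
  split
  · rename_i k' h'
    have : k' = k := by rw [h] at h'; exact (Sum.inl.inj h').symm
    subst this
    rfl
  · rename_i b h'
    rw [h] at h'
    cases h'

theorem pos852_core (D : Necks (Fin 3)) (τ : R.Gap → ℂ) (z : R.Kc → ℂ) {j : L} {b : Bool}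
    (h : R.A j = Sum.inr b) : R.pos D τ z j =
      (z ⟨j, fun k hk => by simp [hk] at h⟩,
        if b then D.s (z ⟨j, fun k hk => by simp [hk] at h⟩)
        else - D.s (z ⟨j, fun k hk => by simp [hk] at h⟩)) := by
  unfold H852.Reg.pos
  split
  · rename_i k' h'
    rw [h] at h'
    cases h'
  · rename_i b' h'
    have : b' = b := by rw [h] at h'; exact (Sum.inr.inj h').symm
    subst this
    rfl

/-- **the positions agree** -/
theorem pos852 (y a : Fin 3 → ℝ) (x : ((R.Gf → ℝ) × (R.Gf → ℝ)) × (R.Kc → ℂ)) (j : L) :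
    R.pos (nd y a) (R.tau (nd y a) x.1.1 x.1.2) x.2 j
      = ((to95 R).pos (spE R y a x) j, (to95 R).sht (fun _ => false) (spE R y a x) j) := by
  rcases h : R.A j with k | b
  · rw [pos852_neck R _ _ _ h, U_spE, V_spE, Necks.pt]
    have hr : (((R.ord k).symm ⟨j, h⟩ : Fin _) : ℕ) = (to95 R).rk j := (rk852_neck R h).symm
    rw [hr]
    have hp := pos_neck (to95 R) (spE R y a x) (j := j) (k := k) h
    rw [sht_neck (to95 R) (fun _ => false) (spE R y a x) (j := j) (k := k) h, hp, eps_spE]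
    refine Prod.ext rfl ?_
    change (nd y a).G k _ * (_ / 2) = gk (nd y a).ε k _ * _ / 2
    rw [mul_div_assoc]
    rfl
  · rw [pos852_core R _ _ _ h]
    have hp := pos_core (to95 R) (spE R y a x) (j := j) (s := b) h
    rw [sht_core (to95 R) (fun _ => false) (spE R y a x) (j := j) (s := b) h, hp, eps_spE]
    refine Prod.ext rfl ?_
    cases b
    · simp only [Bool.false_eq_true, if_false, one_mul]
      change - (- gc (nd y a).ε _) = gc (nd y a).ε _
      rw [neg_neg]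
      rfl
    · simp only [if_true, Bool.false_eq_true, if_false, neg_mul, one_mul]
      rfl

/-- 852's domain is the open region -/
theorem mem_dom_iff (y a : Fin 3 → ℝ) (x : ((R.Gf → ℝ) × (R.Gf → ℝ)) × (R.Kc → ℂ)) :
    x.1.1 ∈ R.dom (nd y a) ↔ ∀ f : (wreg (to95 R).n (m95 R)).Fr,
      0 < (coE R y a x).1 f ∧
        (coE R y a x).1 f < (wreg (to95 R).n (m95 R)).ul (coE R y a x)
          ((wreg (to95 R).n (m95 R)).nk f.1) := by
  have hs : ∀ k : Fin 3, (wreg (to95 R).n (m95 R)).ul (coE R y a x) k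
      = y k - ∑ i : Fin (R.n k), x.1.1 ⟨k, i⟩ := by
    intro k
    rw [Reg.ul, sum_free]
    congr 1
    rw [← Equiv.sum_comp (finCongr (to95_n R k).symm)]
    refine Finset.sum_congr rfl fun i _ => ?_
    exact coE_u R y a x ⟨k, i⟩
  have h : (∀ f : (wreg (to95 R).n (m95 R)).Fr, 0 < (coE R y a x).1 f ∧
        (coE R y a x).1 f < (wreg (to95 R).n (m95 R)).ul (coE R y a x)
          ((wreg (to95 R).n (m95 R)).nk f.1)) ↔ ∀ g : R.Gf, 0 < (coE R y a x).1 (gfE R g) ∧
        (coE R y a x).1 (gfE R g) < (wreg (to95 R).n (m95 R)).ul (coE R y a x)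
          ((wreg (to95 R).n (m95 R)).nk (gfE R g).1) := by
    constructor
    · intro h g; exact h _
    · intro h f
      have := h ((gfE R).symm f)
      rwa [Equiv.apply_symm_apply] at this
  rw [h]
  refine forall_congr' fun g => ?_
  rw [coE_u, hs]
  rfl

end Co852

end Vale.Agent.P273.H732
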