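import Vale.Agent.P273.H732.Pull

/-!
# P273, LIM: the dilated points of a region chart

`dpt B N y a p`: the gaps in `B` and the neck lengths are multiplied by `N`, the other coordinates
are kept.  For `N → ∞` this converges in the sense of `Reg.Lim` as soon as the sizes `v` of the gaps
in `B` are positive and their sum over every neck is smaller than the length of the neck.
-/

set_option linter.unusedSectionVars false
set_option linter.unusedSimpArgs false

noncomputable section

open scoped Topology ContDiff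
open Filter

namespace Vale.Agent.P273.H732

namespace Reg

variable {K G : Type} {C : Type} (R : Reg K G)
variable [DecidableEq K] [DecidableEq G] [Fintype G] [Fintype K] [Fintype C]

open Classical in
/-- dilation by `N`: the sizes of the gaps in `B` and the lengths of the necks are multiplied by `N` -/
def dpt (B : Set R.Fr) (N : ℝ) (p : R.Co C) : R.Co C :=
  (fun f => if f ∈ B then N * p.1 f else p.1 f, p.2.1, fun k => N * p.2.2.1 k, p.2.2.2.1, p.2.2.2.2)

open Classical in
/-- the limit region: positive sizes in `B`, with sum over every neck smaller than its length -/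
def Pos (B : Set R.Fr) (p : R.Co C) : Prop :=
  (∀ f ∈ B, 0 < p.1 f) ∧
    ∀ k, (∑ f : R.Fr, if f ∈ B ∧ R.nk f.1 = k then p.1 f else 0) < p.2.2.1 k

open Classical in
theorem ul_dpt (B : Set R.Fr) (N : ℝ) (p : R.Co C) (k : K) :
    R.ul (R.dpt B N p) k =
      N * (p.2.2.1 k - ∑ f : R.Fr, if f ∈ B ∧ R.nk f.1 = k then p.1 f else 0)
        - ∑ f : R.Fr, if f ∉ B ∧ R.nk f.1 = k then p.1 f else 0 := by
  have h : (∑ f : R.Fr, if R.nk f.1 = k then (if f ∈ B then N * p.1 f else p.1 f) else 0)
      = N * (∑ f : R.Fr, if f ∈ B ∧ R.nk f.1 = k then p.1 f else 0)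
        + ∑ f : R.Fr, if f ∉ B ∧ R.nk f.1 = k then p.1 f else 0 := by
    rw [Finset.mul_sum, ← Finset.sum_add_distrib]
    refine Finset.sum_congr rfl fun f _ => ?_
    by_cases h1 : R.nk f.1 = k <;> by_cases h2 : f ∈ B <;> simp [h1, h2]
  simp only [ul, dpt]
  rw [h]; ring

/-- the dilated points converge in the chart -/
theorem lim_dpt [DecidableEq C] {ι : Type} {l : Filter ι} (B : Set R.Fr) {N : ι → ℝ} (hN : Tendsto N l atTop)
    {p : R.Co C} (hp : R.Pos B p) : R.Lim l B (fun n => R.dpt B (N n) p) p where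
  hB f hf := by
    simp only [dpt, if_pos hf]
    exact hN.atTop_mul_const (hp.1 f hf)
  hl k := by
    simp only [ul_dpt]
    have h := hp.2 k
    refine tendsto_atTop_add_const_right l _ ?_ |>.congr fun n => (sub_eq_add_neg _ _).symm
    exact hN.atTop_mul_const (by linarith)
  hu f hf := by
    simp only [dpt, if_neg hf]
    exact tendsto_const_nhds
  hph f _ := tendsto_const_nhds
  hs := tendsto_const_nhds

/-- **F-side limit at the dilated points** -/
theorem F_tendsto_dpt [DecidableEq C] {ι : Type} {l : Filter ι} (B : Set R.Fr) {N : ι → ℝ}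
    (hN : Tendsto N l atTop) {p : R.Co C} (hp : R.Pos B p) {n : ℕ} {S : Set (R.Tg C)}
    {F : R.Tg C → R.Tg C [⋀^Fin n]→L[ℝ] ℝ} (hF : ContinuousWithinAt F S (R.qlim B p))
    (hS : ∀ᶠ n in l, R.psi (R.dpt B (N n) p) ∈ S) (w : Fin n → R.Dir C) :
    Tendsto (fun n => R.pb F (R.dpt B (N n) p) (fun i => R.vec (w i))) l
      (𝓝 (F (R.qlim B p) (fun i => R.vlim B p (w i)))) :=
  (R.lim_dpt B hN hp).F_tendsto hF hS w

/-- `F` along a frame converging in the chart (for frames containing Euler vectors) -/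
theorem Lim.F_tendsto_frame [DecidableEq C] {R : Reg K G} {ι : Type} {l : Filter ι} {B : Set R.Fr}
    {P : ι → R.Co C} {p : R.Co C} (h : R.Lim l B P p) {n : ℕ} {S : Set (R.Tg C)}
    {F : R.Tg C → R.Tg C [⋀^Fin n]→L[ℝ] ℝ} (hF : ContinuousWithinAt F S (R.qlim B p))
    (hS : ∀ᶠ n in l, R.psi (P n) ∈ S) (v : ι → Fin n → R.Co C) (v0 : Fin n → R.Tg C)
    (hv : ∀ i, Tendsto (fun m => R.dpsi (P m) (v m i)) l (𝓝 (v0 i))) :
    Tendsto (fun m => R.pb F (P m) (v m)) l (𝓝 (F (R.qlim B p) v0)) := by
  have h1 : Tendsto (fun m => F (R.psi (P m))) l (𝓝 (F (R.qlim B p))) :=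
    hF.tendsto.comp (tendsto_nhdsWithin_iff.2 ⟨h.psi, hS⟩)
  exact tendsto_eval h1 (tendsto_pi_nhds.2 hv)

end Reg

end Vale.Agent.P273.H732
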