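import Vale.Agent.P273.H595.Nat
import Vale.Agent.P273.H655.Bd

/-!
Row GP-INV, second half: the integral does not depend on the admissible path.
-/

open Complex Set Filter Topology MeasureTheory
open scoped ContDiff

namespace Vale.Agent.P273.H732.GPInv2

open H857 H595

noncomputable section

variable {k : ℕ} {B : Finset (Fin 6)} {b : C6} {x : ℂ} {g₀ g₁ : ℝ → ℝ}

/-- the family of paths -/
def gs (g₀ g₁ : ℝ → ℝ) (s t : ℝ) : ℝ := (1 - s) * g₀ t + s * g₁ t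

theorem adm_gs (h0 : Adm B b x g₀) (h1 : Adm B b x g₁) {s : ℝ} (hs : s ∈ Icc (0 : ℝ) 1) :
    Adm B b x (gs g₀ g₁ s) := h0.convex h1 hs.1 hs.2

theorem continuous_gam2 (h0 : Continuous g₀) (h1 : Continuous g₁) (x : ℂ) :
    Continuous (fun p : ℝ × ℝ => gam x (gs g₀ g₁ p.1) p.2) := by
  unfold gam gs
  fun_prop

/-- uniform lower bound for the distance to a root that is not the starting point -/
theorem lower (h0 : Adm B b x g₀) (h1 : Adm B b x g₁) {l : Fin 6} (hl : b l ≠ x) :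
    ∃ c > (0 : ℝ), c ≤ 1 ∧ ∀ s ∈ Icc (0 : ℝ) 1, ∀ t, 0 ≤ t →
      c * (1 + t) ≤ ‖gam x (gs g₀ g₁ s) t - b l‖ := by
  set a : ℝ := |x.re - (b l).re| with ha
  set T : ℝ := 2 * a + 1 with hT
  have ha0 : 0 ≤ a := abs_nonneg _
  have hcont : Continuous (fun p : ℝ × ℝ => ‖gam x (gs g₀ g₁ p.1) p.2 - b l‖) :=
    ((continuous_gam2 h0.1.smooth.continuous h1.1.smooth.continuous x).sub
      continuous_const).norm
  have hK : IsCompact (Icc (0 : ℝ) 1 ×ˢ Icc (0 : ℝ) T) := isCompact_Icc.prod isCompact_Icc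
  have hne : (Icc (0 : ℝ) 1 ×ˢ Icc (0 : ℝ) T).Nonempty :=
    ⟨(0, 0), ⟨le_rfl, zero_le_one⟩, ⟨le_rfl, by positivity⟩⟩
  obtain ⟨p, hp, hmin⟩ := hK.exists_isMinOn hne hcont.continuousOn
  have hpos : 0 < ‖gam x (gs g₀ g₁ p.1) p.2 - b l‖ := by
    rw [norm_pos_iff]
    exact Sb_ne_zero ((adm_gs h0 h1 hp.1).mem hp.2.1 (Or.inl hl))
  refine ⟨min (1 / 2) (‖gam x (gs g₀ g₁ p.1) p.2 - b l‖ / (1 + T)), ?_, ?_, ?_⟩
  · refine lt_min (by norm_num) (div_pos hpos (by positivity))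
  · exact (min_le_left _ _).trans (by norm_num)
  · intro s hs t ht
    by_cases h : t ≤ T
    · have h2 : ‖gam x (gs g₀ g₁ p.1) p.2 - b l‖ ≤ ‖gam x (gs g₀ g₁ s) t - b l‖ :=
        hmin (show ((s, t) : ℝ × ℝ) ∈ Icc (0 : ℝ) 1 ×ˢ Icc (0 : ℝ) T from ⟨hs, ht, h⟩)
      refine le_trans ?_ h2
      calc min (1 / 2) (‖gam x (gs g₀ g₁ p.1) p.2 - b l‖ / (1 + T)) * (1 + t)
          ≤ (‖gam x (gs g₀ g₁ p.1) p.2 - b l‖ / (1 + T)) * (1 + T) := by
            refine mul_le_mul (min_le_right _ _) (by linarith) (by linarith) (by positivity)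
        _ = _ := by rw [div_mul_cancel₀]; positivity
    · push Not at h
      have h3 : |(gam x (gs g₀ g₁ s) t - b l).re| ≤ ‖gam x (gs g₀ g₁ s) t - b l‖ :=
        Complex.abs_re_le_norm _
      have h4 : (gam x (gs g₀ g₁ s) t - b l).re = (x.re - (b l).re) + t := by
        rw [sub_re, gam_re]; ring
      have h5 : -a ≤ x.re - (b l).re := neg_abs_le _
      have h6 : 1 / 2 * (1 + t) ≤ |(gam x (gs g₀ g₁ s) t - b l).re| := by
        rw [h4]
        refine le_trans ?_ (le_abs_self _)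
        linarith
      refine le_trans ?_ (h6.trans h3)
      exact mul_le_mul_of_nonneg_right (min_le_left _ _) (by linarith)

theorem lower_start (s t : ℝ) : t ≤ ‖gam x (gs g₀ g₁ s) t - x‖ := by
  have h3 : |(gam x (gs g₀ g₁ s) t - x).re| ≤ ‖gam x (gs g₀ g₁ s) t - x‖ :=
    Complex.abs_re_le_norm _
  have h4 : (gam x (gs g₀ g₁ s) t - x).re = t := by
    rw [sub_re, gam_re]; ring
  rw [h4] at h3
  exact (le_abs_self _).trans h3

/-- the product of all the distances -/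
theorem lower_prod (hb : SR b x) (h0 : Adm B b x g₀) (h1 : Adm B b x g₁) :
    ∃ c > (0 : ℝ), ∀ s ∈ Icc (0 : ℝ) 1, ∀ t, 0 ≤ t →
      c * ((1 + t) ^ 5 * t) ≤ ∏ l, ‖gam x (gs g₀ g₁ s) t - b l‖ := by
  obtain ⟨l0, hl0⟩ : ∃ l0 : Fin 6, ∀ l, l ≠ l0 → b l ≠ x := by
    by_cases h : ∃ l0, b l0 = x
    · obtain ⟨l0, hl0⟩ := h
      exact ⟨l0, fun l hl e => hl (hb l l0 e hl0)⟩
    · push Not at h
      exact ⟨0, fun l _ => h l⟩
  have hc : ∀ l, ∃ c > (0 : ℝ), ∀ s ∈ Icc (0 : ℝ) 1, ∀ t, 0 ≤ t →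
      c * (if l = l0 then t else 1 + t) ≤ ‖gam x (gs g₀ g₁ s) t - b l‖ := by
    intro l
    by_cases h : b l = x
    · have hl : l = l0 := by
        by_contra hne
        exact hl0 l hne h
      refine ⟨1, one_pos, fun s _ t _ => ?_⟩
      rw [if_pos hl, one_mul, h]
      exact lower_start s t
    · obtain ⟨c, hc, -, hcb⟩ := lower h0 h1 h
      refine ⟨c, hc, fun s hs t ht => le_trans ?_ (hcb s hs t ht)⟩
      refine mul_le_mul_of_nonneg_left ?_ hc.le
      split_ifs <;> linarith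
  choose c hc hcb using hc
  refine ⟨∏ l, c l, Finset.prod_pos fun l _ => hc l, fun s hs t ht => ?_⟩
  have h2 : ∏ l : Fin 6, (if l = l0 then t else 1 + t) = (1 + t) ^ 5 * t := by
    rw [Finset.prod_ite]
    have e1 : (Finset.univ.filter fun l : Fin 6 => l = l0) = {l0} := by
      ext l; simp
    have e2 : (Finset.univ.filter fun l : Fin 6 => ¬ l = l0) = Finset.univ.erase l0 := by
      ext l; simp
    rw [e1, e2, Finset.prod_singleton, Finset.prod_const, Finset.card_erase_of_mem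
      (Finset.mem_univ _)]
    simp [mul_comm]
  rw [← h2, ← Finset.prod_mul_distrib]
  refine Finset.prod_le_prod (fun l _ => ?_) fun l _ => hcb l s hs t ht
  refine mul_nonneg (hc l).le ?_
  split_ifs <;> linarith

theorem norm_sq (z : ℂ) : ‖sq B b z‖ = Real.sqrt (∏ l, ‖z - b l‖) := by
  rw [H857.sq, norm_prod]
  rw [Finset.prod_congr rfl fun l _ => norm_br B l (z - b l)]
  exact (Real.sqrt_prod Finset.univ fun l _ => norm_nonneg _).symm

/-- upper bound of the path -/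
theorem norm_gam_le (h0 : IsPath g₀) (h1 : IsPath g₁) (x : ℂ) :
    ∃ M > (0 : ℝ), (∀ s ∈ Icc (0 : ℝ) 1, ∀ t, 0 ≤ t → ‖gam x (gs g₀ g₁ s) t‖ ≤ M * (1 + t)) ∧
      ∀ t, 0 ≤ t → |g₁ t - g₀ t| ≤ M * t := by
  have key : ∀ g : ℝ → ℝ, IsPath g → ∃ K ≥ (0 : ℝ), ∀ t, 0 ≤ t → |g t| ≤ K * t := by
    intro g hg
    obtain ⟨K, hK⟩ := hg.bdd
    refine ⟨K, (abs_nonneg _).trans (hK 0), fun t ht => ?_⟩
    have h := Convex.norm_image_sub_le_of_norm_deriv_le (𝕜 := ℝ) (f := g) (C := K)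
      (fun y _ => (hg.smooth.differentiable (by simp)) y) (fun y _ => hK y) convex_univ
      (mem_univ 0) (mem_univ t)
    simpa [hg.zero, Real.norm_eq_abs, abs_of_nonneg ht] using h
  obtain ⟨K0, hK0, h0'⟩ := key g₀ h0
  obtain ⟨K1, hK1, h1'⟩ := key g₁ h1
  refine ⟨‖x‖ + 1 + K0 + K1, by positivity, fun s hs t ht => ?_, fun t ht => ?_⟩
  · have e1 : |gs g₀ g₁ s t| ≤ (K0 + K1) * t := by
      unfold gs
      refine (abs_add_le _ _).trans ?_
      rw [abs_mul, abs_mul, abs_of_nonneg (by linarith [hs.2] : (0 : ℝ) ≤ 1 - s),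
        abs_of_nonneg hs.1]
      have a1 := h0' t ht
      have a2 := h1' t ht
      have b1 : (1 - s) * |g₀ t| ≤ 1 * |g₀ t| :=
        mul_le_mul_of_nonneg_right (by linarith [hs.1]) (abs_nonneg _)
      have b2 : s * |g₁ t| ≤ 1 * |g₁ t| :=
        mul_le_mul_of_nonneg_right hs.2 (abs_nonneg _)
      linarith
    have e2 : ‖gam x (gs g₀ g₁ s) t‖ ≤ ‖x‖ + (t + |gs g₀ g₁ s t|) := by
      unfold gam
      refine (norm_add_le _ _).trans (add_le_add le_rfl ((norm_add_le _ _).trans ?_))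
      rw [norm_mul, norm_I, mul_one, Complex.norm_real, Complex.norm_real, Real.norm_eq_abs,
        Real.norm_eq_abs, abs_of_nonneg ht]
    have := norm_nonneg x
    nlinarith
  · have a1 := h0' t ht
    have a2 := h1' t ht
    have := norm_nonneg x
    calc |g₁ t - g₀ t| ≤ |g₁ t| + |g₀ t| := abs_sub _ _
      _ ≤ (‖x‖ + 1 + K0 + K1) * t := by nlinarith

/-- the function -/
def Phi (k : ℕ) (B : Finset (Fin 6)) (b : C6) (z : ℂ) : ℂ := z ^ k / sq B b z

/-- **main bound** -/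
theorem bound (hk : k ≤ 1) (hb : SR b x) (h0 : Adm B b x g₀) (h1 : Adm B b x g₁) :
    ∃ C > (0 : ℝ), ∀ s ∈ Icc (0 : ℝ) 1, ∀ t, 0 < t →
      ‖Phi k B b (gam x (gs g₀ g₁ s) t)‖ ≤ C * (Real.sqrt t)⁻¹ * (Real.sqrt ((1 + t) ^ 3))⁻¹ := by
  obtain ⟨c, hc, hcb⟩ := lower_prod hb h0 h1
  obtain ⟨M, hM, hMb, -⟩ := norm_gam_le h0.1 h1.1 x
  refine ⟨max M 1 * (Real.sqrt c)⁻¹, by positivity, fun s hs t ht => ?_⟩
  have e1 : Real.sqrt (c * ((1 + t) ^ 5 * t)) ≤ ‖sq B b (gam x (gs g₀ g₁ s) t)‖ := by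
    rw [norm_sq]
    exact Real.sqrt_le_sqrt (hcb s hs t ht.le)
  have e2 : Real.sqrt (c * ((1 + t) ^ 5 * t))
      = Real.sqrt c * ((1 + t) * Real.sqrt ((1 + t) ^ 3) * Real.sqrt t) := by
    rw [Real.sqrt_mul hc.le, Real.sqrt_mul (by positivity)]
    congr 2
    rw [show (1 + t) ^ 5 = (1 + t) ^ 2 * (1 + t) ^ 3 by ring, Real.sqrt_mul (by positivity),
      Real.sqrt_sq (by linarith)]
  have e3 : ‖gam x (gs g₀ g₁ s) t‖ ^ k ≤ max M 1 * (1 + t) := by
    interval_cases k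
    · rw [pow_zero]
      calc (1 : ℝ) ≤ 1 * (1 + t) := by linarith
        _ ≤ max M 1 * (1 + t) := mul_le_mul_of_nonneg_right (le_max_right _ _) (by linarith)
    · rw [pow_one]
      exact (hMb s hs t ht.le).trans
        (mul_le_mul_of_nonneg_right (le_max_left _ _) (by linarith))
  have hst : 0 < Real.sqrt t := Real.sqrt_pos.2 ht
  have hsc : 0 < Real.sqrt c := Real.sqrt_pos.2 hc
  have hs3 : 0 < Real.sqrt ((1 + t) ^ 3) := Real.sqrt_pos.2 (by positivity)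
  have h1t : 0 < 1 + t := by linarith
  rw [Phi, norm_div, norm_pow]
  calc ‖gam x (gs g₀ g₁ s) t‖ ^ k / ‖sq B b (gam x (gs g₀ g₁ s) t)‖
      ≤ (max M 1 * (1 + t)) / (Real.sqrt c * ((1 + t) * Real.sqrt ((1 + t) ^ 3) * Real.sqrt t)) := by
        rw [← e2]
        refine div_le_div₀ (by positivity) e3 ?_ e1
        rw [e2]; positivity
    _ = _ := by field_simp

theorem differentiableAt_Phi {z : ℂ} (hz : z ∈ Dm B b) : DifferentiableAt ℂ (Phi k B b) z := by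
  unfold Phi
  have h1 : AnalyticAt ℂ (fun z : ℂ => sq B b z) z :=
    (analyticAt_sq hz).comp (f := fun z : ℂ => ((b, z) : C6 × ℂ)) (analyticAt_const.prod analyticAt_id)
  refine (differentiableAt_pow k).div h1.differentiableAt ?_
  exact sq_ne_zero fun l h => Sb_ne_zero (hz l) (by rw [h, sub_self])

/-- the height family as a complex function of `(t, s)` -/
def Gp (x : ℂ) (g₀ g₁ : ℝ → ℝ) (p : ℝ × ℝ) : ℂ := gam x (gs g₀ g₁ p.2) p.1

def f2 (k : ℕ) (B : Finset (Fin 6)) (b : C6) (x : ℂ) (g₀ g₁ : ℝ → ℝ) (p : ℝ × ℝ) : ℂ :=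
  Phi k B b (Gp x g₀ g₁ p) * (((g₁ p.1 - g₀ p.1 : ℝ) : ℂ) * I)

def q2 (k : ℕ) (B : Finset (Fin 6)) (b : C6) (x : ℂ) (g₀ g₁ : ℝ → ℝ) (p : ℝ × ℝ) : ℂ :=
  -(Phi k B b (Gp x g₀ g₁ p) *
    (1 + (((1 - p.2) * deriv g₀ p.1 + p.2 * deriv g₁ p.1 : ℝ) : ℂ) * I))

theorem differentiable_ofReal_comp {f : ℝ × ℝ → ℝ} (hf : Differentiable ℝ f) :
    Differentiable ℝ (fun p => ((f p : ℝ) : ℂ)) :=
  Complex.ofRealCLM.differentiable.comp hf

theorem differentiable_Gp (h0 : IsPath g₀) (h1 : IsPath g₁) (x : ℂ) :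
    Differentiable ℝ (Gp x g₀ g₁) := by
  have d0 : Differentiable ℝ g₀ := h0.smooth.differentiable (by simp)
  have d1 : Differentiable ℝ g₁ := h1.smooth.differentiable (by simp)
  have h : Differentiable ℝ (fun p : ℝ × ℝ => gs g₀ g₁ p.2 p.1) := by
    unfold gs; fun_prop
  have h' := differentiable_ofReal_comp h
  have h'' : Differentiable ℝ (fun p : ℝ × ℝ => ((p.1 : ℝ) : ℂ)) :=
    differentiable_ofReal_comp differentiable_fst
  unfold Gp gam
  exact (h''.add (h'.mul_const I)).const_add x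

theorem Gp_mem (h0 : Adm B b x g₀) (h1 : Adm B b x g₁) {p : ℝ × ℝ} (h : 0 < p.1)
    (hs : p.2 ∈ Icc (0 : ℝ) 1) : Gp x g₀ g₁ p ∈ Dm B b := (adm_gs h0 h1 hs).mem_Dm h

theorem diff_Phi_Gp (h0 : Adm B b x g₀) (h1 : Adm B b x g₁) {p : ℝ × ℝ} (h : 0 < p.1)
    (hs : p.2 ∈ Icc (0 : ℝ) 1) : DifferentiableAt ℝ (fun p => Phi k B b (Gp x g₀ g₁ p)) p :=
  ((differentiableAt_Phi (k := k) (Gp_mem h0 h1 h hs)).restrictScalars ℝ).comp p
    (differentiable_Gp h0.1 h1.1 x p)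

theorem diff_f2 (h0 : Adm B b x g₀) (h1 : Adm B b x g₁) {p : ℝ × ℝ} (h : 0 < p.1)
    (hs : p.2 ∈ Icc (0 : ℝ) 1) : DifferentiableAt ℝ (f2 k B b x g₀ g₁) p := by
  have d0 : Differentiable ℝ g₀ := h0.1.smooth.differentiable (by simp)
  have d1 : Differentiable ℝ g₁ := h1.1.smooth.differentiable (by simp)
  have h2 : Differentiable ℝ (fun p : ℝ × ℝ => g₁ p.1 - g₀ p.1) := by fun_prop
  exact (diff_Phi_Gp h0 h1 h hs).mul (((differentiable_ofReal_comp h2).mul_const I) p)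

theorem diff_q2 (h0 : Adm B b x g₀) (h1 : Adm B b x g₁) {p : ℝ × ℝ} (h : 0 < p.1)
    (hs : p.2 ∈ Icc (0 : ℝ) 1) : DifferentiableAt ℝ (q2 k B b x g₀ g₁) p := by
  have d0 : Differentiable ℝ (deriv g₀) := (contDiff_infty_iff_deriv.1 h0.1.smooth).2.differentiable (by simp)
  have d1 : Differentiable ℝ (deriv g₁) := (contDiff_infty_iff_deriv.1 h1.1.smooth).2.differentiable (by simp)
  have h2 : Differentiable ℝ (fun p : ℝ × ℝ => (1 - p.2) * deriv g₀ p.1 + p.2 * deriv g₁ p.1) := by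
    fun_prop
  exact ((diff_Phi_Gp h0 h1 h hs).mul
    ((((differentiable_ofReal_comp h2).mul_const I).const_add 1) p)).neg

/-! ### derivatives in the coordinate directions -/

theorem hasDerivAt_ofReal_comp {f : ℝ → ℝ} {f' t : ℝ} (h : HasDerivAt f f' t) :
    HasDerivAt (fun t => ((f t : ℝ) : ℂ)) (f' : ℂ) t := h.ofReal_comp

theorem hasDerivAt_Gp_t (h0 : IsPath g₀) (h1 : IsPath g₁) (x : ℂ) (t s : ℝ) :
    HasDerivAt (fun t => Gp x g₀ g₁ (t, s))
      (1 + (((1 - s) * deriv g₀ t + s * deriv g₁ t : ℝ) : ℂ) * I) t := by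
  have d0 : HasDerivAt g₀ (deriv g₀ t) t := ((h0.smooth.differentiable (by simp)) t).hasDerivAt
  have d1 : HasDerivAt g₁ (deriv g₁ t) t := ((h1.smooth.differentiable (by simp)) t).hasDerivAt
  have h2 : HasDerivAt (fun t => gs g₀ g₁ s t) ((1 - s) * deriv g₀ t + s * deriv g₁ t) t :=
    (d0.const_mul _).add (d1.const_mul _)
  have h3 := (hasDerivAt_ofReal_comp h2).mul_const I
  have h4 : HasDerivAt (fun t : ℝ => (t : ℂ)) 1 t := by
    simpa using hasDerivAt_ofReal_comp (hasDerivAt_id t)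
  exact (h4.add h3).const_add x

theorem hasDerivAt_Gp_s (x : ℂ) (g₀ g₁ : ℝ → ℝ) (t s : ℝ) :
    HasDerivAt (fun s => Gp x g₀ g₁ (t, s)) (((g₁ t - g₀ t : ℝ) : ℂ) * I) s := by
  have h2 : HasDerivAt (fun s => gs g₀ g₁ s t) (g₁ t - g₀ t) s := by
    have h3 : HasDerivAt (fun s : ℝ => (1 - s) * g₀ t + s * g₁ t) (-1 * g₀ t + 1 * g₁ t) s :=
      (((hasDerivAt_id s).const_sub 1).mul_const _).add ((hasDerivAt_id s).mul_const _)
    have e : -1 * g₀ t + 1 * g₁ t = g₁ t - g₀ t := by ring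
    rw [e] at h3
    exact h3
  have h3 := (hasDerivAt_ofReal_comp h2).mul_const I
  have h4 := (h3.const_add (t : ℂ)).const_add x
  exact h4

theorem hasDerivAt_f2_t (h0 : Adm B b x g₀) (h1 : Adm B b x g₁) {t s : ℝ} (h : 0 < t)
    (hs : s ∈ Icc (0 : ℝ) 1) :
    HasDerivAt (fun t => f2 k B b x g₀ g₁ (t, s))
      (deriv (Phi k B b) (Gp x g₀ g₁ (t, s)) *
          (1 + (((1 - s) * deriv g₀ t + s * deriv g₁ t : ℝ) : ℂ) * I) *
            (((g₁ t - g₀ t : ℝ) : ℂ) * I)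
        + Phi k B b (Gp x g₀ g₁ (t, s)) * (((deriv g₁ t - deriv g₀ t : ℝ) : ℂ) * I)) t := by
  have d0 : HasDerivAt g₀ (deriv g₀ t) t :=
    ((h0.1.smooth.differentiable (by simp)) t).hasDerivAt
  have d1 : HasDerivAt g₁ (deriv g₁ t) t :=
    ((h1.1.smooth.differentiable (by simp)) t).hasDerivAt
  have hP := (differentiableAt_Phi (k := k) (Gp_mem h0 h1 (p := (t, s)) h hs)).hasDerivAt
  have h2 := HasDerivAt.comp (𝕜 := ℝ) (𝕜' := ℂ) t hP (hasDerivAt_Gp_t h0.1 h1.1 x t s)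
  exact h2.mul ((hasDerivAt_ofReal_comp (d1.sub d0)).mul_const I)

theorem hasDerivAt_q2_s (h0 : Adm B b x g₀) (h1 : Adm B b x g₁) {t s : ℝ} (h : 0 < t)
    (hs : s ∈ Icc (0 : ℝ) 1) :
    HasDerivAt (fun s => q2 k B b x g₀ g₁ (t, s))
      (-(deriv (Phi k B b) (Gp x g₀ g₁ (t, s)) * (((g₁ t - g₀ t : ℝ) : ℂ) * I) *
          (1 + (((1 - s) * deriv g₀ t + s * deriv g₁ t : ℝ) : ℂ) * I)
        + Phi k B b (Gp x g₀ g₁ (t, s)) * (((deriv g₁ t - deriv g₀ t : ℝ) : ℂ) * I))) s := by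
  have hP := (differentiableAt_Phi (k := k) (Gp_mem h0 h1 (p := (t, s)) h hs)).hasDerivAt
  have h2 := HasDerivAt.comp (𝕜 := ℝ) (𝕜' := ℂ) s hP (hasDerivAt_Gp_s x g₀ g₁ t s)
  have h3 : HasDerivAt (fun s : ℝ => (1 - s) * deriv g₀ t + s * deriv g₁ t)
      (deriv g₁ t - deriv g₀ t) s := by
    have h3 : HasDerivAt (fun s : ℝ => (1 - s) * deriv g₀ t + s * deriv g₁ t)
        (-1 * deriv g₀ t + 1 * deriv g₁ t) s :=
      (((hasDerivAt_id s).const_sub 1).mul_const _).add ((hasDerivAt_id s).mul_const _)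
    have e : -1 * deriv g₀ t + 1 * deriv g₁ t = deriv g₁ t - deriv g₀ t := by ring
    rwa [e] at h3
  exact (h2.mul (((hasDerivAt_ofReal_comp h3).mul_const I).const_add 1)).neg

theorem div_zero' (h0 : Adm B b x g₀) (h1 : Adm B b x g₁) {t s : ℝ} (h : 0 < t)
    (hs : s ∈ Icc (0 : ℝ) 1) :
    fderiv ℝ (f2 k B b x g₀ g₁) (t, s) (1, 0) + fderiv ℝ (q2 k B b x g₀ g₁) (t, s) (0, 1) = 0 := by
  have l1 : HasDerivAt (fun t : ℝ => ((t, s) : ℝ × ℝ)) (1, 0) t :=
    (hasDerivAt_id t).prodMk (hasDerivAt_const t s)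
  have l2 : HasDerivAt (fun s : ℝ => ((t, s) : ℝ × ℝ)) (0, 1) s :=
    (hasDerivAt_const s t).prodMk (hasDerivAt_id s)
  have hf : HasFDerivAt (f2 k B b x g₀ g₁) (fderiv ℝ (f2 k B b x g₀ g₁) (t, s)) (t, s) :=
    (diff_f2 (k := k) h0 h1 (p := (t, s)) h hs).hasFDerivAt
  have a1 : HasDerivAt (fun t => f2 k B b x g₀ g₁ (t, s))
      (fderiv ℝ (f2 k B b x g₀ g₁) (t, s) (1, 0)) t :=
    HasFDerivAt.comp_hasDerivAt (f := fun t : ℝ => ((t, s) : ℝ × ℝ)) t hf l1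
  have a2 : HasDerivAt (fun s => q2 k B b x g₀ g₁ (t, s))
      (fderiv ℝ (q2 k B b x g₀ g₁) (t, s) (0, 1)) s :=
    ((diff_q2 (k := k) h0 h1 (p := (t, s)) h hs).hasFDerivAt).comp_hasDerivAt s l2
  rw [a1.unique (hasDerivAt_f2_t h0 h1 h hs), a2.unique (hasDerivAt_q2_s h0 h1 h hs)]
  ring

/-- the vertical integral -/
def V (k : ℕ) (B : Finset (Fin 6)) (b : C6) (x : ℂ) (g₀ g₁ : ℝ → ℝ) (t : ℝ) : ℂ :=
  ∫ s in (0 : ℝ)..1, f2 k B b x g₀ g₁ (t, s)

theorem q2_one (t : ℝ) : q2 k B b x g₀ g₁ (t, 1) = -igd k B b x g₁ t := by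
  have e : gs g₀ g₁ 1 = g₁ := by funext t; simp [gs]
  simp only [q2, igd, Phi, Gp, e]
  simp

theorem q2_zero (t : ℝ) : q2 k B b x g₀ g₁ (t, 0) = -igd k B b x g₀ t := by
  have e : gs g₀ g₁ 0 = g₀ := by funext t; simp [gs]
  simp only [q2, igd, Phi, Gp, e]
  simp

/-- **Green's formula** -/
theorem green (h0 : Adm B b x g₀) (h1 : Adm B b x g₁) {a c : ℝ} (ha : 0 < a) (hac : a ≤ c) :
    V k B b x g₀ g₁ c - V k B b x g₀ g₁ a
      = ∫ t in a..c, (igd k B b x g₁ t - igd k B b x g₀ t) := by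
  have hrect : ∀ p ∈ uIcc a c ×ˢ uIcc (0 : ℝ) 1, 0 < p.1 ∧ p.2 ∈ Icc (0 : ℝ) 1 := by
    rintro p ⟨h1, h2⟩
    rw [uIcc_of_le hac] at h1
    rw [uIcc_of_le zero_le_one] at h2
    exact ⟨ha.trans_le h1.1, h2⟩
  have hsub : Ioo (min a c) (max a c) ×ˢ Ioo (min (0 : ℝ) 1) (max 0 1) ⊆
      uIcc a c ×ˢ uIcc (0 : ℝ) 1 :=
    prod_mono Ioo_subset_Icc_self Ioo_subset_Icc_self
  have key := integral2_divergence_prod_of_hasFDerivAt_off_countable
    (f2 k B b x g₀ g₁) (q2 k B b x g₀ g₁) (fderiv ℝ (f2 k B b x g₀ g₁))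
    (fderiv ℝ (q2 k B b x g₀ g₁)) a 0 c 1 ∅ countable_empty
    (fun p hp => (diff_f2 h0 h1 (hrect p hp).1 (hrect p hp).2).continuousAt.continuousWithinAt)
    (fun p hp => (diff_q2 h0 h1 (hrect p hp).1 (hrect p hp).2).continuousAt.continuousWithinAt)
    (fun p hp => (diff_f2 h0 h1 (hrect p (hsub hp.1)).1 (hrect p (hsub hp.1)).2).hasFDerivAt)
    (fun p hp => (diff_q2 h0 h1 (hrect p (hsub hp.1)).1 (hrect p (hsub hp.1)).2).hasFDerivAt) ?_
  · have z : ∫ t in a..c, ∫ s in (0 : ℝ)..1, (fderiv ℝ (f2 k B b x g₀ g₁) (t, s) (1, 0)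
        + fderiv ℝ (q2 k B b x g₀ g₁) (t, s) (0, 1)) = 0 := by
      rw [intervalIntegral.integral_congr (g := fun _ => (0 : ℂ)), intervalIntegral.integral_zero]
      intro t ht
      change ∫ s in (0 : ℝ)..1, _ = (0 : ℂ)
      rw [intervalIntegral.integral_congr (g := fun _ => (0 : ℂ)), intervalIntegral.integral_zero]
      intro s hs
      have := hrect (t, s) ⟨ht, hs⟩
      exact div_zero' h0 h1 this.1 this.2
    rw [z] at key
    simp only [q2_one, q2_zero] at key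
    have hi : ∀ g, Adm B b x g → IntervalIntegrable (igd k B b x g) volume a c := by
      intro g hg
      refine ContinuousOn.intervalIntegrable fun t ht => ?_
      rw [uIcc_of_le hac] at ht
      have h2 := (diff_q2 (k := k) hg hg (p := (t, 0)) (ha.trans_le ht.1) ⟨le_rfl, zero_le_one⟩)
      have h3 : ContinuousAt (fun t => q2 k B b x g g (t, 0)) t :=
        ContinuousAt.comp (f := fun t : ℝ => ((t, 0) : ℝ × ℝ)) h2.continuousAt
          (by fun_prop)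
      have h4 : (fun t => q2 k B b x g g (t, 0)) = fun t => -igd k B b x g t :=
        funext fun t => q2_zero t
      rw [h4] at h3
      have h5 : ContinuousAt (fun t => -(-igd k B b x g t)) t := h3.neg
      simp only [neg_neg] at h5
      exact h5.continuousWithinAt
    rw [intervalIntegral.integral_neg, intervalIntegral.integral_neg] at key
    rw [intervalIntegral.integral_sub (hi g₁ h1) (hi g₀ h0)]
    have e1 : V k B b x g₀ g₁ c = ∫ y in (0 : ℝ)..1, f2 k B b x g₀ g₁ (c, y) := rfl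
    have e2 : V k B b x g₀ g₁ a = ∫ y in (0 : ℝ)..1, f2 k B b x g₀ g₁ (a, y) := rfl
    rw [e1, e2]
    linear_combination -key
  · refine IntegrableOn.congr_fun (f := fun _ => (0 : ℂ)) (by simp) (fun p hp => ?_)
      (measurableSet_uIcc.prod measurableSet_uIcc)
    exact (div_zero' h0 h1 (t := p.1) (s := p.2) (hrect p hp).1 (hrect p hp).2).symm

theorem continuousAt_igd {g : ℝ → ℝ} (hg : Adm B b x g) {t : ℝ} (ht : 0 < t) :
    ContinuousAt (igd k B b x g) t := by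
  have h2 := (diff_q2 (k := k) hg hg (p := (t, 0)) ht ⟨le_rfl, zero_le_one⟩)
  have h3 : ContinuousAt (fun t => q2 k B b x g g (t, 0)) t :=
    ContinuousAt.comp (f := fun t : ℝ => ((t, 0) : ℝ × ℝ)) h2.continuousAt
      (by fun_prop)
  have h4 : (fun t => q2 k B b x g g (t, 0)) = fun t => -igd k B b x g t :=
    funext fun t => q2_zero t
  rw [h4] at h3
  have h5 : ContinuousAt (fun t => -(-igd k B b x g t)) t := h3.neg
  simp only [neg_neg] at h5
  exact h5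

/-- the derivative of the vertical integral -/
theorem hasDerivAt_V (h0 : Adm B b x g₀) (h1 : Adm B b x g₁) {t : ℝ} (ht : 0 < t) :
    HasDerivAt (V k B b x g₀ g₁) (igd k B b x g₁ t - igd k B b x g₀ t) t := by
  set F : ℝ → ℂ := fun t => igd k B b x g₁ t - igd k B b x g₀ t with hF
  have hc : ∀ t, 0 < t → ContinuousAt F t := fun t ht =>
    (continuousAt_igd h1 ht).sub (continuousAt_igd h0 ht)
  have hi : IntervalIntegrable F volume (t / 2) t := by
    refine ContinuousOn.intervalIntegrable fun u hu => ?_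
    rw [uIcc_of_le (by linarith)] at hu
    exact (hc u (by linarith [hu.1])).continuousWithinAt
  have hm : StronglyMeasurableAtFilter F (𝓝 t) volume := by
    refine ContinuousOn.stronglyMeasurableAtFilter (s := Ioi (0 : ℝ)) isOpen_Ioi
      (fun u hu => (hc u hu).continuousWithinAt) t ht
  have h2 := intervalIntegral.integral_hasDerivAt_right hi hm (hc t ht)
  have h3 : V k B b x g₀ g₁ =ᶠ[𝓝 t] fun u => V k B b x g₀ g₁ (t / 2) + ∫ v in (t / 2)..u, F v := by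
    filter_upwards [Ioi_mem_nhds (show t / 2 < t by linarith)] with u hu
    have := green (k := k) h0 h1 (a := t / 2) (c := u) (by linarith) (le_of_lt hu)
    rw [← this]; ring
  exact (h2.const_add _).congr_of_eventuallyEq h3

/-- bound of the vertical integral -/
theorem norm_V_le (hk : k ≤ 1) (hb : SR b x) (h0 : Adm B b x g₀)
    (h1 : Adm B b x g₁) : ∃ C > (0 : ℝ), ∀ t, 0 < t →
      ‖V k B b x g₀ g₁ t‖ ≤ C * Real.sqrt t ∧ ‖V k B b x g₀ g₁ t‖ ≤ C * (1 + t)⁻¹ := by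
  obtain ⟨C, hC, hCb⟩ := bound hk hb h0 h1
  obtain ⟨M, hM, -, hMb⟩ := norm_gam_le h0.1 h1.1 x
  refine ⟨C * M, by positivity, fun t ht => ?_⟩
  have hst : 0 < Real.sqrt t := Real.sqrt_pos.2 ht
  have hs3 : 0 < Real.sqrt ((1 + t) ^ 3) := Real.sqrt_pos.2 (by positivity)
  have main : ‖V k B b x g₀ g₁ t‖ ≤ C * M * (Real.sqrt t * (Real.sqrt ((1 + t) ^ 3))⁻¹) := by
    have h2 : ∀ s ∈ uIoc (0 : ℝ) 1, ‖f2 k B b x g₀ g₁ (t, s)‖
        ≤ C * M * (Real.sqrt t * (Real.sqrt ((1 + t) ^ 3))⁻¹) := by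
      intro s hs
      rw [uIoc_of_le zero_le_one] at hs
      have h3 := hCb s ⟨hs.1.le, hs.2⟩ t ht
      have h4 := hMb t ht.le
      rw [f2, norm_mul, norm_mul, norm_I, mul_one, Complex.norm_real, Real.norm_eq_abs]
      calc ‖Phi k B b (Gp x g₀ g₁ (t, s))‖ * |g₁ t - g₀ t|
          ≤ (C * (Real.sqrt t)⁻¹ * (Real.sqrt ((1 + t) ^ 3))⁻¹) * (M * t) :=
            mul_le_mul h3 h4 (abs_nonneg _) (by positivity)
        _ = C * M * (Real.sqrt t * (Real.sqrt ((1 + t) ^ 3))⁻¹) := by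
            have e : t = Real.sqrt t * Real.sqrt t := (Real.mul_self_sqrt ht.le).symm
            field_simp
            nlinarith [e]
    have h5 := intervalIntegral.norm_integral_le_of_norm_le_const h2
    simpa [V] using h5
  have hone : 1 ≤ Real.sqrt ((1 + t) ^ 3) := by
    rw [Real.one_le_sqrt]
    have : (1 : ℝ) ≤ 1 + t := by linarith
    exact one_le_pow₀ this
  have h1t : 0 < 1 + t := by linarith
  constructor
  · refine main.trans ?_
    refine mul_le_mul_of_nonneg_left ?_ (by positivity)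
    exact mul_le_of_le_one_right hst.le (inv_le_one_of_one_le₀ hone)
  · refine main.trans ?_
    refine mul_le_mul_of_nonneg_left ?_ (by positivity)
    have e : Real.sqrt ((1 + t) ^ 3) = (1 + t) * Real.sqrt (1 + t) := by
      rw [show (1 + t) ^ 3 = (1 + t) ^ 2 * (1 + t) by ring, Real.sqrt_mul (by positivity),
        Real.sqrt_sq (by linarith)]
    have h6 : Real.sqrt t ≤ Real.sqrt (1 + t) := Real.sqrt_le_sqrt (by linarith)
    have h7 : 0 < Real.sqrt (1 + t) := Real.sqrt_pos.2 h1t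
    rw [e, mul_inv, ← mul_assoc, mul_comm (Real.sqrt t), mul_assoc]
    refine mul_le_of_le_one_right (by positivity) ?_
    rw [mul_inv_le_iff₀ h7, one_mul]
    exact h6

theorem V_zero (h0 : IsPath g₀) (h1 : IsPath g₁) : V k B b x g₀ g₁ 0 = 0 := by
  have : ∀ s, f2 k B b x g₀ g₁ (0, s) = 0 := by
    intro s; simp [f2, h0.zero, h1.zero]
  simp [V, this]

/-- **the integral does not depend on the path** -/
theorem PG_eq (hk : k ≤ 1) (hb : SR b x)
    (hi : ∀ g, Adm B b x g → IntegrableOn (igd k B b x g) (Ioi 0))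
    (h0 : Adm B b x g₀) (h1 : Adm B b x g₁) : PG k B b x g₀ = PG k B b x g₁ := by
  obtain ⟨C, hC, hCb⟩ := norm_V_le (k := k) hk hb h0 h1
  have hcont : ContinuousWithinAt (V k B b x g₀ g₁) (Ici 0) 0 := by
    rw [ContinuousWithinAt, V_zero h0.1 h1.1]
    have h2 : Tendsto (fun t : ℝ => C * Real.sqrt t) (𝓝[Ici 0] 0) (𝓝 0) := by
      have h3 : ContinuousWithinAt (fun t : ℝ => C * Real.sqrt t) (Ici 0) 0 :=
        (continuous_const.mul Real.continuous_sqrt).continuousWithinAt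
      simpa [ContinuousWithinAt] using h3
    refine squeeze_zero_norm' ?_ h2
    filter_upwards [self_mem_nhdsWithin] with t ht
    rcases (mem_Ici.1 ht).eq_or_lt with h4 | h4
    · rw [← h4, V_zero h0.1 h1.1]; simp
    · exact (hCb t h4).1
  have hlim : Tendsto (V k B b x g₀ g₁) atTop (𝓝 0) := by
    have h2 : Tendsto (fun t : ℝ => C * (1 + t)⁻¹) atTop (𝓝 0) := by
      have h3 : Tendsto (fun t : ℝ => (1 + t)⁻¹) atTop (𝓝 0) :=
        tendsto_inv_atTop_zero.comp (tendsto_atTop_add_const_left _ _ tendsto_id)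
      simpa using h3.const_mul C
    refine squeeze_zero_norm' ?_ h2
    filter_upwards [eventually_gt_atTop 0] with t ht
    exact (hCb t ht).2
  have h2 := integral_Ioi_of_hasDerivAt_of_tendsto hcont
    (fun t ht => hasDerivAt_V (k := k) h0 h1 ht) ((hi g₁ h1).sub (hi g₀ h0)) hlim
  rw [V_zero h0.1 h1.1, sub_zero, integral_sub (hi g₁ h1) (hi g₀ h0)] at h2
  rw [PG, PG]
  rw [sub_eq_zero.1 h2]

/-- the integral converges -/
theorem integrable_igd (hk : k ≤ 1) (hb : SR b x) {g : ℝ → ℝ} (hg : Adm B b x g) :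
    IntegrableOn (igd k B b x g) (Ioi 0) := by
  obtain ⟨C, hC, hCb⟩ := bound (k := k) hk hb hg hg
  obtain ⟨K, hK⟩ := hg.1.bdd
  have hK0 : 0 ≤ K := (abs_nonneg _).trans (hK 0)
  have e : gs g g 0 = g := by funext t; simp [gs]
  refine Integrable.mono' ((H655.integrable_maj.integrable.const_mul (C * (1 + K))))
    (H655.aesm_igd hg) ?_
  refine (ae_restrict_iff' measurableSet_Ioi).2 (Eventually.of_forall fun t ht => ?_)
  have ht0 : 0 < t := ht
  have h2 := hCb 0 ⟨le_rfl, zero_le_one⟩ t ht0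
  rw [e] at h2
  have h3 : ‖(1 : ℂ) + deriv g t * I‖ ≤ 1 + K := by
    refine (norm_add_le _ _).trans ?_
    rw [norm_one, norm_mul, norm_I, mul_one, Complex.norm_real, Real.norm_eq_abs]
    exact add_le_add le_rfl (hK t)
  have e1 : (Real.sqrt t)⁻¹ = t ^ (-(1 / 2) : ℝ) := by
    rw [Real.sqrt_eq_rpow, ← Real.rpow_neg ht0.le]
  have e2 : (Real.sqrt ((1 + t) ^ 3))⁻¹ = (1 + t) ^ (-(3 / 2) : ℝ) := by
    rw [Real.sqrt_eq_rpow, ← Real.rpow_natCast (1 + t) 3, ← Real.rpow_mul (by linarith),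
      ← Real.rpow_neg (by linarith)]
    norm_num
  rw [igd, norm_mul]
  calc ‖gam x g t ^ k / H857.sq B b (gam x g t)‖ * ‖(1 : ℂ) + deriv g t * I‖
      ≤ (C * (Real.sqrt t)⁻¹ * (Real.sqrt ((1 + t) ^ 3))⁻¹) * (1 + K) :=
        mul_le_mul h2 h3 (norm_nonneg _) (by positivity)
    _ = C * (1 + K) * (t ^ (-(1 / 2) : ℝ) * (1 + t) ^ (-(3 / 2) : ℝ)) := by
        rw [e1, e2]; ring

/-- **GP-INV on the natural set** -/
theorem stmINVn : StmINVn := fun _ _ _ _ hk hb =>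
  ⟨fun _ hg => integrable_igd hk hb hg,
    fun _ _ h0 h1 => PG_eq hk hb (fun _ hg => integrable_igd hk hb hg) h0 h1⟩

/-- **GP-INV** -/
theorem stmINV : StmINV := fun k B b x hk hb => stmINVn k B b x hk (SR.of_inj hb x)

end

end Vale.Agent.P273.H732.GPInv2
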