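import Vale.Agent.P273.H225.NkDef
import Vale.Agent.P273.H598.Cross
import Vale.Agent.P273.H973.Pol

/-!
# P273, row ASY1: the flat neck bounds off the cuts are enough

`NeckD Φ`: the text of helper225's `NeckF` at the points `z = (X + Y) / 2` off the two downward cuts
of helper598 (`Dom d`), with `X = XS d z`.  `neckF_of : NeckD Φ → NeckF Φ`.
-/

noncomputable section

namespace Vale.Agent.P273.H732.ND

open Set Filter H681 H95 H973 H730 H225
open H598 (Dom XS sg XS_mul)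
open H908 (Sl)
open H214 (ff IsBr Ybr isBr_Ybr Ybr_self FlatFam Bs)
open scoped Topology ContDiff

/-- the conclusion of the flat neck bounds at one point -/
def Cn (Φ : FlatFam) (k : Fin 5) (c B : ℝ) (q : C6) (d X Y v : ℂ) : Prop :=
  (∀ (δ : C6) (lX lY : ℂ) (ξ : Fin 6 → ℝ), IsCl ξ →
      |Φ.η ξ (bd k q d) (xn k q X Y) v (nv k δ d X Y lX lY)| ≤
        B * ‖ξ‖ * (‖δ‖ + ‖lX‖ + ‖lY‖) ∧
      (ξ k.castSucc = ξ k.succ →
        |Φ.η ξ (bd k q d) (xn k q X Y) v (nv k δ d X Y lX lY)| ≤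
          B * ‖ξ‖ * (‖δ‖ + (‖X‖ + (yl c d)⁻¹) * ‖lX‖ + (‖Y‖ + (yl c d)⁻¹) * ‖lY‖)) ∧
      |Φ.η (alc k) (bd k q d) (xn k q X Y) v (nv k δ d X Y lX lY)| ≤
        B * (yl c d)⁻¹ * (‖δ‖ + ‖lX‖ + ‖lY‖)) ∧
    ∀ (ξ : Fin 6 → ℝ), IsCl ξ →
      |Φ.η ξ (bd k q d) (xn k q X Y) v (nv k 0 d X Y
        (((yl c d)⁻¹ * Real.log (‖X‖ / c) : ℝ) : ℂ) (((yl c d)⁻¹ * Real.log (‖Y‖ / c) : ℝ) : ℂ))| ≤
        B * ‖ξ‖ * (yl c d)⁻¹ ∧
      |Φ.η (alc k) (bd k q d) (xn k q X Y) v (nv k 0 d X Y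
        (((yl c d)⁻¹ * Real.log (‖X‖ / c) : ℝ) : ℂ) (((yl c d)⁻¹ * Real.log (‖Y‖ / c) : ℝ) : ℂ))| ≤
        B * ((yl c d)⁻¹) ^ 2

/-- **The flat neck bounds off the cuts.** -/
def NeckD (Φ : FlatFam) : Prop := ∀ k : Fin 5, ∀ q₀ ∈ H828.XD k, ∃ U ∈ 𝓝 q₀, ∃ c₀ > 0,
  ∀ c, 0 < c → c ≤ c₀ → ∃ M₀ B : ℝ, 0 < M₀ ∧ 0 < B ∧
  ∀ q d, Adm k U c M₀ q d → ∀ X Y v, InNeck k c q d X Y v →
    (X + Y) / 2 ∈ Dom d → XS d ((X + Y) / 2) = X → Cn Φ k c B q d X Y v

theorem isCl_alc (k : Fin 5) : IsCl (alc k) := by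
  have h : ∀ ξ : Fin 6 → ℝ, IsCl ξ ↔ ξ 0 - ξ 1 + ξ 2 - ξ 3 + ξ 4 - ξ 5 = 0 := by
    intro ξ
    unfold IsCl
    rw [Fin.sum_univ_six]
    norm_num [Fin.ext_iff]
    constructor <;> intro h <;> linarith
  rw [h]
  fin_cases k <;> simp [alc]

/-! ### symmetry -/

theorem xn_swap (k : Fin 5) (q : C6) (X Y : ℂ) : xn k q Y X = xn k q X Y := by
  unfold xn; rw [add_comm Y X]

theorem nv_swap (k : Fin 5) (δ : C6) (d X Y lX lY : ℂ) :
    nv k δ d Y X lY lX = nv k δ d X Y lX lY := by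
  unfold nv
  rw [add_comm lY lX, add_comm (Y * lY) (X * lX)]

theorem Cn.swap {Φ : FlatFam} {k : Fin 5} {c B : ℝ} {q : C6} {d X Y v : ℂ}
    (h : Cn Φ k c B q d Y X v) : Cn Φ k c B q d X Y v := by
  refine ⟨fun δ lX lY ξ hξ => ?_, fun ξ hξ => ?_⟩
  · have h1 := h.1 δ lY lX ξ hξ
    rw [xn_swap, nv_swap] at h1
    refine ⟨?_, fun h2 => ?_, ?_⟩
    · refine h1.1.trans (le_of_eq ?_); ring
    · refine (h1.2.1 h2).trans (le_of_eq ?_); ring
    · refine h1.2.2.trans (le_of_eq ?_); ring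
  · have h1 := h.2 ξ hξ
    rw [xn_swap, nv_swap] at h1
    exact h1

theorem inNeck_swap {k : Fin 5} {c : ℝ} {q : C6} {d X Y v : ℂ} (h : InNeck k c q d X Y v) :
    InNeck k c q d Y X v :=
  ⟨by rw [mul_comm]; exact h.hXY, h.hY, h.hX, by rw [xn_swap]; exact h.hv⟩

theorem XS_or {d X Y : ℂ} (h : X * Y = d ^ 2) :
    XS d ((X + Y) / 2) = X ∨ XS d ((X + Y) / 2) = Y := by
  have h1 := XS_mul d ((X + Y) / 2)
  have h2 : XS d ((X + Y) / 2) = (X + Y) / 2 + sg d ((X + Y) / 2) := rfl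
  set T := XS d ((X + Y) / 2)
  have h3 : (T - X) * (T - Y) = 0 := by
    have h4 : sg d ((X + Y) / 2) = T - (X + Y) / 2 := by rw [h2]; ring
    rw [h4] at h1
    linear_combination h - h1
  rcases mul_eq_zero.1 h3 with h4 | h4
  · exact Or.inl (sub_eq_zero.1 h4)
  · exact Or.inr (sub_eq_zero.1 h4)

/-! ### density -/

theorem ev_ne (a : ℝ) : ∀ᶠ t in 𝓝[≠] (0 : ℝ), t ≠ a := by
  by_cases h : a = 0
  · subst h; exact eventually_mem_nhdsWithin
  · exact (eventually_ne_nhds (Ne.symm h)).filter_mono nhdsWithin_le_nhds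

theorem freq_Dom (d w : ℂ) : ∃ᶠ w' in 𝓝 w, w' ∈ Dom d := by
  have h1 : Tendsto (fun t : ℝ => w + (t : ℂ)) (𝓝[≠] 0) (𝓝 w) := by
    have : Continuous fun t : ℝ => w + (t : ℂ) := by fun_prop
    have h2 := this.tendsto 0
    simp only [Complex.ofReal_zero, add_zero] at h2
    exact h2.mono_left nhdsWithin_le_nhds
  refine h1.frequently (Eventually.frequently ?_)
  filter_upwards [ev_ne (-(w + d).re), ev_ne (-(w - d).re)] with t ht1 ht2
  refine ⟨Or.inr fun h => ht1 ?_, Or.inr fun h => ht2 ?_⟩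
  · simp only [Complex.add_re, Complex.ofReal_re] at h ⊢
    linarith
  · simp only [Complex.add_re, Complex.sub_re, Complex.ofReal_re] at h ⊢
    linarith

theorem freq_z {d X : ℂ} (hX : X ≠ 0) (h : X ^ 2 ≠ d ^ 2) :
    ∃ᶠ X' in 𝓝 X, (X' + d ^ 2 / X') / 2 ∈ Dom d := by
  have h1 : HasStrictDerivAt (fun X' : ℂ => (X' + d ^ 2 / X') / 2)
      ((1 + d ^ 2 * (-(X ^ 2)⁻¹)) / 2) X :=
    ((hasStrictDerivAt_id X).add ((hasStrictDerivAt_inv hX).const_mul (d ^ 2))).div_const 2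
  have h2 : (1 + d ^ 2 * (-(X ^ 2)⁻¹)) / 2 ≠ 0 := by
    intro h0
    apply h
    have hX2 : X ^ 2 ≠ 0 := pow_ne_zero 2 hX
    field_simp at h0
    linear_combination h0
  have h3 := h1.map_nhds_eq h2
  have h4 := freq_Dom d ((X + d ^ 2 / X) / 2)
  rw [← h3] at h4
  exact frequently_map.1 h4

theorem freq_ann {c : ℝ} {d X : ℂ} (hc : 0 < c) (hd : ‖d‖ < c) (hX : X ≠ 0) (h1 : ‖X‖ ≤ c)
    (h2 : ‖d ^ 2 / X‖ ≤ c) : ∃ᶠ X' in 𝓝 X, ‖X'‖ < c ∧ ‖d ^ 2 / X'‖ < c := by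
  have hcont : ∀ X₁ : ℂ, X₁ ≠ 0 → ContinuousAt (fun X' : ℂ => ‖d ^ 2 / X'‖) X₁ := fun X₁ h =>
    (continuousAt_const.div continuousAt_id h).norm
  have hT : Tendsto (fun s : ℝ => (s : ℂ) * X) (𝓝 1) (𝓝 X) := by
    have : Continuous fun s : ℝ => (s : ℂ) * X := by fun_prop
    simpa using this.tendsto 1
  have hn : ∀ s : ℝ, 0 < s → ‖(s : ℂ) * X‖ = s * ‖X‖ ∧ ‖d ^ 2 / ((s : ℂ) * X)‖ = ‖d ^ 2 / X‖ / s := by
    intro s hs
    constructor
    · rw [norm_mul, Complex.norm_real, Real.norm_of_nonneg hs.le]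
    · rw [norm_div, norm_mul, Complex.norm_real, Real.norm_of_nonneg hs.le, norm_div, div_div,
        mul_comm s]
  have hX0 := norm_pos_iff.2 hX
  rcases h1.lt_or_eq with h1 | h1
  · rcases h2.lt_or_eq with h2 | h2
    · refine Eventually.frequently ?_
      exact (continuousAt_id.norm.eventually (gt_mem_nhds h1)).and
        ((hcont X hX).eventually (gt_mem_nhds h2))
    · -- s > 1
      refine (hT.mono_left (nhdsWithin_le_nhds (s := Ioi (1 : ℝ)))).frequently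
        (Eventually.frequently ?_)
      have h3 : ∀ᶠ s : ℝ in 𝓝[>] 1, ‖(s : ℂ) * X‖ < c :=
        ((hT.norm).eventually (gt_mem_nhds h1)).filter_mono nhdsWithin_le_nhds
      filter_upwards [h3, eventually_mem_nhdsWithin] with s hs hs1
      have hs1' : (1 : ℝ) < s := hs1
      refine ⟨hs, ?_⟩
      rw [(hn s (by linarith)).2, h2, div_lt_iff₀ (by linarith)]
      nlinarith
  · -- s < 1
    have h4 : ‖d ^ 2 / X‖ < c := by
      rw [norm_div, h1, norm_pow, div_lt_iff₀ hc]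
      nlinarith [norm_nonneg d]
    refine (hT.mono_left (nhdsWithin_le_nhds (s := Iio (1 : ℝ)))).frequently
      (Eventually.frequently ?_)
    have h3 : ∀ᶠ s : ℝ in 𝓝[<] 1, ‖d ^ 2 / ((s : ℂ) * X)‖ < c := by
      have h5 := ((hcont X hX).tendsto.comp hT).eventually (gt_mem_nhds h4)
      exact h5.filter_mono nhdsWithin_le_nhds
    have h6 : ∀ᶠ s : ℝ in 𝓝[<] 1, 0 < s :=
      (lt_mem_nhds (zero_lt_one (α := ℝ))).filter_mono nhdsWithin_le_nhds
    filter_upwards [h3, h6, eventually_mem_nhdsWithin] with s hs hs0 hs1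
    have hs1' : s < 1 := hs1
    refine ⟨?_, hs⟩
    rw [(hn s hs0).1, h1]
    nlinarith

/-- **the points off the cuts are dense in the neck** -/
theorem freq_all {c : ℝ} {d X : ℂ} (hc : 0 < c) (hd : ‖d‖ < c) (hX : X ≠ 0) (h : X ^ 2 ≠ d ^ 2)
    (h1 : ‖X‖ ≤ c) (h2 : ‖d ^ 2 / X‖ ≤ c) :
    ∃ᶠ X' in 𝓝 X, (X' + d ^ 2 / X') / 2 ∈ Dom d ∧ ‖X'‖ ≤ c ∧ ‖d ^ 2 / X'‖ ≤ c := by
  rw [← frequently_frequently_nhds]
  have h3 : ∀ᶠ X₁ in 𝓝 X, X₁ ≠ 0 ∧ X₁ ^ 2 ≠ d ^ 2 :=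
    (eventually_ne_nhds hX).and ((continuousAt_id.pow 2).eventually_ne h)
  refine ((freq_ann hc hd hX h1 h2).and_eventually h3).mono fun X₁ h4 => ?_
  obtain ⟨⟨h5, h6⟩, h7, h8⟩ := h4
  have h9 : ∀ᶠ X' in 𝓝 X₁, ‖X'‖ < c ∧ ‖d ^ 2 / X'‖ < c :=
    (continuousAt_id.norm.eventually (gt_mem_nhds h5)).and
      (((continuousAt_const.div continuousAt_id h7).norm).eventually (gt_mem_nhds h6))
  exact ((freq_z h7 h8).and_eventually h9).mono fun X' h => ⟨h.1, h.2.1.le, h.2.2.le⟩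

/-! ### the limit -/

theorem continuous_nv {k : Fin 5} {δ : C6} {d X : ℂ} (hX : X ≠ 0) {lX lY : ℂ → ℂ}
    (h1 : ContinuousAt lX X) (h2 : ContinuousAt lY X) :
    ContinuousAt (fun X' => nv k δ d X' (d ^ 2 / X') (lX X') (lY X')) X := by
  have h3 : ContinuousAt (fun X' : ℂ => d ^ 2 / X') X := continuousAt_const.div continuousAt_id hX
  refine ContinuousAt.prodMk ?_ ?_
  · unfold bw H828.pr
    rw [continuousAt_pi]
    intro j
    by_cases hj : j = k.castSucc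
    · simp only [hj, if_true]
      exact continuousAt_const.sub (continuousAt_const.mul ((h1.add h2).div_const 2))
    · by_cases hj' : j = k.succ
      · have h0 : k.succ ≠ k.castSucc := fun h => hj (hj'.trans h)
        simp only [hj', h0, if_true, if_false]
        exact continuousAt_const.add (continuousAt_const.mul ((h1.add h2).div_const 2))
      · simp only [hj, hj', if_false]
        exact continuousAt_const
  · exact continuousAt_const.add (((continuousAt_id.mul h1).add (h3.mul h2)).div_const 2)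

theorem continuous_xn {k : Fin 5} {q : C6} {d X : ℂ} (hX : X ≠ 0) :
    ContinuousAt (fun X' => xn k q X' (d ^ 2 / X')) X := by
  have h3 : ContinuousAt (fun X' : ℂ => d ^ 2 / X') X := continuousAt_const.div continuousAt_id hX
  exact continuousAt_const.add ((continuousAt_id.add h3).div_const 2)

section lim

variable {Φ : FlatFam} {k : Fin 5} {q : C6} {d X v : ℂ}

/-- the sheet near the point -/
def vv (k : Fin 5) (q : C6) (d X v X' : ℂ) : ℂ :=
  Ybr (bd k q d, xn k q X (d ^ 2 / X)) v (bd k q d, xn k q X' (d ^ 2 / X'))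

theorem on_ff {b : C6} {x y : ℂ} (h : On1 false (b, x) y) : y ^ 2 = ff (b, x) ∧ ff (b, x) ≠ 0 := by
  have h1 := (on1_false (b := b) (p := (x, y))).1 h
  have h2 : y ^ 2 = ff (b, x) := h1.1
  exact ⟨h2, h2 ▸ pow_ne_zero 2 h1.2⟩

theorem ff_on {b : C6} {x y : ℂ} (h : y ^ 2 = ff (b, x)) (h0 : y ≠ 0) : On1 false (b, x) y :=
  (on1_false (b := b) (p := (x, y))).2 ⟨h, h0⟩

theorem continuous_eta (hb : bd k q d ∈ XX) (hX : X ≠ 0)
    (hv : On1 false (bd k q d, xn k q X (d ^ 2 / X)) v) {ξ : Fin 6 → ℝ} (hξ : IsCl ξ) {δ : C6}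
    {lX lY : ℂ → ℂ} (h1 : ContinuousAt lX X) (h2 : ContinuousAt lY X) :
    ContinuousAt (fun X' => |Φ.η ξ (bd k q d) (xn k q X' (d ^ 2 / X')) (vv k q d X v X')
      (nv k δ d X' (d ^ 2 / X') (lX X') (lY X'))|) X := by
  obtain ⟨h3, h4⟩ := on_ff hv
  have h5 := (Φ.flat ξ hξ).smooth (bd k q d, xn k q X (d ^ 2 / X)) hb _ (isBr_Ybr h4 h3)
  have h6 : ContinuousAt (fun X' => (bd k q d, xn k q X' (d ^ 2 / X'))) X :=
    continuousAt_const.prodMk (continuous_xn hX)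
  have h7 : ContinuousAt (fun X' => Φ.η ξ (bd k q d) (xn k q X' (d ^ 2 / X')) (vv k q d X v X')) X :=
    ContinuousAt.comp (f := fun X' => (bd k q d, xn k q X' (d ^ 2 / X'))) h5.continuousAt h6
  exact (h7.clm_apply (continuous_nv hX h1 h2)).abs

theorem vv_self (hv : On1 false (bd k q d, xn k q X (d ^ 2 / X)) v) : vv k q d X v X = v :=
  Ybr_self (on_ff hv).2 v

theorem vv_on (hX : X ≠ 0) (hv : On1 false (bd k q d, xn k q X (d ^ 2 / X)) v) :
    ∀ᶠ X' in 𝓝 X, On1 false (bd k q d, xn k q X' (d ^ 2 / X')) (vv k q d X v X') := by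
  obtain ⟨h3, h4⟩ := on_ff hv
  have hbr := isBr_Ybr h4 h3
  have h6 : ContinuousAt (fun X' => (bd k q d, xn k q X' (d ^ 2 / X'))) X :=
    continuousAt_const.prodMk (continuous_xn hX)
  filter_upwards [h6.eventually hbr.sq, h6.eventually hbr.eventually] with X' h7 h8
  exact ff_on h7 h8.ne_zero

theorem Cn.lim {c B : ℝ} (hc : 0 < c) (hd : d ≠ 0) (hb : bd k q d ∈ XX) (hX : X ≠ 0)
    (hv : On1 false (bd k q d, xn k q X (d ^ 2 / X)) v)
    (h : ∃ᶠ X' in 𝓝 X, Cn Φ k c B q d X' (d ^ 2 / X') (vv k q d X v X')) :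
    Cn Φ k c B q d X (d ^ 2 / X) v := by
  have hvs := vv_self hv
  have hY : ContinuousAt (fun X' : ℂ => d ^ 2 / X') X := continuousAt_const.div continuousAt_id hX
  have hY0 : d ^ 2 / X ≠ 0 := div_ne_zero (pow_ne_zero 2 hd) hX
  have hlog : ∀ f : ℂ → ℂ, ContinuousAt f X → f X ≠ 0 →
      ContinuousAt (fun X' => (((yl c d)⁻¹ * Real.log (‖f X'‖ / c) : ℝ) : ℂ)) X := by
    intro f hf hf0
    refine Complex.continuous_ofReal.continuousAt.comp ?_
    refine continuousAt_const.mul (ContinuousAt.log (hf.norm.div_const c) ?_)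
    exact (div_pos (norm_pos_iff.2 hf0) hc).ne'
  have hlX := hlog (fun X' => X') continuousAt_id hX
  have hlY := hlog (fun X' => d ^ 2 / X') hY hY0
  refine ⟨fun δ lX lY ξ hξ => ?_, fun ξ hξ => ?_⟩
  · have h0 := (continuous_eta (Φ := Φ) (δ := δ) hb hX hv hξ (lX := fun _ => lX)
      (lY := fun _ => lY) continuousAt_const continuousAt_const).tendsto
    have h0' := (continuous_eta (Φ := Φ) (δ := δ) hb hX hv (isCl_alc k) (lX := fun _ => lX)
      (lY := fun _ => lY) continuousAt_const continuousAt_const).tendsto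
    rw [hvs] at h0 h0'
    refine ⟨?_, fun h1 => ?_, ?_⟩
    · exact le_of_tendsto_of_tendsto_of_frequently h0 tendsto_const_nhds
        (h.mono fun X' hX' => (hX'.1 δ lX lY ξ hξ).1)
    · have h2 : Tendsto (fun X' : ℂ => B * ‖ξ‖ * (‖δ‖ + (‖X'‖ + (yl c d)⁻¹) * ‖lX‖ +
          (‖d ^ 2 / X'‖ + (yl c d)⁻¹) * ‖lY‖)) (𝓝 X) (𝓝 (B * ‖ξ‖ * (‖δ‖ +
          (‖X‖ + (yl c d)⁻¹) * ‖lX‖ + (‖d ^ 2 / X‖ + (yl c d)⁻¹) * ‖lY‖))) := by
        refine Tendsto.const_mul _ ((Tendsto.const_add _ ?_).add ?_)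
        · exact (continuousAt_id.norm.tendsto.add_const _).mul_const _
        · exact (hY.norm.tendsto.add_const _).mul_const _
      exact le_of_tendsto_of_tendsto_of_frequently h0 h2
        (h.mono fun X' hX' => (hX'.1 δ lX lY ξ hξ).2.1 h1)
    · exact le_of_tendsto_of_tendsto_of_frequently h0' tendsto_const_nhds
        (h.mono fun X' hX' => (hX'.1 δ lX lY ξ hξ).2.2)
  · have h0 := (continuous_eta (Φ := Φ) (δ := 0) hb hX hv hξ hlX hlY).tendsto
    have h0' := (continuous_eta (Φ := Φ) (δ := 0) hb hX hv (isCl_alc k) hlX hlY).tendsto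
    rw [hvs] at h0 h0'
    exact ⟨le_of_tendsto_of_tendsto_of_frequently h0 tendsto_const_nhds
        (h.mono fun X' hX' => (hX'.2 ξ hξ).1),
      le_of_tendsto_of_tendsto_of_frequently h0' tendsto_const_nhds
        (h.mono fun X' hX' => (hX'.2 ξ hξ).2)⟩

end lim

theorem norm_d_lt {c : ℝ} {d : ℂ} (hc : 0 < c) (hd : d ≠ 0) (h : 0 < yl c d) : ‖d‖ < c := by
  have h0 : 0 < ‖d‖ := norm_pos_iff.2 hd
  unfold yl at h
  have h1 : 0 < Real.log (c / ‖d‖) := by linarith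
  have h2 : 1 < c / ‖d‖ := by
    by_contra h3
    push Not at h3
    exact absurd h1 (not_lt.2 (Real.log_nonpos (by positivity) h3))
  rwa [one_lt_div h0] at h2

/-- **The flat neck bounds off the cuts give the flat neck bounds.** -/
theorem neckF_of {Φ : FlatFam} (h : NeckD Φ) : NeckF Φ := by
  intro k q₀ hq₀
  obtain ⟨U, hU, c₀, hc₀, h⟩ := h k q₀ hq₀
  refine ⟨U, hU, c₀, hc₀, fun c hc hcc => ?_⟩
  obtain ⟨M₀, B, hM, hB, h⟩ := h c hc hcc
  refine ⟨M₀, B, hM, hB, fun q d hA X Y v hin => ?_⟩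
  have hd : ‖d‖ < c := norm_d_lt hc hA.d0 (hM.trans_le hA.len)
  have hX0 : X ≠ 0 := by
    rintro rfl
    have := hin.hXY
    rw [zero_mul] at this
    exact pow_ne_zero 2 hA.d0 this.symm
  have hY : Y = d ^ 2 / X := by rw [eq_div_iff hX0, mul_comm]; exact hin.hXY
  subst hY
  have hne : X ^ 2 ≠ d ^ 2 := by
    intro h1
    have h2 := (on_ff hin.hv).2
    rw [H214.ff_ne_zero_iff] at h2
    have h3 : (X - d) * (X + d) = 0 := by linear_combination h1
    rcases mul_eq_zero.1 h3 with h4 | h4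
    · have h5 : X = d := sub_eq_zero.1 h4
      apply h2 k.succ
      have h6 : k.succ ≠ k.castSucc := by
        intro h
        have := congrArg Fin.val h
        simp at this
      simp only [xn, bd, H828.pr, h6, if_true, if_false, h5]
      have := hA.d0
      field_simp
      ring
    · have h5 : X = -d := eq_neg_of_add_eq_zero_left h4
      apply h2 k.castSucc
      simp only [xn, bd, H828.pr, if_true, h5]
      have := hA.d0
      field_simp
      ring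
  show Cn Φ k c B q d X (d ^ 2 / X) v
  refine Cn.lim hc hA.d0 hA.mem hX0 hin.hv ?_
  refine ((freq_all hc hd hX0 hne hin.hX hin.hY).and_eventually
    ((eventually_ne_nhds hX0).and (vv_on hX0 hin.hv))).mono fun X' h1 => ?_
  obtain ⟨⟨h2, h3, h4⟩, h5, h6⟩ := h1
  have hXY : X' * (d ^ 2 / X') = d ^ 2 := by field_simp
  have hin' : InNeck k c q d X' (d ^ 2 / X') (vv k q d X v X') := ⟨hXY, h3, h4, h6⟩
  rcases XS_or hXY with h7 | h7
  · exact h q d hA _ _ _ hin' h2 h7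
  · refine Cn.swap (h q d hA _ _ _ (inNeck_swap hin') ?_ ?_)
    · rw [add_comm]; exact h2
    · rw [add_comm]; exact h7

end Vale.Agent.P273.H732.ND

end
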