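import Vale.Agent.P273.H732.Chart

/-!
# P273, LIM: the pulled back form in a region chart, the Euler vector of a neck

* `Reg.pb F p`: the pull-back of the form `F` by the chart, its continuity and exterior derivative;
* `Reg.eul p k`: the radial vector of the neck `k` (it dilates all the gaps of the neck);
* `Reg.prod_wt_le`: the bound of a product of weights by the touched gaps.
-/

set_option linter.unusedSectionVars false
set_option linter.unusedSimpArgs false

noncomputable section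

open scoped Topology ContDiff
open Filter

namespace Vale.Agent.P273.H732

namespace Reg

variable {K G : Type} {C : Type} (R : Reg K G)
variable [DecidableEq K] [DecidableEq G] [Fintype G] [Fintype K] [Fintype C]

/-! ### the pull-back -/

/-- the pull-back of a form by the chart -/
def pb {n : ℕ} (F : R.Tg C → R.Tg C [⋀^Fin n]→L[ℝ] ℝ) (p : R.Co C) : R.Co C [⋀^Fin n]→L[ℝ] ℝ :=
  (F (R.psi p)).compContinuousLinearMap (R.dpsi p)

theorem pb_apply {n : ℕ} (F : R.Tg C → R.Tg C [⋀^Fin n]→L[ℝ] ℝ) (p : R.Co C)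
    (v : Fin n → R.Co C) : R.pb F p v = F (R.psi p) (fun i => R.dpsi p (v i)) := rfl

theorem fderiv_psi (p : R.Co C) : fderiv ℝ (R.psi (C := C)) p = R.dpsi p :=
  (R.hasFDerivAt_psi p).fderiv

theorem continuous_dpsi : Continuous (R.dpsi (C := C)) := by
  have h : (R.dpsi (C := C)) = fderiv ℝ (R.psi (C := C)) := funext fun p => (R.fderiv_psi p).symm
  rw [h]
  exact R.contDiff_psi.continuous_fderiv (by simp)

/-- the exterior derivative of the pull-back -/
theorem extDeriv_pb {n : ℕ} {F : R.Tg C → R.Tg C [⋀^Fin n]→L[ℝ] ℝ} {p : R.Co C}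
    (hF : DifferentiableAt ℝ F (R.psi p)) :
    extDeriv (R.pb F) p = (extDeriv F (R.psi p)).compContinuousLinearMap (R.dpsi p) := by
  have h := extDeriv_pullback (𝕜 := ℝ) (x := p) hF (R.contDiff_psi.contDiffAt (x := p))
    (by simp [minSmoothness])
  have e : (fun x => (F (R.psi x)).compContinuousLinearMap (fderiv ℝ (R.psi (C := C)) x))
      = R.pb F := by
    funext x; rw [R.fderiv_psi]; rfl
  rw [e, R.fderiv_psi] at h
  exact h

theorem extDeriv_pb_zero {n : ℕ} {F : R.Tg C → R.Tg C [⋀^Fin n]→L[ℝ] ℝ} {p : R.Co C}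
    (hF : DifferentiableAt ℝ F (R.psi p)) (h0 : extDeriv F (R.psi p) = 0) :
    extDeriv (R.pb F) p = 0 := by
  rw [R.extDeriv_pb hF, h0]
  ext v
  simp

/-- continuity of the components of the pull-back -/
theorem continuousOn_pb_apply {n : ℕ} {F : R.Tg C → R.Tg C [⋀^Fin n]→L[ℝ] ℝ} {S : Set (R.Tg C)}
    (hF : ContinuousOn F S) (v : Fin n → R.Co C) :
    ContinuousOn (fun p => R.pb F p v) (R.psi ⁻¹' S) := by
  intro p hp
  have h1 : Tendsto (fun p => F (R.psi p)) (𝓝[R.psi ⁻¹' S] p) (𝓝 (F (R.psi p))) :=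
    (hF (R.psi p) hp).tendsto.comp (tendsto_nhdsWithin_iff.2
      ⟨R.continuous_psi.continuousAt.continuousWithinAt.tendsto, eventually_mem_nhdsWithin⟩)
  have h2 : ∀ i, Continuous (fun p => R.dpsi p (v i)) := fun i =>
    R.continuous_dpsi.clm_apply continuous_const
  have h3 : Tendsto (fun p => fun i => R.dpsi p (v i)) (𝓝[R.psi ⁻¹' S] p)
      (𝓝 (fun i => R.dpsi p (v i))) :=
    tendsto_pi_nhds.2 fun i => (h2 i).continuousAt.continuousWithinAt.tendsto
  have h4 := tendsto_eval h1 h3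
  exact h4

/-! ### the Euler vector -/

/-- the radial vector of the neck `k` -/
def eul (p : R.Co C) (k : K) : R.Co C :=
  (fun f => if R.nk f.1 = k then p.1 f / p.2.2.1 k else 0, 0, Pi.single k 1, 0, 0)

theorem ul_eul (p : R.Co C) {k : K} (hy : p.2.2.1 k ≠ 0) (l : K) :
    R.ul (R.eul p k) l = if l = k then R.ul p k / p.2.2.1 k else 0 := by
  by_cases h : l = k
  · subst h
    simp only [ul, eul, Pi.single_eq_same, if_true]
    rw [sub_div, div_self hy, Finset.sum_div]
    congr 1
    refine Finset.sum_congr rfl fun f _ => ?_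
    split_ifs <;> simp
  · simp only [ul, eul, Pi.single_eq_of_ne h, if_neg h, zero_sub, neg_eq_zero]
    refine Finset.sum_eq_zero fun f _ => ?_
    by_cases h1 : R.nk f.1 = l
    · have h2 : R.nk f.1 ≠ k := fun h3 => h (h1 ▸ h3)
      simp [h1, h]
    · simp [h1]

theorem ug_eul (p : R.Co C) {k : K} (hy : p.2.2.1 k ≠ 0) (g : G) :
    R.ug (R.eul p k) g = if R.nk g = k then R.ug p g / p.2.2.1 k else 0 := by
  by_cases h : g ≠ R.last (R.nk g)
  · simp only [ug, dif_pos h, eul]
  · simp only [ug, dif_neg h]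
    rw [R.ul_eul p hy]
    by_cases h1 : R.nk g = k
    · simp [h1]
    · simp [h1]

theorem fg_eul (p : R.Co C) (k : K) (g : G) : R.fg (R.eul p k) g = 0 := by
  unfold fg; split_ifs <;> simp [eul, al]

theorem Z_eul (p : R.Co C) {k : K} (hy : p.2.2.1 k ≠ 0) (g : G) :
    R.Z (R.eul p k) g = -((if R.nk g = k then R.ug p g / p.2.2.1 k else 0 : ℝ) : ℂ) := by
  simp only [Z, R.ug_eul p hy, R.fg_eul]
  simp

theorem ug_nonneg {p : R.Co C} (hp : R.Inr p) (hl : ∀ k, 0 ≤ R.ul p k) (g : G) : 0 ≤ R.ug p g := by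
  unfold ug; split_ifs
  · exact hp.1 _
  · exact hl _

/-- the derivative of the chart in the radial direction of the neck `k` -/
theorem norm_dpsi_eul_le {p : R.Co C} (hp : R.Inr p) {k : K} (hy : 0 < p.2.2.1 k)
    (hl : ∀ k, 0 ≤ R.ul p k) :
    ‖R.dpsi p (R.eul p k)‖ ≤ (p.2.2.1 k)⁻¹ *
      ∑ g : G, if R.nk g = k then R.ug p g * Real.exp (-R.ug p g) else 0 := by
  have h0 : ∀ g : G, 0 ≤ (if R.nk g = k then R.ug p g * Real.exp (-R.ug p g) else 0) := by
    intro g; split_ifs
    · exact mul_nonneg (R.ug_nonneg hp hl g) (Real.exp_pos _).le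
    · exact le_rfl
  have hB : 0 ≤ (p.2.2.1 k)⁻¹ *
      ∑ g : G, (if R.nk g = k then R.ug p g * Real.exp (-R.ug p g) else 0) :=
    mul_nonneg (inv_nonneg.2 hy.le) (Finset.sum_nonneg fun g _ => h0 g)
  rw [dpsi_apply, Prod.norm_mk]
  refine max_le ((pi_norm_le_iff_of_nonneg hB).2 fun g => ?_) ?_
  · rw [norm_mul, norm_tau, R.Z_eul p hy.ne']
    have e : Real.exp (-R.ug p g) * ‖-((if R.nk g = k then R.ug p g / p.2.2.1 k else 0 : ℝ) : ℂ)‖
        = (p.2.2.1 k)⁻¹ * (if R.nk g = k then R.ug p g * Real.exp (-R.ug p g) else 0) := by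
      rw [norm_neg, Complex.norm_real, Real.norm_eq_abs]
      split_ifs with h
      · rw [abs_of_nonneg (div_nonneg (R.ug_nonneg hp hl g) hy.le)]
        ring
      · simp
    rw [e]
    exact mul_le_mul_of_nonneg_left
      (Finset.single_le_sum (fun g _ => h0 g) (Finset.mem_univ g)) (inv_nonneg.2 hy.le)
  · simpa [eul] using hB

theorem mul_exp_neg_le_one {x : ℝ} : x * Real.exp (-x) ≤ 1 := by
  have h := Real.add_one_le_exp x
  have h1 : x ≤ Real.exp x := by linarith
  calc x * Real.exp (-x) ≤ Real.exp x * Real.exp (-x) :=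
        mul_le_mul_of_nonneg_right h1 (Real.exp_pos _).le
    _ = 1 := by rw [← Real.exp_add]; simp

/-- crude form: the radial direction costs `(number of gaps) / y` -/
theorem norm_dpsi_eul_le' {p : R.Co C} (hp : R.Inr p) {k : K} (hy : 0 < p.2.2.1 k)
    (hl : ∀ k, 0 ≤ R.ul p k) :
    ‖R.dpsi p (R.eul p k)‖ ≤ (Fintype.card G : ℝ) * (p.2.2.1 k)⁻¹ := by
  refine (R.norm_dpsi_eul_le hp hy hl).trans ?_
  rw [mul_comm]
  refine mul_le_mul_of_nonneg_right ?_ (inv_nonneg.2 hy.le)
  calc (∑ g : G, if R.nk g = k then R.ug p g * Real.exp (-R.ug p g) else 0)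
      ≤ ∑ _g : G, (1 : ℝ) := by
        refine Finset.sum_le_sum fun g _ => ?_
        split_ifs
        · exact mul_exp_neg_le_one
        · exact zero_le_one
    _ = _ := by simp

/-- the radial vector dies in the limit -/
theorem tendsto_dpsi_eul {ι : Type} {l : Filter ι} {P : ι → R.Co C} {k : K}
    (h1 : ∀ᶠ n in l, R.Inr (P n)) (h2 : ∀ᶠ n in l, ∀ k, 0 ≤ R.ul (P n) k)
    (h3 : Tendsto (fun n => (P n).2.2.1 k) l atTop) :
    Tendsto (fun n => R.dpsi (P n) (R.eul (P n) k)) l (𝓝 0) := by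
  have h4 : Tendsto (fun n => (Fintype.card G : ℝ) * ((P n).2.2.1 k)⁻¹) l (𝓝 0) := by
    simpa using (tendsto_inv_atTop_zero.comp h3).const_mul (Fintype.card G : ℝ)
  refine squeeze_zero_norm' ?_ h4
  filter_upwards [h1, h2, h3.eventually_gt_atTop 0] with n a b c
  exact R.norm_dpsi_eul_le' a c b

/-- the Euler vector is the coordinate vector `y k` plus a combination of the vectors of the free
gaps of the neck -/
theorem eul_eq [DecidableEq C] (p : R.Co C) (k : K) :
    R.eul p k = R.vec (.y k) +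
      ∑ f : R.Fr, (if R.nk f.1 = k then p.1 f / p.2.2.1 k else 0) • R.vec (C := C) (.u f) := by
  have h1 : ∀ f : R.Fr, (if R.nk f.1 = k then p.1 f / p.2.2.1 k else 0) • R.vec (C := C) (.u f)
      = ((Pi.single f (if R.nk f.1 = k then p.1 f / p.2.2.1 k else 0), 0, 0, 0, 0) : R.Co C) := by
    intro f
    simp only [vec, Prod.smul_mk, smul_zero, ← Pi.single_smul, smul_eq_mul, mul_one]
  rw [Finset.sum_congr rfl fun f _ => h1 f]
  refine Prod.ext ?_ ?_
  · funext f'
    simp only [eul, vec, Prod.fst_add, Prod.fst_sum, Pi.add_apply, Pi.zero_apply, zero_add,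
      Finset.sum_apply]
    rw [Finset.sum_eq_single f']
    · simp
    · intro b _ hb
      simp [Pi.single_eq_of_ne hb.symm]
    · simp
  · simp only [eul, vec, Prod.snd_add, Prod.snd_sum]
    simp

/-- the value of an alternating map on a frame does not change if a multiple of other members of
the frame is added to a member -/
theorem map_update_add_sum {ι V W J : Type} [Fintype ι] [DecidableEq ι] [AddCommGroup V]
    [Module ℝ V] [AddCommGroup W] [Module ℝ W] [Fintype J] (A : V [⋀^ι]→ₗ[ℝ] W) (v : ι → V)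
    (i : ι) (c : J → ℝ) (w : J → V) (hw : ∀ j, c j = 0 ∨ ∃ i', i' ≠ i ∧ v i' = w j) :
    A (Function.update v i (v i + ∑ j, c j • w j)) = A v := by
  rw [A.map_update_add, Function.update_eq_self, A.map_update_sum]
  rw [Finset.sum_eq_zero, add_zero]
  intro j _
  rcases hw j with h | ⟨i', h1, h2⟩
  · rw [h, zero_smul]
    exact A.map_coord_zero i (by simp)
  · rw [A.map_update_smul]
    rw [A.map_eq_zero_of_eq _ (i := i') (j := i) (by simp [h1, h2]) h1, smul_zero]

/-- the radial coordinate vector may be replaced by the Euler vector in a frame containing the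
vectors of the free gaps of the neck -/
theorem map_eul {ι W : Type} [Fintype ι] [DecidableEq ι] [DecidableEq C] [AddCommGroup W]
    [Module ℝ W] (A : (R.Co C) [⋀^ι]→ₗ[ℝ] W) (p : R.Co C) (k : K) (v : ι → R.Co C) (i : ι)
    (hi : v i = R.vec (.y k)) (hv : ∀ f : R.Fr, R.nk f.1 = k → ∃ i', i' ≠ i ∧ v i' = R.vec (.u f)) :
    A (Function.update v i (R.eul p k)) = A v := by
  rw [eul_eq, ← hi]
  refine map_update_add_sum A v i _ _ fun f => ?_
  by_cases h : R.nk f.1 = k
  · obtain ⟨i', h1, h2⟩ := hv f h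
    exact Or.inr ⟨i', h1, h2⟩
  · exact Or.inl (if_neg h)

/-! ### products of weights -/

open Classical in
/-- the free gaps touched by a family of directions -/
def touched {n : ℕ} (w : Fin n → R.Dir C) : Finset R.Fr :=
  Finset.univ.filter fun f => ∃ i, w i = .u f ∨ w i = .ph f

/-- a base direction is touched -/
def TB {n : ℕ} (w : Fin n → R.Dir C) : Prop := ∃ i k, w i = .y k ∨ w i = .al k

open Classical in
/-- **a product of weights is bounded by the touched gaps** -/
theorem prod_wt_le [DecidableEq C] {n : ℕ} {p : R.Co C} (hp : R.Inr p) (hl : ∀ k, 0 ≤ R.ul p k)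
    {δ : ℝ} (hδ : ∀ k, Real.exp (-R.ul p k) ≤ δ) (w : Fin n → R.Dir C) :
    ∏ i, R.wt p (w i) ≤ (∏ f ∈ R.touched w, Real.exp (-p.1 f)) * (if R.TB w then δ else 1) := by
  have hw0 : ∀ i, 0 ≤ R.wt p (w i) := fun i => R.wt_nonneg p _
  have h1 : ∀ f : R.Fr, f ∈ R.touched w → ∃ i, w i = .u f ∨ w i = .ph f := by
    intro f hf; simpa [touched] using hf
  have key : ∀ (I J : Finset (Fin n)) (a b : ℝ), Disjoint I J → ∏ i ∈ I, R.wt p (w i) ≤ a →
      ∏ i ∈ J, R.wt p (w i) ≤ b → ∏ i, R.wt p (w i) ≤ a * b := by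
    intro I J a b hd ha hb
    have h2 : ∏ i, R.wt p (w i) ≤ ∏ i ∈ I ∪ J, R.wt p (w i) := by
      rw [← Finset.prod_mul_prod_compl (I ∪ J)]
      exact mul_le_of_le_one_right (Finset.prod_nonneg fun i _ => hw0 i)
        (Finset.prod_le_one (fun i _ => hw0 i) fun i _ => R.wt_le_one hp hl _)
    rw [Finset.prod_union hd] at h2
    exact h2.trans (mul_le_mul ha hb (Finset.prod_nonneg fun i _ => hw0 i)
      ((Finset.prod_nonneg fun i _ => hw0 i).trans ha))
  choose ix hix using h1
  have hinj : ∀ f ∈ (R.touched w).attach, ∀ f' ∈ (R.touched w).attach,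
      ix f.1 f.2 = ix f'.1 f'.2 → f = f' := by
    intro f _ f' _ e
    have a := hix f.1 f.2
    have b := hix f'.1 f'.2
    rw [e] at a
    apply Subtype.ext
    rcases a with a | a <;> rcases b with b | b <;> rw [a] at b <;> simp at b <;> exact congrArg Subtype.val b
  have hI : ∏ i ∈ (R.touched w).attach.image (fun f => ix f.1 f.2), R.wt p (w i)
      ≤ ∏ f ∈ R.touched w, Real.exp (-p.1 f) := by
    rw [Finset.prod_image (fun f hf f' hf' e => hinj f hf f' hf' e), ← Finset.prod_attach (R.touched w)]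
    refine le_of_eq (Finset.prod_congr rfl fun f _ => ?_)
    rcases hix f.1 f.2 with a | a <;> rw [a] <;> rfl
  by_cases hT : R.TB w
  · rw [if_pos hT]
    obtain ⟨i0, k, h0⟩ := hT
    refine key _ {i0} _ _ ?_ hI ?_
    · rw [Finset.disjoint_singleton_right, Finset.mem_image]
      rintro ⟨f, _, e⟩
      have a := hix f.1 f.2
      rw [e] at a
      rcases a with a | a <;> rcases h0 with b | b <;> rw [a] at b <;> simp at b
    · rw [Finset.prod_singleton]
      rcases h0 with b | b <;> rw [b] <;> exact hδ k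
  · rw [if_neg hT]
    exact key _ ∅ _ _ (Finset.disjoint_empty_right _) hI (by simp)

open Classical in
/-- **F-side bound by the touched gaps** -/
theorem F_bound_touched [DecidableEq C] {n : ℕ} {p : R.Co C} (hp : R.Inr p)
    (hl : ∀ k, 0 ≤ R.ul p k) {δ : ℝ} (hδ : ∀ k, Real.exp (-R.ul p k) ≤ δ)
    (F : R.Tg C [⋀^Fin n]→L[ℝ] ℝ) {c : ℝ} (hF : ‖F‖ ≤ c) (w : Fin n → R.Dir C) :
    |F (fun i => R.dpsi p (R.vec (w i)))|
      ≤ c * ((∏ f ∈ R.touched w, Real.exp (-p.1 f)) * (if R.TB w then δ else 1)) :=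
  (R.F_bound hp F hF w).trans
    (mul_le_mul_of_nonneg_left (R.prod_wt_le hp hl hδ w) ((norm_nonneg F).trans hF))

end Reg

end Vale.Agent.P273.H732
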