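import Vale.Agent.P273.H730.One1
import Vale.Agent.P273.H578.PsiB
import Vale.Agent.P273.H973.Pol
import Vale.Agent.P273.H973.GaugeDef

/-!
# P273, row ASY1, item (V): vertical bounds and bounds of the differences at one node

From `NeckO`, `CoreO`, `FarO` (helper730): `VB O k q d t B` = the bounds of the vertical part of the
one mark form at every point of the curve, in the scale `Hs` of helper578, `t = 1 / (length of the
neck)`.  `VB.del0`, `VB.del1`, `VB.del2`: the differences `del` of near marks.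
-/

noncomputable section

namespace Vale.Agent.P273.H732.V1

open Set Filter H681 H95 H973 H730
open H578 (Hs Off Pt Nr del cont rad Small Hs_le Hs_pos cont_pt norm_del_le_vert)
open scoped Topology ContDiff

/-! ### roots and directions -/

theorem bd_castSucc (k : Fin 5) (q : C6) (d : ℂ) : bd k q d k.castSucc = q k.castSucc - d := by
  simp [bd, H828.pr]

theorem bd_succ (k : Fin 5) (q : C6) (d : ℂ) : bd k q d k.succ = q k.castSucc + d := by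
  have h : k.succ ≠ k.castSucc := by
    intro h
    have := congrArg Fin.val h
    simp at this
  simp [bd, H828.pr, h]

theorem bw_zero (k : Fin 5) (d : ℂ) : bw k 0 d 0 = 0 := by
  funext j
  simp only [bw, H828.pr, Pi.zero_apply, mul_zero, sub_zero, add_zero]
  split_ifs <;> rfl

theorem nv_vert (k : Fin 5) (d X Y l : ℂ) : nv k 0 d X Y l (-l) = (0, (X - Y) / 2 * l) := by
  have h : (l + -l) / 2 = 0 := by ring
  unfold nv
  rw [h, bw_zero]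
  refine Prod.ext rfl ?_
  simp only [Pi.zero_apply, zero_add]
  ring

/-- neck coordinates of any point -/
theorem exists_XY (z d : ℂ) : ∃ X Y : ℂ, X * Y = d ^ 2 ∧ (X + Y) / 2 = z ∧
    ((X - Y) / 2) ^ 2 = (z - d) * (z + d) := by
  obtain ⟨s, hs⟩ := IsAlgClosed.exists_pow_nat_eq ((z - d) * (z + d)) (two_pos)
  refine ⟨z + s, z - s, ?_, by ring, ?_⟩
  · have : (z + s) * (z - s) = z ^ 2 - s ^ 2 := by ring
    rw [this, hs]; ring
  · rw [← hs]; ring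

theorem norm_s_le {z d s : ℂ} (h : s ^ 2 = (z - d) * (z + d)) : ‖s‖ ≤ ‖z‖ + ‖d‖ := by
  have h1 : ‖s‖ ^ 2 ≤ (‖z‖ + ‖d‖) ^ 2 := by
    rw [← norm_pow, h, norm_mul, sq]
    exact mul_le_mul (norm_sub_le _ _) (norm_add_le _ _) (norm_nonneg _) (by positivity)
  exact le_of_sq_le_sq h1 (by positivity)

/-- the two neck coordinates are bounded by the distance to the centre -/
theorem norm_XY_le {z d X Y : ℂ} (h1 : (X + Y) / 2 = z) (h2 : ((X - Y) / 2) ^ 2 = (z - d) * (z + d)) :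
    ‖X‖ ≤ 2 * ‖z‖ + ‖d‖ ∧ ‖Y‖ ≤ 2 * ‖z‖ + ‖d‖ := by
  have h3 := norm_s_le h2
  have hX : X = z + (X - Y) / 2 := by rw [← h1]; ring
  have hY : Y = z - (X - Y) / 2 := by rw [← h1]; ring
  constructor
  · calc ‖X‖ = ‖z + (X - Y) / 2‖ := by rw [← hX]
      _ ≤ ‖z‖ + ‖(X - Y) / 2‖ := norm_add_le _ _
      _ ≤ _ := by linarith
  · calc ‖Y‖ = ‖z - (X - Y) / 2‖ := by rw [← hY]
      _ ≤ ‖z‖ + ‖(X - Y) / 2‖ := norm_sub_le _ _
      _ ≤ _ := by linarith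

/-- weights: the distance to the centre and the neck coordinates -/
theorem norm_le_XY {d X Y : ℂ} (h : X * Y = d ^ 2) : ‖(X + Y) / 2‖ + ‖d‖ ≤ ‖X‖ + ‖Y‖ := by
  have h1 : ‖(X + Y) / 2‖ ≤ (‖X‖ + ‖Y‖) / 2 := by
    rw [norm_div]
    simp only [Complex.norm_ofNat]
    have := norm_add_le X Y
    linarith
  have h2 : ‖d‖ ≤ (‖X‖ + ‖Y‖) / 2 := by
    have h3 : ‖d‖ ^ 2 ≤ ((‖X‖ + ‖Y‖) / 2) ^ 2 := by
      rw [← norm_pow, ← h, norm_mul]
      nlinarith [sq_nonneg (‖X‖ - ‖Y‖)]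
    exact le_of_sq_le_sq h3 (by positivity)
  linarith

theorem XY_le_norm {d X Y : ℂ} (h : X * Y = d ^ 2) :
    ‖X‖ + ‖Y‖ ≤ 4 * ‖(X + Y) / 2‖ + 2 * ‖d‖ := by
  have h2 : ((X - Y) / 2) ^ 2 = ((X + Y) / 2 - d) * ((X + Y) / 2 + d) := by
    have : ((X + Y) / 2 - d) * ((X + Y) / 2 + d) = ((X + Y) / 2) ^ 2 - d ^ 2 := by ring
    rw [this, ← h]; ring
  have := norm_XY_le rfl h2
  linarith [this.1, this.2]

/-- the scale is at most the half difference of the neck coordinates -/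
theorem Hs_le_half {k : Fin 5} {q : C6} {d x X Y : ℂ} (hoff : Off (bd k q d) x)
    (h2 : ((X - Y) / 2) ^ 2 = ((x - q k.castSucc) - d) * ((x - q k.castSucc) + d)) :
    Hs (bd k q d) x ≤ ‖(X - Y) / 2‖ := by
  have h3 := Hs_le hoff k.castSucc
  have h4 := Hs_le hoff k.succ
  rw [bd_castSucc] at h3
  rw [bd_succ] at h4
  have h5 : ‖(X - Y) / 2‖ ^ 2 = ‖x - (q k.castSucc - d)‖ * ‖x - (q k.castSucc + d)‖ := by
    rw [← norm_pow, h2, norm_mul, mul_comm]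
    congr 2 <;> ring
  have h6 : 0 ≤ Hs (bd k q d) x := H578.Hs_nonneg _ _
  refine le_of_sq_le_sq ?_ (norm_nonneg _)
  rw [h5, sq]
  exact mul_le_mul h3 h4 h6 (norm_nonneg _)

/-! ### the length of the neck -/

theorem norm_d_eq {c : ℝ} {d : ℂ} (hc : 0 < c) (hd : d ≠ 0) :
    ‖d‖ = c * Real.exp (-(yl c d / 2)) := by
  have h1 : 0 < ‖d‖ := norm_pos_iff.2 hd
  unfold yl
  rw [mul_div_cancel_left₀ _ two_ne_zero, ← Real.log_inv, Real.exp_log (by positivity), inv_div]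
  field_simp

theorem norm_d_lt {c r : ℝ} {d : ℂ} (hc : 0 < c) (hr : 0 < r) (hd : d ≠ 0)
    (h : 2 * Real.log (c / r) + 1 ≤ yl c d) : ‖d‖ < r := by
  rw [norm_d_eq hc hd]
  have h1 : -(yl c d / 2) < -Real.log (c / r) := by linarith
  have h2 := Real.exp_lt_exp.2 h1
  rw [← Real.log_inv, Real.exp_log (by positivity), inv_div] at h2
  calc c * Real.exp (-(yl c d / 2)) < c * (r / c) := mul_lt_mul_of_pos_left h2 hc
    _ = r := by field_simp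

theorem Adm.mono {k : Fin 5} {U U' : Set C6} {c M M' : ℝ} {q : C6} {d : ℂ} (h : Adm k U c M q d)
    (hU : U ⊆ U') (hM : M' ≤ M) : Adm k U' c M' q d :=
  ⟨hU h.qU, h.qX, h.d0, hM.trans h.len, h.mem⟩

/-! ### the vertical bounds -/

/-- **the vertical bounds at one configuration**; `t` = inverse length of the neck -/
structure VB (O : One) (k : Fin 5) (q : C6) (d : ℂ) (t B : ℝ) : Prop where
  v0 : ∀ x v ζ, On1 false (bd k q d, x) v → ∀ ξ, IsCl ξ →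
    |O.η ξ false (bd k q d, x) v (0, ζ)| ≤ B * ‖ξ‖ * (‖ζ‖ / Hs (bd k q d) x)
  v1 : ∀ x v ζ, On1 false (bd k q d, x) v → ∀ ξ, IsCl ξ → ξ k.castSucc = ξ k.succ →
    |O.η ξ false (bd k q d, x) v (0, ζ)| ≤
      B * ‖ξ‖ * (‖x - q k.castSucc‖ + ‖d‖ + t) * (‖ζ‖ / Hs (bd k q d) x)
  v2 : ∀ x v ζ, On1 false (bd k q d, x) v →
    |O.η (alc k) false (bd k q d, x) v (0, ζ)| ≤ B * t * (‖ζ‖ / Hs (bd k q d) x)

theorem isCl_alc (k : Fin 5) : IsCl (alc k) := by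
  have h : ∀ ξ : Fin 6 → ℝ, IsCl ξ ↔ ξ 0 - ξ 1 + ξ 2 - ξ 3 + ξ 4 - ξ 5 = 0 := by
    intro ξ
    unfold IsCl
    rw [Fin.sum_univ_six]
    norm_num [Fin.ext_iff]
    constructor <;> intro h <;> linarith
  rw [h]
  fin_cases k <;> simp [alc]

theorem pt_of_on {b : C6} {x v : ℂ} (h : On1 false (b, x) v) : Pt b (x, v) := on1_false.1 h

/-- the neck part -/
theorem neck_vert {O : One} {k : Fin 5} {q : C6} {d : ℂ} {t B : ℝ} (hB : 0 ≤ B) (ht : 0 ≤ t)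
    {X Y x v : ℂ} (hX : X * Y = d ^ 2) (hx : (X + Y) / 2 = x - q k.castSucc)
    (hv : On1 false (bd k q d, x) v)
    (h : ∀ (lX lY : ℂ) (ξ : Fin 6 → ℝ), IsCl ξ →
      |O.η ξ false (bd k q d, xn k q X Y) v (nv k 0 d X Y lX lY)| ≤
        B * ‖ξ‖ * (‖(0 : C6)‖ + ‖lX‖ + ‖lY‖) ∧
      (ξ k.castSucc = ξ k.succ →
        |O.η ξ false (bd k q d, xn k q X Y) v (nv k 0 d X Y lX lY)| ≤
          B * ‖ξ‖ * (‖(0 : C6)‖ + (‖X‖ + t) * ‖lX‖ + (‖Y‖ + t) * ‖lY‖)) ∧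
      |O.η (alc k) false (bd k q d, xn k q X Y) v (nv k 0 d X Y lX lY)| ≤
        B * t * (‖(0 : C6)‖ + ‖lX‖ + ‖lY‖)) (ζ : ℂ) :
    (∀ ξ, IsCl ξ →
      |O.η ξ false (bd k q d, x) v (0, ζ)| ≤ (4 * B) * ‖ξ‖ * (‖ζ‖ / Hs (bd k q d) x) ∧
      (ξ k.castSucc = ξ k.succ → |O.η ξ false (bd k q d, x) v (0, ζ)| ≤
        (4 * B) * ‖ξ‖ * (‖x - q k.castSucc‖ + ‖d‖ + t) * (‖ζ‖ / Hs (bd k q d) x))) ∧
    |O.η (alc k) false (bd k q d, x) v (0, ζ)| ≤ (4 * B) * t * (‖ζ‖ / Hs (bd k q d) x) := by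
  have hxn : xn k q X Y = x := by unfold xn; rw [hx]; ring
  have hoff := (pt_of_on hv).off
  have h2 : ((X - Y) / 2) ^ 2 = ((x - q k.castSucc) - d) * ((x - q k.castSucc) + d) := by
    have e : ((x - q k.castSucc) - d) * ((x - q k.castSucc) + d)
        = (x - q k.castSucc) ^ 2 - d ^ 2 := by ring
    rw [e, ← hx, ← hX]; ring
  have hH : 0 < Hs (bd k q d) x := Hs_pos hoff
  have hs := Hs_le_half hoff h2
  have hs0 : 0 < ‖(X - Y) / 2‖ := hH.trans_le hs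
  set l : ℂ := ζ / ((X - Y) / 2) with hl
  have hnv : nv k 0 d X Y l (-l) = (0, ζ) := by
    rw [nv_vert, hl, mul_div_cancel₀ _ (norm_pos_iff.1 hs0)]
  have hln : ‖l‖ ≤ ‖ζ‖ / Hs (bd k q d) x := by
    rw [hl, norm_div]
    exact div_le_div_of_nonneg_left (norm_nonneg _) hH hs
  have hl0 : 0 ≤ ‖ζ‖ / Hs (bd k q d) x := by positivity
  have hXY := norm_XY_le hx h2
  refine ⟨fun ξ hξ => ⟨?_, fun h1 => ?_⟩, ?_⟩
  · have h3 := (h l (-l) ξ hξ).1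
    rw [hxn, hnv, norm_neg, norm_zero] at h3
    refine h3.trans ?_
    calc B * ‖ξ‖ * (0 + ‖l‖ + ‖l‖) = 2 * B * ‖ξ‖ * ‖l‖ := by ring
      _ ≤ 2 * B * ‖ξ‖ * (‖ζ‖ / Hs (bd k q d) x) := by gcongr
      _ ≤ _ := by
        have : 0 ≤ B * ‖ξ‖ * (‖ζ‖ / Hs (bd k q d) x) := by positivity
        linarith
  · have h3 := (h l (-l) ξ hξ).2.1 h1
    rw [hxn, hnv, norm_neg, norm_zero] at h3
    refine h3.trans ?_
    have h4 : 0 ≤ ‖x - q k.castSucc‖ := norm_nonneg _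
    have h5 : 0 ≤ ‖d‖ := norm_nonneg _
    have h6 : 0 + (‖X‖ + t) * ‖l‖ + (‖Y‖ + t) * ‖l‖ ≤
        4 * (‖x - q k.castSucc‖ + ‖d‖ + t) * (‖ζ‖ / Hs (bd k q d) x) := by
      calc 0 + (‖X‖ + t) * ‖l‖ + (‖Y‖ + t) * ‖l‖ = (‖X‖ + ‖Y‖ + 2 * t) * ‖l‖ := by ring
        _ ≤ (4 * (‖x - q k.castSucc‖ + ‖d‖ + t)) * (‖ζ‖ / Hs (bd k q d) x) := by
          refine mul_le_mul ?_ hln (norm_nonneg _) (by positivity)
          linarith [hXY.1, hXY.2]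
    calc B * ‖ξ‖ * (0 + (‖X‖ + t) * ‖l‖ + (‖Y‖ + t) * ‖l‖)
        ≤ B * ‖ξ‖ * (4 * (‖x - q k.castSucc‖ + ‖d‖ + t) * (‖ζ‖ / Hs (bd k q d) x)) := by gcongr
      _ = _ := by ring
  · have h3 := (h l (-l) (alc k) (isCl_alc k)).2.2
    rw [hxn, hnv, norm_neg, norm_zero] at h3
    refine h3.trans ?_
    calc B * t * (0 + ‖l‖ + ‖l‖) = 2 * B * t * ‖l‖ := by ring
      _ ≤ 2 * B * t * (‖ζ‖ / Hs (bd k q d) x) := by gcongr
      _ ≤ _ := by
        have : 0 ≤ B * t * (‖ζ‖ / Hs (bd k q d) x) := by positivity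
        linarith

/-- the core part -/
theorem core_vert {O : One} {k : Fin 5} {q : C6} {d : ℂ} {t B c C : ℝ} (hB : 0 ≤ B) (ht : 0 ≤ t)
    (hc : 0 < c) {x v : ℂ} (hv : On1 false (bd k q d, x) v) (hx : c / 4 ≤ ‖x - q k.castSucc‖)
    (hC : ‖x - bd k q d k.castSucc‖ ≤ C)
    (h : ∀ (ζ : ℂ) (ξ : Fin 6 → ℝ), IsCl ξ →
      |O.η ξ false (bd k q d, x) v (bw k 0 d 0, ζ)| ≤ B * ‖ξ‖ * ‖ζ‖ ∧
      |O.η (alc k) false (bd k q d, x) v (bw k 0 d 0, ζ)| ≤ B * t * ‖ζ‖) (ζ : ℂ) :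
    (∀ ξ, IsCl ξ →
      |O.η ξ false (bd k q d, x) v (0, ζ)| ≤ (B * C) * ‖ξ‖ * (‖ζ‖ / Hs (bd k q d) x) ∧
      |O.η ξ false (bd k q d, x) v (0, ζ)| ≤
        (B * C * (4 / c)) * ‖ξ‖ * (‖x - q k.castSucc‖ + ‖d‖ + t) * (‖ζ‖ / Hs (bd k q d) x)) ∧
    |O.η (alc k) false (bd k q d, x) v (0, ζ)| ≤ (B * C) * t * (‖ζ‖ / Hs (bd k q d) x) := by
  have hoff := (pt_of_on hv).off
  have hH : 0 < Hs (bd k q d) x := Hs_pos hoff
  have hC0 : Hs (bd k q d) x ≤ C := (Hs_le hoff _).trans hC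
  have hz : ‖ζ‖ ≤ C * (‖ζ‖ / Hs (bd k q d) x) := by
    rw [← mul_div_assoc, le_div_iff₀ hH, mul_comm]
    exact mul_le_mul_of_nonneg_right hC0 (norm_nonneg _)
  have hCp : 0 < C := hH.trans_le hC0
  rw [bw_zero] at h
  refine ⟨fun ξ hξ => ⟨?_, ?_⟩, ?_⟩
  · refine (h ζ ξ hξ).1.trans ?_
    calc B * ‖ξ‖ * ‖ζ‖ ≤ B * ‖ξ‖ * (C * (‖ζ‖ / Hs (bd k q d) x)) := by gcongr
      _ = _ := by ring
  · refine (h ζ ξ hξ).1.trans ?_
    have h1 : 1 ≤ (4 / c) * (‖x - q k.castSucc‖ + ‖d‖ + t) := by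
      have h2 : (4 / c) * (c / 4) = 1 := by field_simp
      calc (1 : ℝ) = (4 / c) * (c / 4) := h2.symm
        _ ≤ _ := by
          refine mul_le_mul_of_nonneg_left ?_ (by positivity)
          linarith [norm_nonneg d]
    calc B * ‖ξ‖ * ‖ζ‖ ≤ B * ‖ξ‖ * (C * (‖ζ‖ / Hs (bd k q d) x)) := by gcongr
      _ = (B * C * ‖ξ‖ * (‖ζ‖ / Hs (bd k q d) x)) * 1 := by ring
      _ ≤ (B * C * ‖ξ‖ * (‖ζ‖ / Hs (bd k q d) x)) *
          ((4 / c) * (‖x - q k.castSucc‖ + ‖d‖ + t)) := by gcongr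
      _ = _ := by ring
  · refine (h ζ (alc k) (isCl_alc k)).2.trans ?_
    calc B * t * ‖ζ‖ ≤ B * t * (C * (‖ζ‖ / Hs (bd k q d) x)) := by gcongr
      _ = _ := by ring

/-- **(V1) the vertical bounds from the neck, core and far bounds** -/
theorem vert1 {O : One} (hN : NeckO O) (hC : CoreO O) (hF : FarO O) : ∀ k : Fin 5,
    ∀ q₀ ∈ H828.XD k, ∃ U ∈ 𝓝 q₀, ∃ c₀ > 0, ∀ c, 0 < c → c ≤ c₀ → ∃ M₀ B : ℝ, 0 < M₀ ∧ 0 < B ∧
      ∀ q d, Adm k U c M₀ q d → VB O k q d (yl c d)⁻¹ B := by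
  intro k q₀ hq₀
  obtain ⟨U₁, hU₁, c₀, hc₀, hN⟩ := hN k q₀ hq₀
  obtain ⟨U₂, hU₂, R₁, hR₁, hC⟩ := hC k q₀ hq₀
  obtain ⟨U₃, hU₃, r, hr, R, hR, hF⟩ := hF k q₀ hq₀
  refine ⟨U₁ ∩ U₂ ∩ U₃ ∩ Metric.ball q₀ 1, inter_mem (inter_mem (inter_mem hU₁ hU₂) hU₃)
    (Metric.ball_mem_nhds _ one_pos), c₀, hc₀, fun c hc hcc => ?_⟩
  obtain ⟨M₁, B₁, hM₁, hB₁, hN⟩ := hN c hc hcc
  obtain ⟨M₂, B₂, hM₂, hB₂, hC⟩ := hC c hc (max R₁ R) (le_max_left _ _)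
  set R₀ := max R₁ R with hR₀
  set Cc : ℝ := R₀ + (‖q₀‖ + 1) + c with hCc
  have hR₀p : 0 < R₀ := lt_max_of_lt_left hR₁
  have hCcp : 0 < Cc := by positivity
  refine ⟨max (max M₁ M₂) (max (2 * Real.log (c / r) + 1) (2 * Real.log (c / (c / 4)) + 1)),
    4 * B₁ + B₂ * Cc + B₂ * Cc * (4 / c), lt_max_of_lt_left (lt_max_of_lt_left hM₁), by positivity,
    fun q d hA => ?_⟩
  have hA1 : Adm k U₁ c M₁ q d := Adm.mono hA (fun _ h => h.1.1.1)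
    ((le_max_left _ _).trans (le_max_left _ _))
  have hA2 : Adm k U₂ c M₂ q d := Adm.mono hA (fun _ h => h.1.1.2)
    ((le_max_right _ _).trans (le_max_left _ _))
  have hqU3 : q ∈ U₃ := hA.qU.1.2
  have hq1 : ‖q‖ ≤ ‖q₀‖ + 1 := by
    have h1 := mem_ball_iff_norm.1 hA.qU.2
    have h2 := norm_sub_norm_le q q₀
    linarith
  have hdr : ‖d‖ < r := norm_d_lt hc hr hA.d0
    ((le_max_left _ _).trans ((le_max_right _ _).trans hA.len))
  have hdc : ‖d‖ < c / 4 := norm_d_lt hc (by positivity) hA.d0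
    ((le_max_right _ _).trans ((le_max_right _ _).trans hA.len))
  have hy : 0 < yl c d := lt_of_lt_of_le (lt_max_of_lt_left (lt_max_of_lt_left hM₁)) hA.len
  have ht : 0 ≤ (yl c d)⁻¹ := (inv_pos.2 hy).le
  have key : ∀ x v ζ, On1 false (bd k q d, x) v →
      (∀ ξ, IsCl ξ →
        |O.η ξ false (bd k q d, x) v (0, ζ)| ≤
          (4 * B₁ + B₂ * Cc + B₂ * Cc * (4 / c)) * ‖ξ‖ * (‖ζ‖ / Hs (bd k q d) x) ∧
        (ξ k.castSucc = ξ k.succ → |O.η ξ false (bd k q d, x) v (0, ζ)| ≤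
          (4 * B₁ + B₂ * Cc + B₂ * Cc * (4 / c)) * ‖ξ‖ *
            (‖x - q k.castSucc‖ + ‖d‖ + (yl c d)⁻¹) * (‖ζ‖ / Hs (bd k q d) x))) ∧
      |O.η (alc k) false (bd k q d, x) v (0, ζ)| ≤
        (4 * B₁ + B₂ * Cc + B₂ * Cc * (4 / c)) * (yl c d)⁻¹ * (‖ζ‖ / Hs (bd k q d) x) := by
    intro x v ζ hv
    have hH : 0 < Hs (bd k q d) x := Hs_pos (pt_of_on hv).off
    have hw : 0 ≤ ‖ζ‖ / Hs (bd k q d) x := by positivity
    have hwt : 0 ≤ ‖x - q k.castSucc‖ + ‖d‖ + (yl c d)⁻¹ := by positivity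
    have p2 : 0 ≤ B₂ * Cc := by positivity
    have p3 : 0 ≤ B₂ * Cc * (4 / c) := by positivity
    have c1 : 4 * B₁ ≤ 4 * B₁ + B₂ * Cc + B₂ * Cc * (4 / c) := by linarith
    have c2 : B₂ * Cc ≤ 4 * B₁ + B₂ * Cc + B₂ * Cc * (4 / c) := by linarith
    have c3 : B₂ * Cc * (4 / c) ≤ 4 * B₁ + B₂ * Cc + B₂ * Cc * (4 / c) := by linarith
    by_cases h1 : ‖x - q k.castSucc‖ < 3 * c / 8
    · -- neck
      obtain ⟨X, Y, e1, e2, e3⟩ := exists_XY (x - q k.castSucc) d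
      have h2 := norm_XY_le e2 e3
      have hxn : xn k q X Y = x := by unfold xn; rw [e2]; ring
      have hin : InNeck k c q d X Y v := ⟨e1, by linarith [h2.1], by linarith [h2.2],
        by rw [hxn]; exact hv⟩
      have h3 := (hN q d hA1 X Y v hin).1
      have h4 := neck_vert hB₁.le ht e1 e2 hv (fun lX lY ξ hξ => h3 0 lX lY ξ hξ) ζ
      refine ⟨fun ξ hξ => ⟨(h4.1 ξ hξ).1.trans ?_, fun h5 => ((h4.1 ξ hξ).2 h5).trans ?_⟩,
        h4.2.trans ?_⟩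
      · gcongr
      · gcongr
      · gcongr
    · push Not at h1
      by_cases h2 : ‖x‖ ≤ R₀
      · -- core
        have hin : InCore k c R₀ q d false x v := ⟨by
          simp only [Bool.false_eq_true, if_false]
          exact ⟨h2, by linarith⟩, hv⟩
        have h3 := hC q d hA2 false x v hin
        have h4 : ‖x - bd k q d k.castSucc‖ ≤ Cc := by
          rw [bd_castSucc]
          have h5 := norm_le_pi_norm q k.castSucc
          calc ‖x - (q k.castSucc - d)‖ ≤ ‖x‖ + ‖q k.castSucc - d‖ := norm_sub_le _ _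
            _ ≤ ‖x‖ + (‖q k.castSucc‖ + ‖d‖) := by gcongr; exact norm_sub_le _ _
            _ ≤ Cc := by rw [hCc]; linarith
        have h5 := core_vert (O := O) (k := k) (q := q) (d := d) hB₂.le ht hc hv
          (by linarith) h4 (fun ζ ξ hξ => by
            have h6 := h3 0 0 ζ ξ hξ
            simp only [norm_zero, mul_zero, add_zero, zero_add, Complex.zero_im, abs_zero] at h6
            exact ⟨h6.1, h6.2.2⟩) ζ
        refine ⟨fun ξ hξ => ⟨(h5.1 ξ hξ).1.trans ?_, fun _ => ((h5.1 ξ hξ).2).trans ?_⟩,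
          h5.2.trans ?_⟩
        · gcongr
        · gcongr
        · gcongr
      · push Not at h2
        have h3 : ∀ ξ, IsCl ξ → O.η ξ false (bd k q d, x) v (0, ζ) = 0 := fun ξ hξ =>
          hF q hqU3 hA.qX d hdr hA.mem ξ x v hξ ((le_max_right _ _).trans_lt h2) hv ζ
        have hp : 0 ≤ 4 * B₁ + B₂ * Cc + B₂ * Cc * (4 / c) := by positivity
        refine ⟨fun ξ hξ => ⟨?_, fun _ => ?_⟩, ?_⟩
        · rw [h3 ξ hξ, abs_zero]; positivity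
        · rw [h3 ξ hξ, abs_zero]; positivity
        · rw [h3 _ (isCl_alc k), abs_zero]; positivity
  exact ⟨fun x v ζ hv ξ hξ => ((key x v ζ hv).1 ξ hξ).1,
    fun x v ζ hv ξ hξ h1 => ((key x v ζ hv).1 ξ hξ).2 h1, fun x v ζ hv => (key x v ζ hv).2⟩

/-! ### near marks -/

/-- **(V2) the weights of near marks are comparable** -/
theorem weight_le {k : Fin 5} {q : C6} {d : ℂ} {P Q : ℂ × ℂ} {ρ : ℝ} (hρ : ρ ≤ 1 / 16)
    (hP : Pt (bd k q d) P) (h : Nr ρ (bd k q d) P Q) :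
    ‖Q.1 - q k.castSucc‖ + ‖d‖ ≤ 2 * (‖P.1 - q k.castSucc‖ + ‖d‖) ∧
      ‖P.1 - q k.castSucc‖ + ‖d‖ ≤ 2 * (‖Q.1 - q k.castSucc‖ + ‖d‖) := by
  have h1 := Hs_le hP.off k.castSucc
  rw [bd_castSucc] at h1
  have h2 : ‖P.1 - (q k.castSucc - d)‖ ≤ ‖P.1 - q k.castSucc‖ + ‖d‖ := by
    have e : P.1 - (q k.castSucc - d) = (P.1 - q k.castSucc) + d := by ring
    rw [e]; exact norm_add_le _ _
  have h3 : ‖P.1 - Q.1‖ ≤ 1 / 16 * (‖P.1 - q k.castSucc‖ + ‖d‖) := by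
    refine h.2.le.trans ?_
    have h0 : 0 ≤ Hs (bd k q d) P.1 := H578.Hs_nonneg _ _
    calc ρ * Hs (bd k q d) P.1 ≤ 1 / 16 * Hs (bd k q d) P.1 := by gcongr
      _ ≤ _ := by
        refine mul_le_mul_of_nonneg_left (h1.trans h2) (by norm_num)
  have h4 : ‖Q.1 - q k.castSucc‖ ≤ ‖P.1 - q k.castSucc‖ + ‖P.1 - Q.1‖ := by
    have e : Q.1 - q k.castSucc = (P.1 - q k.castSucc) - (P.1 - Q.1) := by ring
    rw [e]; exact norm_sub_le _ _
  have h5 : ‖P.1 - q k.castSucc‖ ≤ ‖Q.1 - q k.castSucc‖ + ‖P.1 - Q.1‖ := by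
    have e : P.1 - q k.castSucc = (Q.1 - q k.castSucc) + (P.1 - Q.1) := by ring
    calc ‖P.1 - q k.castSucc‖ = ‖(Q.1 - q k.castSucc) + (P.1 - Q.1)‖ := by rw [← e]
      _ ≤ _ := norm_add_le _ _
  have h6 := norm_nonneg d
  have h7 := norm_nonneg (P.1 - q k.castSucc)
  have h8 := norm_nonneg (Q.1 - q k.castSucc)
  constructor <;> linarith

section del

variable {O : One} {k : Fin 5} {q : C6} {d : ℂ} {t B ρ : ℝ}

/-- the common part of the three bounds -/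
theorem del_le (ξ : Fin 6 → ℝ) {P Q : ℂ × ℂ} (hρ0 : 0 < ρ) (hρ : ρ ≤ 1 / 16)
    (hP : Pt (bd k q d) P) (h : Nr ρ (bd k q d) P Q) {A : ℝ}
    (hA : ∀ x' v', On1 false (bd k q d, x') v' → ‖P.1 - x'‖ < ρ * Hs (bd k q d) P.1 → ∀ w : ℂ,
      |O.η ξ false (bd k q d, x') v' (0, w)| ≤ A * (‖w‖ / Hs (bd k q d) x')) :
    ‖del (etx O ξ) (bd k q d) P Q‖ ≤ 2 * ρ * A := by
  have hs : Small (Fin 6) ρ := H578.small_six hρ0.le hρ
  refine norm_del_le_vert hP hρ0 hs h fun x' hx' w => ?_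
  have hH := Hs_pos hP.off
  have h1 : ‖P.1 - x'‖ < Hs (bd k q d) P.1 := by nlinarith
  have hpt := cont_pt hP h1
  have h2 := hA x' (cont (bd k q d) P x') (on1_false.2 hpt) hx' w
  have hH' : 0 < Hs (bd k q d) x' := Hs_pos hpt.off
  have h3 := mul_le_mul_of_nonneg_right h2 hH'.le
  rw [mul_assoc A, div_mul_cancel₀ _ hH'.ne'] at h3
  exact h3

theorem VB.nonneg (hV : VB O k q d t B) {P : ℂ × ℂ} (hP : Pt (bd k q d) P) : 0 ≤ B := by
  have h1 := hV.v0 P.1 P.2 1 (on1_false.2 hP) (alc k) (isCl_alc k)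
  have hH := Hs_pos hP.off
  have h2 : ‖alc k‖ = 1 := by
    refine le_antisymm ((pi_norm_le_iff_of_nonneg zero_le_one).2 fun j => ?_) ?_
    · unfold alc; split_ifs <;> simp
    · have := norm_le_pi_norm (alc k) k.castSucc
      simpa [alc] using this
  rw [h2, norm_one] at h1
  have h3 := (abs_nonneg _).trans h1
  by_contra h
  push Not at h
  have h4 : B * 1 * (1 / Hs (bd k q d) P.1) < 0 := by
    rw [mul_one]
    exact mul_neg_of_neg_of_pos h (by positivity)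
  linarith

/-- **(V2) the difference of near marks, any class** -/
theorem VB.del0 (hV : VB O k q d t B) {P Q : ℂ × ℂ} (hρ0 : 0 < ρ) (hρ : ρ ≤ 1 / 16)
    (hP : Pt (bd k q d) P) (h : Nr ρ (bd k q d) P Q) {ξ : Fin 6 → ℝ} (hξ : IsCl ξ) :
    ‖del (etx O ξ) (bd k q d) P Q‖ ≤ B * ‖ξ‖ := by
  have hB := hV.nonneg hP
  have h1 := del_le (A := B * ‖ξ‖) ξ hρ0 hρ hP h fun x' v' hv' _ w => hV.v0 x' v' w hv' ξ hξ
  refine h1.trans ?_
  have : 0 ≤ B * ‖ξ‖ := by positivity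
  nlinarith

/-- **(V2) the difference of near marks, classes with equal numbers on the pair** -/
theorem VB.del1 (hV : VB O k q d t B) (ht : 0 ≤ t) {P Q : ℂ × ℂ} (hρ0 : 0 < ρ) (hρ : ρ ≤ 1 / 16)
    (hP : Pt (bd k q d) P) (h : Nr ρ (bd k q d) P Q) {ξ : Fin 6 → ℝ} (hξ : IsCl ξ)
    (h1 : ξ k.castSucc = ξ k.succ) :
    ‖del (etx O ξ) (bd k q d) P Q‖ ≤ B * ‖ξ‖ * (‖P.1 - q k.castSucc‖ + ‖d‖ + t) := by
  have hB := hV.nonneg hP
  have hw : 0 ≤ B * ‖ξ‖ * (‖P.1 - q k.castSucc‖ + ‖d‖ + t) := by positivity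
  have h2 := del_le (O := O) (A := 2 * (B * ‖ξ‖ * (‖P.1 - q k.castSucc‖ + ‖d‖ + t))) ξ hρ0 hρ hP h
    (fun x' v' hv' hx' w => ?_)
  · refine h2.trans ?_
    nlinarith
  · refine (hV.v1 x' v' w hv' ξ hξ h1).trans ?_
    have hH' : 0 < Hs (bd k q d) x' := Hs_pos (pt_of_on hv').off
    have h3 : ‖x' - q k.castSucc‖ + ‖d‖ + t ≤ 2 * (‖P.1 - q k.castSucc‖ + ‖d‖ + t) := by
      have hN : Nr ρ (bd k q d) P (x', P.2) := ⟨H578.same_self hP.2, hx'⟩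
      have := (weight_le hρ hP hN).1
      simp only at this
      linarith
    calc B * ‖ξ‖ * (‖x' - q k.castSucc‖ + ‖d‖ + t) * (‖w‖ / Hs (bd k q d) x')
        ≤ B * ‖ξ‖ * (2 * (‖P.1 - q k.castSucc‖ + ‖d‖ + t)) * (‖w‖ / Hs (bd k q d) x') := by
          gcongr
      _ = _ := by ring

/-- **(V2) the difference of near marks, the class of the pair** -/
theorem VB.del2 (hV : VB O k q d t B) (ht : 0 ≤ t) {P Q : ℂ × ℂ} (hρ0 : 0 < ρ) (hρ : ρ ≤ 1 / 16)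
    (hP : Pt (bd k q d) P) (h : Nr ρ (bd k q d) P Q) :
    ‖del (etx O (alc k)) (bd k q d) P Q‖ ≤ B * t := by
  have hB := hV.nonneg hP
  have h1 := del_le (A := B * t) (alc k) hρ0 hρ hP h fun x' v' hv' _ w => hV.v2 x' v' w hv'
  refine h1.trans ?_
  have : 0 ≤ B * t := by positivity
  nlinarith

end del

/-- the radii of the recursion are small -/
theorem rad_pos (n : ℕ) : 0 < rad n := by unfold rad; positivity

theorem rad_le (n : ℕ) : rad n ≤ 1 / 16 := by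
  unfold rad
  calc (1 / 16 : ℝ) ^ (n + 2) ≤ (1 / 16 : ℝ) ^ 1 :=
        pow_le_pow_of_le_one (by norm_num) (by norm_num) (by omega)
    _ = 1 / 16 := pow_one _

end Vale.Agent.P273.H732.V1

end
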